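import Vale.Agent.P101K.Cop

open scoped ENNReal Topology
open Filter

namespace Vale.Agent.P095

open Vale.Agent.P101K

universe u v w

/-- an action of `G` by unital *-homomorphisms -/
structure IsAct {G : Type v} [Group G] {D : Type u} [Ring D] [StarRing D] [Algebra ℂ D]
    (α : G → (D →⋆ₐ[ℂ] D)) : Prop where
  one : ∀ x, α 1 x = x
  mul : ∀ g h x, α (g * h) x = α g (α h x)

/-- the elements fixed by all `α h`, `h ∈ H` -/
def fixAlg {G : Type v} {D : Type u} [Ring D] [StarRing D] [Algebra ℂ D] [StarModule ℂ D]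
    (α : G → (D →⋆ₐ[ℂ] D)) (H : Set G) : StarSubalgebra ℂ D where
  carrier := {x | ∀ h ∈ H, α h x = x}
  mul_mem' hx hy h hh := by rw [map_mul, hx h hh, hy h hh]
  add_mem' hx hy h hh := by rw [map_add, hx h hh, hy h hh]
  algebraMap_mem' r h _ := AlgHomClass.commutes (α h) r
  star_mem' hx h hh := by rw [map_star, hx h hh]

theorem mem_fixAlg {G : Type v} {D : Type u} [Ring D] [StarRing D] [Algebra ℂ D] [StarModule ℂ D]
    {α : G → (D →⋆ₐ[ℂ] D)} {H : Set G} {x : D} : x ∈ fixAlg α H ↔ ∀ h ∈ H, α h x = x := Iff.rfl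

theorem fixAlg_closed {G : Type v} {D : Type u} [CStarAlgebra D] (α : G → (D →⋆ₐ[ℂ] D))
    (H : Set G) : IsClosed (fixAlg α H : Set D) := by
  have : (fixAlg α H : Set D) = ⋂ h ∈ H, {x | α h x = x} := by
    ext x
    simp [mem_fixAlg]
  rw [this]
  refine isClosed_biInter fun h _ => isClosed_eq ?_ continuous_id
  exact AddMonoidHomClass.continuous_of_bound (α h) 1
    fun x => by simpa using NonUnitalStarAlgHom.norm_apply_le (α h) x

noncomputable instance fixCStar {G : Type v} {D : Type u} [CStarAlgebra D]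
    (α : G → (D →⋆ₐ[ℂ] D)) (H : Set G) : CStarAlgebra (fixAlg α H) :=
  haveI : IsClosed (fixAlg α H : Set D) := fixAlg_closed α H
  StarSubalgebra.cstarAlgebra (fixAlg α H)

instance fixNontrivial {G : Type v} {D : Type u} [CStarAlgebra D] [Nontrivial D]
    (α : G → (D →⋆ₐ[ℂ] D)) (H : Set G) : Nontrivial (fixAlg α H) :=
  ⟨⟨0, 1, fun h => zero_ne_one (congrArg Subtype.val h : (0 : D) = 1)⟩⟩

/-- equivariant commuting copies of countably generated subalgebras -/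
def EqCopies {G : Type v} {D : Type u} [CStarAlgebra D] (α : G → (D →⋆ₐ[ℂ] D)) : Prop :=
  ∀ X : Set D, X.Countable → ∃ (C : StarSubalgebra ℂ D) (hC : ∀ g, ∀ x ∈ C, α g x ∈ C), X ⊆ C ∧
    ∃ θ : ℕ → (C →⋆ₐ[ℂ] D), (∀ i j, i ≠ j → ∀ s t, Commute (θ i s) (θ j t)) ∧
      (∀ b, ∃ M : ℝ, ∀ i, ‖θ i b‖ ≤ M) ∧
      ∀ i g (s : C), α g (θ i s) = θ i ⟨α g s, hC g s s.2⟩

section Maps

variable {A : Type u} [CStarAlgebra A] [Nontrivial A]

/-- a unital *-endomorphism, applied to the terms of a sequence -/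
noncomputable def bmap (f : A →⋆ₐ[ℂ] A) : Bdd A →⋆ₐ[ℂ] Bdd A where
  toFun a := ⟨fun n => f (a n), memℓp_infty ⟨‖a‖, by
    rintro _ ⟨n, rfl⟩
    exact (NonUnitalStarAlgHom.norm_apply_le f (a n)).trans (aom_apply_le a n)⟩⟩
  map_one' := lp.ext (funext fun _ => map_one f)
  map_mul' _ _ := lp.ext (funext fun _ => map_mul f _ _)
  map_zero' := lp.ext (funext fun _ => map_zero f)
  map_add' _ _ := lp.ext (funext fun _ => map_add f _ _)
  commutes' r := lp.ext (funext fun _ => AlgHomClass.commutes f r)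
  map_star' _ := lp.ext (funext fun _ => map_star f _)

theorem bmap_apply (f : A →⋆ₐ[ℂ] A) (a : Bdd A) (n : ℕ) : (bmap f a) n = f (a n) := rfl

theorem omk_eq_zero_iff {ω : Ultrafilter ℕ} (x : Bdd A) :
    omk A ω x = 0 ↔ Tendsto (fun n => ‖x n‖) ω (𝓝 0) := by
  constructor
  · intro h
    have h1 := omk_norm A ω x
    rwa [h, norm_zero] at h1
  · intro h
    exact norm_eq_zero.1 (tendsto_nhds_unique (omk_norm A ω x) h)

theorem omk_eq_iff {ω : Ultrafilter ℕ} (x y : Bdd A) :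
    omk A ω x = omk A ω y ↔ Tendsto (fun n => ‖x n - y n‖) ω (𝓝 0) := by
  rw [← sub_eq_zero, ← map_sub, omk_eq_zero_iff]
  rfl

theorem exists_aomMap (ω : Ultrafilter ℕ) (f : A →⋆ₐ[ℂ] A) :
    ∃ F : Aom A ω →⋆ₐ[ℂ] Aom A ω, ∀ x, F (omk A ω x) = omk A ω (bmap f x) := by
  refine star_factor (omk A ω) (omk_surjective A ω) ((omk A ω).comp (bmap f)) fun s hs => ?_
  rw [omk_eq_zero_iff] at hs
  show omk A ω (bmap f s) = 0
  rw [omk_eq_zero_iff]
  refine squeeze_zero (fun n => norm_nonneg _) (fun n => ?_) hs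
  rw [bmap_apply]
  exact NonUnitalStarAlgHom.norm_apply_le f (s n)

/-- the induced *-endomorphism of `A_ω` -/
noncomputable def aomMap (ω : Ultrafilter ℕ) (f : A →⋆ₐ[ℂ] A) : Aom A ω →⋆ₐ[ℂ] Aom A ω :=
  (exists_aomMap ω f).choose

theorem aomMap_omk (ω : Ultrafilter ℕ) (f : A →⋆ₐ[ℂ] A) (x : Bdd A) :
    aomMap ω f (omk A ω x) = omk A ω (bmap f x) := (exists_aomMap ω f).choose_spec x

variable {G : Type v} [Group G]

/-- the underlying *-homomorphisms of an action -/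
def actHom (α : G →* (A ≃⋆ₐ[ℂ] A)) (g : G) : A →⋆ₐ[ℂ] A := (α g : A →⋆ₐ[ℂ] A)

theorem actHom_apply (α : G →* (A ≃⋆ₐ[ℂ] A)) (g : G) (x : A) : actHom α g x = α g x := rfl

theorem actHom_isAct (α : G →* (A ≃⋆ₐ[ℂ] A)) : IsAct (actHom α) := by
  refine ⟨fun x => ?_, fun g h x => ?_⟩
  · rw [actHom_apply, map_one]
    rfl
  · rw [actHom_apply, actHom_apply, actHom_apply, map_mul]
    rfl

theorem aomMap_mem_fom (ω : Ultrafilter ℕ) (α : G →* (A ≃⋆ₐ[ℂ] A)) (g : G) (x : Aom A ω)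
    (hx : x ∈ Fom A ω) : aomMap ω (actHom α g) x ∈ Fom A ω := by
  obtain ⟨x, rfl⟩ := omk_surjective A ω x
  rw [aomMap_omk, omk_mem_fom]
  rw [omk_mem_fom] at hx
  intro a
  have h1 := hx (actHom α g⁻¹ a)
  refine h1.congr fun n => ?_
  rw [bmap_apply]
  have e : actHom α g (actHom α g⁻¹ a) = a := by
    rw [← (actHom_isAct α).mul, mul_inv_cancel, (actHom_isAct α).one]
  have h2 : ‖actHom α g (x n * actHom α g⁻¹ a - actHom α g⁻¹ a * x n)‖
      = ‖x n * actHom α g⁻¹ a - actHom α g⁻¹ a * x n‖ := by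
    refine NonUnitalStarAlgHom.norm_map (actHom α g) ?_ _
    exact (α g).injective
  rw [← h2, map_sub, map_mul, map_mul, e]

/-- the action on `F_ω(A)` -/
noncomputable def fomAct (ω : Ultrafilter ℕ) (α : G →* (A ≃⋆ₐ[ℂ] A)) (g : G) :
    Fom A ω →⋆ₐ[ℂ] Fom A ω where
  toFun x := ⟨aomMap ω (actHom α g) x, aomMap_mem_fom ω α g x x.2⟩
  map_one' := Subtype.ext (map_one (aomMap ω (actHom α g)))
  map_mul' _ _ := Subtype.ext (map_mul (aomMap ω (actHom α g)) _ _)
  map_zero' := Subtype.ext (map_zero (aomMap ω (actHom α g)))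
  map_add' _ _ := Subtype.ext (map_add (aomMap ω (actHom α g)) _ _)
  commutes' r := Subtype.ext (AlgHomClass.commutes (aomMap ω (actHom α g)) r)
  map_star' _ := Subtype.ext (map_star (aomMap ω (actHom α g)) _)

theorem fomAct_coe (ω : Ultrafilter ℕ) (α : G →* (A ≃⋆ₐ[ℂ] A)) (g : G) (x : Fom A ω) :
    (fomAct ω α g x : Aom A ω) = aomMap ω (actHom α g) x := rfl

theorem fomAct_isAct (ω : Ultrafilter ℕ) (α : G →* (A ≃⋆ₐ[ℂ] A)) : IsAct (fomAct ω α) := by
  refine ⟨fun x => Subtype.ext ?_, fun g h x => Subtype.ext ?_⟩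
  · obtain ⟨y, hy⟩ := omk_surjective A ω (x : Aom A ω)
    rw [fomAct_coe, ← hy, aomMap_omk]
    congr 1
    exact lp.ext (funext fun n => (actHom_isAct α).one _)
  · obtain ⟨y, hy⟩ := omk_surjective A ω (x : Aom A ω)
    rw [fomAct_coe, fomAct_coe, fomAct_coe, ← hy, aomMap_omk, aomMap_omk, aomMap_omk]
    congr 1
    exact lp.ext (funext fun n => (actHom_isAct α).mul _ _ _)

end Maps

end Vale.Agent.P095
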