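import Mathlib

open scoped Topology
open Filter

namespace Vale.Agent.P095

universe u

/-- APU.  Sequential approximate unit of a separable C*-algebra: `CStarAlgebra.approximateUnit A`
(with `CStarAlgebra.spectralOrder`), for a dense sequence `d` pick `e n` selfadjoint, `‖e n‖ ≤ 1`,
`‖e n * d j - d j‖ < 1/(n+1)` for `j ≤ n`. -/
theorem exists_apu (A : Type u) [NonUnitalCStarAlgebra A] [TopologicalSpace.SeparableSpace A] :
    ∃ e : ℕ → A, (∀ n, ‖e n‖ ≤ 1) ∧ (∀ n, star (e n) = e n) ∧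
      ∀ a : A, Tendsto (fun n => ‖e n * a - a‖) atTop (𝓝 0) := by
  letI : PartialOrder A := CStarAlgebra.spectralOrder A
  haveI : StarOrderedRing A := CStarAlgebra.spectralOrderedRing A
  have hl := CStarAlgebra.increasingApproximateUnit A
  haveI : (CStarAlgebra.approximateUnit A).NeBot := hl.neBot
  have hd : DenseRange (TopologicalSpace.denseSeq A) := TopologicalSpace.denseRange_denseSeq A
  set d : ℕ → A := TopologicalSpace.denseSeq A with hdd
  have key : ∀ n : ℕ, ∃ x : A, ‖x‖ ≤ 1 ∧ star x = x ∧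
      ∀ j ∈ Finset.range (n + 1), ‖x * d j - d j‖ < 1 / ((n : ℝ) + 1) := by
    intro n
    have h3 : ∀ᶠ x in CStarAlgebra.approximateUnit A, ∀ j ∈ Finset.range (n + 1),
        ‖x * d j - d j‖ < 1 / ((n : ℝ) + 1) := by
      rw [Filter.eventually_all_finset]
      intro j _
      have h4 := hl.tendsto_mul_right (d j)
      have h5 := (Metric.tendsto_nhds.1 h4) (1 / ((n : ℝ) + 1)) (by positivity)
      filter_upwards [h5] with x hx
      rwa [dist_eq_norm] at hx
    obtain ⟨x, h1, h2, h3⟩ := (hl.eventually_norm.and (hl.eventually_star_eq.and h3)).exists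
    exact ⟨x, h1, h2, h3⟩
  choose e he1 he2 he3 using key
  refine ⟨e, he1, he2, fun a => ?_⟩
  rw [Metric.tendsto_atTop]
  intro ε hε
  obtain ⟨j, hj⟩ := hd.exists_dist_lt a (show (0 : ℝ) < ε / 3 by positivity)
  obtain ⟨K, hK⟩ := exists_nat_one_div_lt (show (0 : ℝ) < ε / 3 by positivity)
  refine ⟨max K j, fun n hn => ?_⟩
  have hn1 : K ≤ n := (le_max_left _ _).trans hn
  have hn2 : j ≤ n := (le_max_right _ _).trans hn
  rw [Real.dist_eq, sub_zero, abs_of_nonneg (norm_nonneg _)]
  have h1 : ‖e n * d j - d j‖ < ε / 3 := by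
    refine lt_trans (lt_of_lt_of_le (he3 n j (Finset.mem_range.2 (Nat.lt_succ_of_le hn2))) ?_) hK
    apply one_div_le_one_div_of_le (by positivity)
    have : (K : ℝ) ≤ n := by exact_mod_cast hn1
    linarith
  have h2 : ‖a - d j‖ < ε / 3 := by
    rw [← dist_eq_norm]
    exact hj
  have h3 : ‖e n * (a - d j)‖ < ε / 3 := by
    refine lt_of_le_of_lt (norm_mul_le _ _) ?_
    calc ‖e n‖ * ‖a - d j‖ ≤ 1 * ‖a - d j‖ := mul_le_mul_of_nonneg_right (he1 n) (norm_nonneg _)
      _ < ε / 3 := by rw [one_mul]; exact h2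
  have h4 : e n * a - a = e n * (a - d j) + (e n * d j - d j) - (a - d j) := by
    rw [mul_sub]
    abel
  rw [h4]
  calc ‖e n * (a - d j) + (e n * d j - d j) - (a - d j)‖
      ≤ ‖e n * (a - d j) + (e n * d j - d j)‖ + ‖a - d j‖ := norm_sub_le _ _
    _ ≤ ‖e n * (a - d j)‖ + ‖e n * d j - d j‖ + ‖a - d j‖ := by
        gcongr
        exact norm_add_le _ _
    _ < ε := by linarith

end Vale.Agent.P095
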