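import Vale.Agent.P101K.DimDrop

open Filter Topology

namespace Vale.Agent.P095

open Vale.Agent.P101K

universe u v w

/-- `φ` is (a lift of) a unital *-homomorphism `B → F_ω(A) = A_ω ∩ A'`: every `φ b` is a bounded
`ω`-central sequence in `A`, and `φ` is unital, linear, multiplicative and *-preserving modulo the
sequences `x` with `lim_(n → ω) ‖x n‖ = 0`. -/
structure CenHom (A : Type u) [CStarAlgebra A] (ω : Ultrafilter ℕ) {B : Type v} [Ring B]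
    [StarRing B] [Algebra ℂ B] (φ : B → ℕ → A) : Prop where
  bdd : ∀ b, ∃ C : ℝ, ∀ n, ‖φ b n‖ ≤ C
  cen : ∀ b (a : A), Tendsto (fun n => ‖φ b n * a - a * φ b n‖) ω (𝓝 0)
  one : Tendsto (fun n => ‖φ 1 n - 1‖) ω (𝓝 0)
  add : ∀ b c, Tendsto (fun n => ‖φ (b + c) n - (φ b n + φ c n)‖) ω (𝓝 0)
  mul : ∀ b c, Tendsto (fun n => ‖φ (b * c) n - φ b n * φ c n‖) ω (𝓝 0)
  smul : ∀ (z : ℂ) b, Tendsto (fun n => ‖φ (z • b) n - z • φ b n‖) ω (𝓝 0)
  star : ∀ b, Tendsto (fun n => ‖φ (star b) n - Star.star (φ b n)‖) ω (𝓝 0)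

/-- `A` is `𝒵`-stable: for all `k ≥ 2` there is a unital *-homomorphism `Z_(k,k+1) → F_ω(A)` -/
def ZStable (A : Type u) [CStarAlgebra A] (ω : Ultrafilter ℕ) : Prop :=
  ∀ k : ℕ, ∃ φ : DimDrop (Fin (k + 2)) (Fin (k + 3)) → ℕ → A, CenHom A ω φ

/-- the restriction of the action `α` to the subgroup `H` is equivariantly `𝒵`-stable: for all
`k ≥ 2` there is a unital *-homomorphism from `Z_(k,k+1)` to the fixed point algebra of
`α|_H` on `F_ω(A)` -/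
def EqZStable (A : Type u) [CStarAlgebra A] (ω : Ultrafilter ℕ) {G : Type v} [Group G]
    (α : G →* (A ≃⋆ₐ[ℂ] A)) (H : Subgroup G) : Prop :=
  ∀ k : ℕ, ∃ φ : DimDrop (Fin (k + 2)) (Fin (k + 3)) → ℕ → A, CenHom A ω φ ∧
    ∀ h ∈ H, ∀ b, Tendsto (fun n => ‖α h (φ b n) - φ b n‖) ω (𝓝 0)

end Vale.Agent.P095
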