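import Vale.Agent.P095.NDefs
import Vale.Agent.P095.Defs

open Filter Topology

namespace Vale.Agent.P095

open Vale.Agent.P101K

universe u v

theorem bridge_tendsto {A : Type u} [CStarAlgebra A] {ω : Ultrafilter ℕ} {x y : ℕ → A}
    (h : SeqEq A ω x y) : Tendsto (fun n => ‖x n - y n‖) ω (𝓝 0) := by
  have := h 1
  simpa only [mul_one] using this

/-- for unital `A`, the two forms of `𝒵`-stability of `A` -/
theorem zStable_of_eqZ {A : Type u} [CStarAlgebra A] {ω : Ultrafilter ℕ} {G : Type v} [Group G]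
    {α : G →* (A ≃⋆ₐ[ℂ] A)} (h : EqZ A ω α ⊥) : ZStable A ω := by
  intro k
  obtain ⟨φ, hφ⟩ := h k
  refine ⟨φ, fun b => (hφ.mem b).1, fun b a => (hφ.mem b).2.1 a, ?_, fun b c => ?_, fun b c => ?_,
    fun z b => ?_, fun b => ?_⟩
  · have := hφ.one 1
    simpa only [mul_one] using this
  · exact bridge_tendsto (hφ.add b c)
  · exact bridge_tendsto (hφ.mul b c)
  · exact bridge_tendsto (hφ.smul z b)
  · exact bridge_tendsto (hφ.star b)

end Vale.Agent.P095
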