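import Mathlib

namespace Vale.Agent.P095

universe u v

theorem Dede_lift_eq {X : Type u} (t : X → ℂ) (w : FreeMonoid X) :
    FreeMonoid.lift t w = ∏ k : Fin (FreeMonoid.toList w).length,
      t ((FreeMonoid.toList w).get k) := by
  rw [FreeMonoid.lift_apply, ← List.prod_ofFn]
  congr 1
  conv_lhs => rw [← List.ofFn_get (FreeMonoid.toList w)]
  rw [List.map_ofFn]
  rfl

/-- DEDE.  Linear independence of the characters `FreeMonoid.lift (T i)` of the free monoid on `X`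
(`linearIndependent_monoidHom`). -/
theorem dede {X : Type u} {I J : Type v} [Fintype I] [Fintype J] (T : I → X → ℂ) (T' : J → X → ℂ)
    (h : ∀ (r : ℕ) (v : Fin r → X), ∑ i, ∏ k, T i (v k) = ∑ j, ∏ k, T' j (v k)) (i0 : I) :
    ∃ j, T' j = T i0 := by
  classical
  by_contra hno
  push Not at hno
  obtain ⟨χ, hχ⟩ : ∃ χ : I → (FreeMonoid X →* ℂ), ∀ i, χ i = FreeMonoid.lift (T i) :=
    ⟨_, fun _ => rfl⟩
  obtain ⟨χ', hχ'⟩ : ∃ χ' : J → (FreeMonoid X →* ℂ), ∀ j, χ' j = FreeMonoid.lift (T' j) :=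
    ⟨_, fun _ => rfl⟩
  have hsum : ∀ w : FreeMonoid X, ∑ i, χ i w = ∑ j, χ' j w := by
    intro w
    have h1 := h (FreeMonoid.toList w).length (FreeMonoid.toList w).get
    simp only [hχ, hχ', Dede_lift_eq]
    exact h1
  obtain ⟨S, hS⟩ : ∃ S : Finset (FreeMonoid X →* ℂ),
      S = Finset.univ.image χ ∪ Finset.univ.image χ' := ⟨_, rfl⟩
  have hm : ∀ i ∈ (Finset.univ : Finset I), χ i ∈ S := fun i _ => by
    rw [hS]
    exact Finset.mem_union_left _ (Finset.mem_image_of_mem _ (Finset.mem_univ i))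
  have hm' : ∀ j ∈ (Finset.univ : Finset J), χ' j ∈ S := fun j _ => by
    rw [hS]
    exact Finset.mem_union_right _ (Finset.mem_image_of_mem _ (Finset.mem_univ j))
  have e1 : ∀ w : FreeMonoid X,
      ∑ f ∈ S, ((Finset.univ.filter fun i => χ i = f).card : ℂ) * f w = ∑ i, χ i w := by
    intro w
    rw [← Finset.sum_fiberwise_of_maps_to hm (fun i => χ i w)]
    apply Finset.sum_congr rfl
    intro f _
    rw [Finset.sum_congr rfl (fun i hi => by rw [(Finset.mem_filter.1 hi).2]), Finset.sum_const,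
      nsmul_eq_mul]
  have e2 : ∀ w : FreeMonoid X,
      ∑ f ∈ S, ((Finset.univ.filter fun j => χ' j = f).card : ℂ) * f w = ∑ j, χ' j w := by
    intro w
    rw [← Finset.sum_fiberwise_of_maps_to hm' (fun j => χ' j w)]
    apply Finset.sum_congr rfl
    intro f _
    rw [Finset.sum_congr rfl (fun i hi => by rw [(Finset.mem_filter.1 hi).2]), Finset.sum_const,
      nsmul_eq_mul]
  have hli := linearIndependent_iff'.1 (linearIndependent_monoidHom (FreeMonoid X) ℂ) S
    (fun f => ((Finset.univ.filter fun i => χ i = f).card : ℂ)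
      - ((Finset.univ.filter fun j => χ' j = f).card : ℂ)) (by
      funext w
      rw [Finset.sum_apply]
      simp only [Pi.smul_apply, smul_eq_mul, Pi.zero_apply, sub_mul, Finset.sum_sub_distrib]
      rw [e1, e2, hsum, sub_self]) (χ i0) (hm i0 (Finset.mem_univ _))
  have hz : (Finset.univ.filter fun j => χ' j = χ i0) = ∅ := by
    rw [Finset.filter_eq_empty_iff]
    intro j _ hj
    rw [hχ, hχ'] at hj
    exact hno j (FreeMonoid.lift.injective hj)
  simp only [hz, Finset.card_empty, Nat.cast_zero, sub_zero, Nat.cast_eq_zero,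
    Finset.card_eq_zero] at hli
  have hmem : i0 ∈ (Finset.univ.filter fun i => χ i = χ i0) :=
    Finset.mem_filter.2 ⟨Finset.mem_univ _, rfl⟩
  rw [hli] at hmem
  exact absurd hmem (Finset.notMem_empty _)

/-- RHO.  Put `b = 1` and `c = 1`: `ρ (a g₃c g₄d)`.. : from `h`, `ρ (g₁a g₃x g₄d) = ρ (a x d) =
ρ (g₁a g₂x g₄d)`, so `g₂` and `g₃` agree in the middle and `ρ (abcd) = ρ (g₁a g₃(cb) g₄d) = ρ (acbd)`. -/
theorem rho_comm {B : Type u} [Ring B] [Algebra ℂ B] {G : Type v} [Group G]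
    (β : G → (B →ₐ[ℂ] B)) (h1 : ∀ b, β 1 b = b) (hm : ∀ g h b, β (g * h) b = β g (β h b))
    (ρ : B →ₗ[ℂ] ℂ) (g₁ g₂ g₃ g₄ : G)
    (h : ∀ a b c d, ρ (a * b * c * d) = ρ (β g₁ a * β g₃ c * β g₂ b * β g₄ d)) :
    ∀ a b c d, ρ (a * b * c * d) = ρ (a * c * b * d) := by
  have h3 : ∀ a x d, ρ (a * x * d) = ρ (β g₁ a * β g₃ x * β g₄ d) := fun a x d => by
    have := h a 1 x d
    rwa [mul_one, map_one, mul_one] at this
  have h2 : ∀ a x d, ρ (a * x * d) = ρ (β g₁ a * β g₂ x * β g₄ d) := fun a x d => by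
    have := h a x 1 d
    rwa [mul_one, map_one, mul_one] at this
  have inv : ∀ g b, β g (β g⁻¹ b) = b := fun g b => by rw [← hm, mul_inv_cancel, h1]
  have hs : ∀ a x d, ρ (a * β g₂ x * d) = ρ (a * β g₃ x * d) := fun a x d => by
    have e2 := h2 (β g₁⁻¹ a) x (β g₄⁻¹ d)
    have e3 := h3 (β g₁⁻¹ a) x (β g₄⁻¹ d)
    rw [inv, inv] at e2 e3
    rw [← e2, ← e3]
  intro a b c d
  rw [h, hs, mul_assoc (β g₁ a) (β g₃ c) (β g₃ b), ← map_mul, ← h3, ← mul_assoc]

end Vale.Agent.P095
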