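import Vale.Agent.P095.Act

open scoped ENNReal Topology
open Filter

namespace Vale.Agent.P095

open Vale.Agent.P101K

universe u v w

section

variable {D : Type u} [Ring D] [StarRing D] [Algebra ℂ D]
  {B : Type w} [Ring B] [StarRing B] [Algebra ℂ B]

/-- `Θ_ι (y) = ∏_j θ_(ι j) (y j)` (ordered product) -/
noncomputable def Th (θ : ℕ → (B →⋆ₐ[ℂ] D)) {r : ℕ} (ι : Fin r → ℕ) (y : Fin r → B) : D :=
  (List.ofFn fun j => θ (ι j) (y j)).prod

private theorem thm_succ (θ : ℕ → (B →⋆ₐ[ℂ] D)) {r : ℕ} (ι : Fin (r + 1) → ℕ)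
    (y : Fin (r + 1) → B) :
    Th θ ι y = θ (ι 0) (y 0) * Th θ (fun j => ι j.succ) (fun j => y j.succ) := by
  unfold Th
  rw [List.ofFn_succ, List.prod_cons]

private theorem thm_comm (θ : ℕ → (B →⋆ₐ[ℂ] D))
    (hc : ∀ i j, i ≠ j → ∀ s t, Commute (θ i s) (θ j t)) {r : ℕ} (ι : Fin r → ℕ)
    (y : Fin r → B) (i : ℕ) (hi : ∀ j, ι j ≠ i) (t : B) : Commute (Th θ ι y) (θ i t) := by
  unfold Th
  apply Commute.list_prod_left
  intro x hx
  obtain ⟨j, rfl⟩ := (List.mem_ofFn' _ _).1 hx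
  exact hc _ _ (hi j) _ _

/-- THM.  For injective `ι` the map `Θ_ι` is multiplicative (the ranges of the `θ i` commute). -/
theorem Th_mul (θ : ℕ → (B →⋆ₐ[ℂ] D)) (hc : ∀ i j, i ≠ j → ∀ s t, Commute (θ i s) (θ j t))
    {r : ℕ} (ι : Fin r → ℕ) (hι : Function.Injective ι) (y z : Fin r → B) :
    Th θ ι y * Th θ ι z = Th θ ι (fun j => y j * z j) := by
  induction r with
  | zero => simp [Th]
  | succ r ih =>
    rw [thm_succ, thm_succ, thm_succ, ← ih (fun j => ι j.succ)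
      (fun a b h => Fin.succ_injective _ (hι h)), map_mul]
    have h := (thm_comm θ hc (fun j : Fin r => ι j.succ) (fun j => y j.succ) (ι 0)
      (fun j hj => Fin.succ_ne_zero j (hι hj)) (z 0)).eq
    rw [mul_assoc, ← mul_assoc (Th θ _ _) (θ (ι 0) (z 0)), h]
    simp only [mul_assoc]

/-- THA.  `Θ_ι` is equivariant. -/
theorem Th_act {G : Type v} (α : G → (D →⋆ₐ[ℂ] D)) (β : G → (B →⋆ₐ[ℂ] B))
    (θ : ℕ → (B →⋆ₐ[ℂ] D)) (he : ∀ i g b, α g (θ i b) = θ i (β g b))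
    {r : ℕ} (ι : Fin r → ℕ) (y : Fin r → B) (g : G) :
    α g (Th θ ι y) = Th θ ι (fun j => β g (y j)) := by
  unfold Th
  rw [map_list_prod, List.map_ofFn]
  congr 1
  apply congrArg
  funext j
  exact he _ _ _

/-- EXPA.  Expansion of a product of averages (`MultilinearMap.mkPiAlgebraFin`,
`MultilinearMap.map_sum`, `map_smul_univ`). -/
theorem Th_expand (θ : ℕ → (B →⋆ₐ[ℂ] D)) {r : ℕ} (y : Fin r → B) (n : ℕ) :
    (List.ofFn fun j => ((n : ℂ) + 1)⁻¹ • ∑ i ∈ Finset.range (n + 1), θ i (y j)).prod =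
      (((n : ℂ) + 1) ^ r)⁻¹ • ∑ ι : Fin r → Fin (n + 1), Th θ (fun j => (ι j : ℕ)) y := by
  induction r with
  | zero => simp [Th]
  | succ r ih =>
    rw [List.ofFn_succ, List.prod_cons, ih (fun j => y j.succ), smul_mul_smul_comm,
      ← (Fin.consEquiv (fun _ : Fin (r + 1) => Fin (n + 1))).sum_comp, Fintype.sum_prod_type,
      Finset.sum_range, Finset.sum_mul_sum]
    congr 1
    · rw [← mul_inv, pow_succ']
    · refine Finset.sum_congr rfl fun i _ => Finset.sum_congr rfl fun ι _ => ?_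
      rw [thm_succ]
      rfl

end

/-- `L_γ (a,b,c,d) = γ₁a γ₂b γ₃c γ₄d` -/
def Lp {G : Type v} {B : Type w} [Ring B] [StarRing B] [Algebra ℂ B] (β : G → (B →⋆ₐ[ℂ] B))
    (γ : G × G × G × G) (x : B × B × B × B) : B :=
  β γ.1 x.1 * β γ.2.1 x.2.1 * β γ.2.2.1 x.2.2.1 * β γ.2.2.2 x.2.2.2

/-- `L'_γ (a,b,c,d) = γ₁a γ₃c γ₂b γ₄d` -/
def Lm {G : Type v} {B : Type w} [Ring B] [StarRing B] [Algebra ℂ B] (β : G → (B →⋆ₐ[ℂ] B))
    (γ : G × G × G × G) (x : B × B × B × B) : B :=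
  β γ.1 x.1 * β γ.2.2.1 x.2.2.1 * β γ.2.1 x.2.1 * β γ.2.2.2 x.2.2.2

/-- REL.  Both sides are `ψ(A)ψ(B)ψ(C)ψ(D)` for `A = ∑_g α_g (Θ_ι a)` etc., elements of the fixed
algebra: `ψ (A * (B * (C * D)))`, `Th_mul`, `Th_act`. -/
theorem rel_sum {D : Type u} [CStarAlgebra D] [Nontrivial D] {G : Type v} [Group G] [Fintype G]
    {α : G → (D →⋆ₐ[ℂ] D)} (hα : IsAct α) {B : Type w} [Ring B] [StarRing B] [Algebra ℂ B]
    {β : G → (B →⋆ₐ[ℂ] B)} (θ : ℕ → (B →⋆ₐ[ℂ] D))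
    (hc : ∀ i j, i ≠ j → ∀ s t, Commute (θ i s) (θ j t))
    (he : ∀ i g b, α g (θ i b) = θ i (β g b))
    (ψ : D →ₗ[ℂ] ℂ) (hψ : ∀ a ∈ fixAlg α Set.univ, ∀ x, ψ (a * x) = ψ a * ψ x)
    {r : ℕ} (ι : Fin r → ℕ) (hι : Function.Injective ι) (v : Fin r → B × B × B × B) :
    ∑ γ : G × G × G × G, ψ (Th θ ι (fun j => Lp β γ (v j))) =
      ∑ γ : G × G × G × G, ψ (Th θ ι (fun j => Lm β γ (v j))) := by
  set S : (Fin r → B) → D := fun x => ∑ g, α g (Th θ ι x) with hS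
  have hfix : ∀ x, S x ∈ fixAlg α Set.univ := by
    intro x h _
    show α h (∑ g, α g (Th θ ι x)) = ∑ g, α g (Th θ ι x)
    rw [map_sum]
    refine Fintype.sum_equiv (Equiv.mulLeft h) _ _ fun g => ?_
    rw [Equiv.coe_mulLeft, hα.mul]
  have hS' : ∀ x, S x = ∑ g, Th θ ι (fun j => β g (x j)) := fun x =>
    Finset.sum_congr rfl fun g _ => Th_act α β θ he ι x g
  have hprod : ∀ x1 x2 x3 x4, S x1 * (S x2 * (S x3 * S x4)) =
      ∑ g1, ∑ g2, ∑ g3, ∑ g4, Th θ ι (fun j => β g1 (x1 j) *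
        (β g2 (x2 j) * (β g3 (x3 j) * β g4 (x4 j)))) := by
    intro x1 x2 x3 x4
    rw [hS' x1, hS' x2, hS' x3, hS' x4]
    rw [Finset.sum_mul]
    refine Finset.sum_congr rfl fun g1 _ => ?_
    rw [Finset.sum_mul, Finset.mul_sum]
    refine Finset.sum_congr rfl fun g2 _ => ?_
    rw [Finset.sum_mul, Finset.mul_sum, Finset.mul_sum]
    refine Finset.sum_congr rfl fun g3 _ => ?_
    rw [Finset.mul_sum, Finset.mul_sum, Finset.mul_sum]
    refine Finset.sum_congr rfl fun g4 _ => ?_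
    rw [Th_mul θ hc ι hι, Th_mul θ hc ι hι, Th_mul θ hc ι hι]
  have hval : ∀ x1 x2 x3 x4, ψ (S x1 * (S x2 * (S x3 * S x4))) =
      ψ (S x1) * (ψ (S x2) * (ψ (S x3) * ψ (S x4))) := by
    intro x1 x2 x3 x4
    rw [hψ _ (hfix x1), hψ _ (hfix x2), hψ _ (hfix x3)]
  have h1 := hval (fun j => (v j).1) (fun j => (v j).2.1) (fun j => (v j).2.2.1)
    (fun j => (v j).2.2.2)
  have h2 := hval (fun j => (v j).1) (fun j => (v j).2.2.1) (fun j => (v j).2.1)
    (fun j => (v j).2.2.2)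
  have h3 : ψ (S (fun j => (v j).1) * (S (fun j => (v j).2.1) * (S (fun j => (v j).2.2.1) *
      S (fun j => (v j).2.2.2)))) = ψ (S (fun j => (v j).1) * (S (fun j => (v j).2.2.1) *
      (S (fun j => (v j).2.1) * S (fun j => (v j).2.2.2)))) := by
    rw [h1, h2]
    ring
  rw [hprod, hprod] at h3
  simp only [map_sum] at h3
  rw [Fintype.sum_prod_type, Fintype.sum_prod_type]
  simp only [Fintype.sum_prod_type]
  unfold Lp Lm
  simp only [mul_assoc] at h3 ⊢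
  rw [h3]
  refine Finset.sum_congr rfl fun g1 _ => ?_
  rw [Finset.sum_comm]

/-- INJ.  Averages over all maps `Fin r → Fin (n+1)` of a bounded function vanishing on the
injective maps tend to `0` (the number of injective maps is `(n+1).descFactorial r`). -/
theorem avg_zero (r : ℕ) (f : ∀ n : ℕ, (Fin r → Fin (n + 1)) → ℂ) (K : ℝ)
    (hK : ∀ n ι, ‖f n ι‖ ≤ K) (h0 : ∀ n ι, Function.Injective ι → f n ι = 0) :
    Tendsto (fun n : ℕ => (((n : ℂ) + 1) ^ r)⁻¹ * ∑ ι, f n ι) atTop (𝓝 0) := by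
  classical
  have hK0 : 0 ≤ K := (norm_nonneg _).trans (hK 0 (fun _ => 0))
  have hlim : Tendsto (fun n : ℕ => K * (1 - (((n + 2 - r : ℕ) : ℝ) / ((n : ℝ) + 1)) ^ r)) atTop
      (𝓝 (K * (1 - 1 ^ r))) := by
    refine Tendsto.const_mul K (Tendsto.const_sub 1 (Tendsto.pow ?_ r))
    have h1 : Tendsto (fun n : ℕ => 1 + (1 - (r : ℝ)) * (1 / ((n : ℝ) + 1))) atTop
        (𝓝 (1 + (1 - (r : ℝ)) * 0)) :=
      (tendsto_one_div_add_atTop_nhds_zero_nat.const_mul _).const_add 1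
    rw [mul_zero, add_zero] at h1
    refine h1.congr' ?_
    filter_upwards [eventually_ge_atTop r] with n hn
    have h2 : (0 : ℝ) < (n : ℝ) + 1 := by positivity
    rw [Nat.cast_sub (by omega)]
    push_cast
    field_simp
    ring
  rw [one_pow, sub_self, mul_zero] at hlim
  refine squeeze_zero_norm (fun n => ?_) hlim
  have h2 : (0 : ℝ) < (n : ℝ) + 1 := by positivity
  have hn : ‖(((n : ℂ) + 1) ^ r)⁻¹‖ = (((n : ℝ) + 1) ^ r)⁻¹ := by
    rw [norm_inv, norm_pow]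
    congr 2
    have : ((n : ℂ) + 1) = (((n : ℝ) + 1 : ℝ) : ℂ) := by push_cast; rfl
    rw [this, Complex.norm_real, Real.norm_of_nonneg h2.le]
  set I : Finset (Fin r → Fin (n + 1)) := Finset.univ.filter Function.Injective with hI
  have hcard : I.card = (n + 1).descFactorial r := by
    rw [hI, ← Fintype.card_subtype]
    have h3 := Fintype.card_congr (Equiv.subtypeInjectiveEquivEmbedding (Fin r) (Fin (n + 1)))
    rw [h3, Fintype.card_embedding_eq, Fintype.card_fin, Fintype.card_fin]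
  have hsum : ‖∑ ι, f n ι‖ ≤ K * (((n : ℝ) + 1) ^ r - ((n + 1).descFactorial r : ℕ)) := by
    have h4 : ∑ ι, f n ι = ∑ ι ∈ Iᶜ, f n ι := by
      rw [← Finset.sum_add_sum_compl I, Finset.sum_eq_zero, zero_add]
      intro ι hι
      exact h0 n ι (Finset.mem_filter.1 hι).2
    rw [h4]
    refine (norm_sum_le _ _).trans ((Finset.sum_le_sum fun ι _ => hK n ι).trans ?_)
    rw [Finset.sum_const, nsmul_eq_mul, mul_comm, Finset.card_compl, hcard]
    refine mul_le_mul_of_nonneg_left ?_ hK0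
    rw [Nat.cast_sub]
    · rw [Fintype.card_fun, Fintype.card_fin, Fintype.card_fin]
      push_cast
      exact le_rfl
    · rw [← hcard]
      exact Finset.card_le_univ _
  have hdesc : (((n + 2 - r : ℕ) : ℝ)) ^ r ≤ ((n + 1).descFactorial r : ℕ) := by
    exact_mod_cast Nat.pow_sub_le_descFactorial (n + 1) r
  rw [norm_mul, hn]
  have h5 : 0 < (((n : ℝ) + 1) ^ r)⁻¹ := by positivity
  calc (((n : ℝ) + 1) ^ r)⁻¹ * ‖∑ ι, f n ι‖
      ≤ (((n : ℝ) + 1) ^ r)⁻¹ * (K * (((n : ℝ) + 1) ^ r - (((n + 2 - r : ℕ) : ℝ)) ^ r)) := by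
        refine mul_le_mul_of_nonneg_left (hsum.trans ?_) h5.le
        exact mul_le_mul_of_nonneg_left (by linarith) hK0
    _ = K * (1 - (((n + 2 - r : ℕ) : ℝ) / ((n : ℝ) + 1)) ^ r) := by
        rw [div_pow]
        have h6 : ((n : ℝ) + 1) ^ r ≠ 0 := by positivity
        field_simp

end Vale.Agent.P095
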