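import Vale.Agent.P095.Psi
import Vale.Agent.P095.Th

open scoped ENNReal Topology
open Filter

namespace Vale.Agent.P095

open Vale.Agent.P101K

universe u v w

theorem MU_mem {D : Type u} [CStarAlgebra D] {B : Type w} [Ring B] [StarRing B] [Algebra ℂ B]
    (θ : ℕ → (B →⋆ₐ[ℂ] D)) (hb : ∀ b, ∃ M : ℝ, ∀ i, ‖θ i b‖ ≤ M) (b : B) :
    Memℓp (fun n : ℕ => ((n : ℂ) + 1)⁻¹ • ∑ i ∈ Finset.range (n + 1), θ i b) ∞ := by
  obtain ⟨M, hM⟩ := hb b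
  refine memℓp_infty ⟨M, ?_⟩
  rintro _ ⟨n, rfl⟩
  have h0 : (0 : ℝ) < (n : ℝ) + 1 := by positivity
  have h1 : ‖((n : ℂ) + 1)⁻¹‖ = ((n : ℝ) + 1)⁻¹ := by
    rw [norm_inv]
    congr 1
    have : ((n : ℂ) + 1) = ((n + 1 : ℕ) : ℂ) := by push_cast; ring
    rw [this, Complex.norm_natCast]
    push_cast
    ring
  show ‖((n : ℂ) + 1)⁻¹ • ∑ i ∈ Finset.range (n + 1), θ i b‖ ≤ M
  rw [norm_smul, h1]
  have h2 : ‖∑ i ∈ Finset.range (n + 1), θ i b‖ ≤ ((n : ℝ) + 1) * M := by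
    refine (norm_sum_le _ _).trans ((Finset.sum_le_sum fun i _ => hM i).trans ?_)
    rw [Finset.sum_const, Finset.card_range, nsmul_eq_mul]
    push_cast
    exact le_refl _
  calc ((n : ℝ) + 1)⁻¹ * ‖∑ i ∈ Finset.range (n + 1), θ i b‖
      ≤ ((n : ℝ) + 1)⁻¹ * (((n : ℝ) + 1) * M) :=
        mul_le_mul_of_nonneg_left h2 (inv_nonneg.mpr h0.le)
    _ = M := by
        rw [← mul_assoc, inv_mul_cancel₀ h0.ne', one_mul]

theorem MU_sum {D : Type u} [CStarAlgebra D] {B : Type w} [Ring B] [StarRing B] [Algebra ℂ B]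
    (θ : ℕ → (B →⋆ₐ[ℂ] D)) (hc : ∀ i j, i ≠ j → ∀ s t, Commute (θ i s) (θ j t))
    (a b : B) (s : Finset ℕ) :
    (∑ i ∈ s, θ i a) * (∑ j ∈ s, θ j b) - (∑ j ∈ s, θ j b) * (∑ i ∈ s, θ i a)
      = ∑ i ∈ s, (θ i a * θ i b - θ i b * θ i a) := by
  have h1 : (∑ j ∈ s, θ j b) * (∑ i ∈ s, θ i a) = ∑ i ∈ s, ∑ j ∈ s, θ j b * θ i a := by
    rw [Finset.sum_mul_sum, Finset.sum_comm]
  rw [h1, Finset.sum_mul_sum, ← Finset.sum_sub_distrib]
  refine Finset.sum_congr rfl fun i hi => ?_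
  rw [← Finset.sum_sub_distrib]
  refine Finset.sum_eq_single_of_mem i hi fun j _ hji => ?_
  have h2 := hc i j (Ne.symm hji) a b
  rw [h2.eq, sub_self]

theorem MU_comm {D : Type u} [CStarAlgebra D] {B : Type w} [Ring B] [StarRing B] [Algebra ℂ B]
    (θ : ℕ → (B →⋆ₐ[ℂ] D)) (hc : ∀ i j, i ≠ j → ∀ s t, Commute (θ i s) (θ j t))
    (a b : B) {Ma Mb : ℝ} (hMa : ∀ i, ‖θ i a‖ ≤ Ma) (hMb : ∀ i, ‖θ i b‖ ≤ Mb) (n : ℕ) :
    ‖(((n : ℂ) + 1)⁻¹ • ∑ i ∈ Finset.range (n + 1), θ i a)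
        * (((n : ℂ) + 1)⁻¹ • ∑ i ∈ Finset.range (n + 1), θ i b)
      - (((n : ℂ) + 1)⁻¹ • ∑ i ∈ Finset.range (n + 1), θ i b)
        * (((n : ℂ) + 1)⁻¹ • ∑ i ∈ Finset.range (n + 1), θ i a)‖
      ≤ (2 * Ma * Mb) * (1 / ((n : ℝ) + 1)) := by
  have h0 : (0 : ℝ) < (n : ℝ) + 1 := by positivity
  have h1 : ‖((n : ℂ) + 1)⁻¹‖ = ((n : ℝ) + 1)⁻¹ := by
    rw [norm_inv]
    congr 1
    have : ((n : ℂ) + 1) = ((n + 1 : ℕ) : ℂ) := by push_cast; ring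
    rw [this, Complex.norm_natCast]
    push_cast
    ring
  have hMa0 : 0 ≤ Ma := (norm_nonneg _).trans (hMa 0)
  have hMb0 : 0 ≤ Mb := (norm_nonneg _).trans (hMb 0)
  rw [smul_mul_smul_comm, smul_mul_smul_comm, ← smul_sub, MU_sum θ hc a b, norm_smul, norm_mul, h1]
  have h2 : ‖∑ i ∈ Finset.range (n + 1), (θ i a * θ i b - θ i b * θ i a)‖
      ≤ ((n : ℝ) + 1) * (2 * Ma * Mb) := by
    refine (norm_sum_le _ _).trans ((Finset.sum_le_sum fun i _ =>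
      (show ‖θ i a * θ i b - θ i b * θ i a‖ ≤ 2 * Ma * Mb from ?_)).trans ?_)
    · have e1 : ‖θ i a * θ i b‖ ≤ Ma * Mb := (norm_mul_le _ _).trans
        (mul_le_mul (hMa i) (hMb i) (norm_nonneg _) hMa0)
      have e2 : ‖θ i b * θ i a‖ ≤ Ma * Mb := by
        refine (norm_mul_le _ _).trans ?_
        rw [mul_comm]
        exact mul_le_mul (hMa i) (hMb i) (norm_nonneg _) hMa0
      refine (norm_sub_le _ _).trans ?_
      linarith
    · rw [Finset.sum_const, Finset.card_range, nsmul_eq_mul]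
      push_cast
      exact le_refl _
  calc ((n : ℝ) + 1)⁻¹ * ((n : ℝ) + 1)⁻¹
        * ‖∑ i ∈ Finset.range (n + 1), (θ i a * θ i b - θ i b * θ i a)‖
      ≤ ((n : ℝ) + 1)⁻¹ * ((n : ℝ) + 1)⁻¹ * (((n : ℝ) + 1) * (2 * Ma * Mb)) :=
        mul_le_mul_of_nonneg_left h2 (mul_nonneg (inv_nonneg.mpr h0.le) (inv_nonneg.mpr h0.le))
    _ = (2 * Ma * Mb) * (1 / ((n : ℝ) + 1)) := by
        field_simp

/-- MU.  The averages `m b = ((n+1)⁻¹ ∑_(i ≤ n) θ_i b)_n` commute in `D_ω`. -/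
theorem exists_mu {D : Type u} [CStarAlgebra D] [Nontrivial D] (ω : Ultrafilter ℕ)
    (hω : (ω : Filter ℕ) ≤ atTop) {B : Type w} [Ring B] [StarRing B] [Algebra ℂ B]
    (θ : ℕ → (B →⋆ₐ[ℂ] D)) (hc : ∀ i j, i ≠ j → ∀ s t, Commute (θ i s) (θ j t))
    (hb : ∀ b, ∃ M : ℝ, ∀ i, ‖θ i b‖ ≤ M) :
    ∃ m : B →ₗ[ℂ] Bdd D,
      (∀ b n, (m b) n = ((n : ℂ) + 1)⁻¹ • ∑ i ∈ Finset.range (n + 1), θ i b) ∧
      ∀ a b, Commute (omk D ω (m a)) (omk D ω (m b)) := by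
  let m : B →ₗ[ℂ] Bdd D :=
    { toFun := fun b => ⟨fun n => ((n : ℂ) + 1)⁻¹ • ∑ i ∈ Finset.range (n + 1), θ i b,
        MU_mem θ hb b⟩
      map_add' := fun a b => lp.ext (funext fun n => by
        show ((n : ℂ) + 1)⁻¹ • ∑ i ∈ Finset.range (n + 1), θ i (a + b)
          = ((n : ℂ) + 1)⁻¹ • ∑ i ∈ Finset.range (n + 1), θ i a
            + ((n : ℂ) + 1)⁻¹ • ∑ i ∈ Finset.range (n + 1), θ i b
        simp only [map_add, Finset.sum_add_distrib, smul_add])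
      map_smul' := fun z b => lp.ext (funext fun n => by
        show ((n : ℂ) + 1)⁻¹ • ∑ i ∈ Finset.range (n + 1), θ i (z • b)
          = z • (((n : ℂ) + 1)⁻¹ • ∑ i ∈ Finset.range (n + 1), θ i b)
        simp only [map_smul, ← Finset.smul_sum]
        rw [smul_comm]) }
  have hm : ∀ b n, (m b) n = ((n : ℂ) + 1)⁻¹ • ∑ i ∈ Finset.range (n + 1), θ i b :=
    fun b n => rfl
  refine ⟨m, hm, fun a b => ?_⟩
  show omk D ω (m a) * omk D ω (m b) = omk D ω (m b) * omk D ω (m a)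
  rw [← map_mul (omk D ω) (m a) (m b), ← map_mul (omk D ω) (m b) (m a), omk_eq_iff]
  obtain ⟨Ma, hMa⟩ := hb a
  obtain ⟨Mb, hMb⟩ := hb b
  have hlim : Tendsto (fun n : ℕ => (2 * Ma * Mb) * (1 / ((n : ℝ) + 1))) ω (𝓝 0) := by
    have h1 := (tendsto_one_div_add_atTop_nhds_zero_nat (𝕜 := ℝ)).const_mul (2 * Ma * Mb)
    rw [mul_zero] at h1
    exact h1.mono_left hω
  refine squeeze_zero (fun n => norm_nonneg _) (fun n => ?_) hlim
  have e1 : (m a * m b) n = (m a) n * (m b) n := rfl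
  have e2 : (m b * m a) n = (m b) n * (m a) n := rfl
  rw [e1, e2, hm, hm]
  exact MU_comm θ hc a b hMa hMb n

private theorem lrel_list {D : Type u} [CStarAlgebra D] [Nontrivial D] (l : List (Bdd D)) (n : ℕ) :
    (l.prod : Bdd D) n = (l.map fun x => x n).prod := by
  induction l with
  | nil => rfl
  | cons a l ih =>
    rw [List.prod_cons, List.map_cons, List.prod_cons, ← ih]
    rfl

private theorem lrel_norm {D : Type u} [CStarAlgebra D] [Nontrivial D] {R : ℝ} (hR : 1 ≤ R)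
    (l : List D) (hl : ∀ x ∈ l, ‖x‖ ≤ R) : ‖l.prod‖ ≤ R ^ l.length := by
  induction l with
  | nil => simp
  | cons a l ih =>
    rw [List.prod_cons, List.length_cons, pow_succ']
    refine (norm_mul_le _ _).trans (mul_le_mul (hl a (by simp)) (ih fun x hx => hl x (by simp [hx]))
      (norm_nonneg _) (by linarith))

private theorem lrel_Th {D : Type u} [CStarAlgebra D] [Nontrivial D] {B : Type w} [Ring B]
    [StarRing B] [Algebra ℂ B] (θ : ℕ → (B →⋆ₐ[ℂ] D)) (hb : ∀ b, ∃ M : ℝ, ∀ i, ‖θ i b‖ ≤ M)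
    {r : ℕ} (y : Fin r → B) : ∃ K : ℝ, ∀ ι : Fin r → ℕ, ‖Th θ ι y‖ ≤ K := by
  choose M hM using hb
  set R : ℝ := 1 + ∑ j, |M (y j)| with hR
  have hR1 : 1 ≤ R := by
    have : 0 ≤ ∑ j, |M (y j)| := Finset.sum_nonneg fun j _ => abs_nonneg _
    linarith
  refine ⟨R ^ r, fun ι => ?_⟩
  have h := lrel_norm hR1 (List.ofFn fun j => θ (ι j) (y j)) (by
    intro x hx
    obtain ⟨j, rfl⟩ := (List.mem_ofFn' _ _).1 hx
    refine (hM (y j) (ι j)).trans ((le_abs_self _).trans ?_)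
    have h2 : |M (y j)| ≤ ∑ j, |M (y j)| :=
      Finset.single_le_sum (f := fun j => |M (y j)|) (fun j _ => abs_nonneg _) (Finset.mem_univ j)
    linarith)
  rw [List.length_ofFn] at h
  exact h

/-- LREL.  The limit of `rel_sum`: write `(∏_j m (y j)) n` with `Th_expand`, apply `avg_zero` to
`f n ι = ∑_γ ψ (Th θ ι (L_γ v)) - ∑_γ ψ (Th θ ι (L'_γ v))`. -/
theorem lim_rel {D : Type u} [CStarAlgebra D] [Nontrivial D] (ω : Ultrafilter ℕ)
    (hω : (ω : Filter ℕ) ≤ atTop) {G : Type v} [Group G] [Fintype G]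
    {α : G → (D →⋆ₐ[ℂ] D)} (hα : IsAct α) {B : Type w} [Ring B] [StarRing B] [Algebra ℂ B]
    {β : G → (B →⋆ₐ[ℂ] B)} (θ : ℕ → (B →⋆ₐ[ℂ] D))
    (hc : ∀ i j, i ≠ j → ∀ s t, Commute (θ i s) (θ j t))
    (hb : ∀ b, ∃ M : ℝ, ∀ i, ‖θ i b‖ ≤ M)
    (he : ∀ i g b, α g (θ i b) = θ i (β g b))
    (ψ : D →ₗ[ℂ] ℂ) (hψb : ∀ x, ‖ψ x‖ ≤ ‖x‖)
    (hψ : ∀ a ∈ fixAlg α Set.univ, ∀ x, ψ (a * x) = ψ a * ψ x)
    (Ψ : Aom D ω →ₗ[ℂ] ℂ) (hΨ : ∀ x : Bdd D, Tendsto (fun n => ψ (x n)) ω (𝓝 (Ψ (omk D ω x))))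
    (m : B →ₗ[ℂ] Bdd D)
    (hm : ∀ b n, (m b) n = ((n : ℂ) + 1)⁻¹ • ∑ i ∈ Finset.range (n + 1), θ i b)
    {r : ℕ} (v : Fin r → B × B × B × B) :
    ∑ γ : G × G × G × G, Ψ (List.ofFn fun j => omk D ω (m (Lp β γ (v j)))).prod =
      ∑ γ : G × G × G × G, Ψ (List.ofFn fun j => omk D ω (m (Lm β γ (v j)))).prod := by
  classical
  have hA : ∀ w : Fin r → B, Tendsto (fun n => ψ (List.ofFn fun j => (m (w j)) n).prod) ω
      (𝓝 (Ψ (List.ofFn fun j => omk D ω (m (w j))).prod)) := by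
    intro w
    have h := hΨ (List.ofFn fun j => m (w j)).prod
    have e1 : omk D ω (List.ofFn fun j => m (w j)).prod =
        (List.ofFn fun j => omk D ω (m (w j))).prod := by
      rw [map_list_prod, List.map_ofFn]
      rfl
    rw [e1] at h
    refine h.congr fun n => ?_
    rw [lrel_list, List.map_ofFn]
    rfl
  have hE : ∀ (w : Fin r → B) (n : ℕ), ψ (List.ofFn fun j => (m (w j)) n).prod =
      (((n : ℂ) + 1) ^ r)⁻¹ * ∑ ι : Fin r → Fin (n + 1), ψ (Th θ (fun j => (ι j : ℕ)) w) := by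
    intro w n
    simp only [hm]
    rw [Th_expand, map_smul, map_sum, smul_eq_mul]
  set f : ∀ n : ℕ, (Fin r → Fin (n + 1)) → ℂ := fun n ι =>
    ∑ γ : G × G × G × G, ψ (Th θ (fun j => (ι j : ℕ)) (fun j => Lp β γ (v j))) -
      ∑ γ : G × G × G × G, ψ (Th θ (fun j => (ι j : ℕ)) (fun j => Lm β γ (v j))) with hf
  have hKp : ∀ γ : G × G × G × G, ∃ K : ℝ, ∀ ι : Fin r → ℕ,
      ‖Th θ ι (fun j => Lp β γ (v j))‖ ≤ K := fun γ => lrel_Th θ hb _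
  have hKm : ∀ γ : G × G × G × G, ∃ K : ℝ, ∀ ι : Fin r → ℕ,
      ‖Th θ ι (fun j => Lm β γ (v j))‖ ≤ K := fun γ => lrel_Th θ hb _
  choose Kp hKp using hKp
  choose Km hKm using hKm
  have h0 := avg_zero r f (∑ γ, Kp γ + ∑ γ, Km γ) (by
    intro n ι
    refine (norm_sub_le _ _).trans (add_le_add ?_ ?_)
    · exact (norm_sum_le _ _).trans (Finset.sum_le_sum fun γ _ => (hψb _).trans (hKp γ _))
    · exact (norm_sum_le _ _).trans (Finset.sum_le_sum fun γ _ => (hψb _).trans (hKm γ _))) (by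
    intro n ι hι
    rw [hf]
    exact sub_eq_zero.2 (rel_sum hα θ hc he ψ hψ (fun j => (ι j : ℕ))
      (Fin.val_injective.comp hι) v))
  have h1 : Tendsto (fun n : ℕ => ∑ γ : G × G × G × G,
      ψ (List.ofFn fun j => (m (Lp β γ (v j))) n).prod -
      ∑ γ : G × G × G × G, ψ (List.ofFn fun j => (m (Lm β γ (v j))) n).prod) ω
      (𝓝 (∑ γ : G × G × G × G, Ψ (List.ofFn fun j => omk D ω (m (Lp β γ (v j)))).prod -
      ∑ γ : G × G × G × G, Ψ (List.ofFn fun j => omk D ω (m (Lm β γ (v j)))).prod)) :=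
    (tendsto_finset_sum _ fun γ _ => hA _).sub (tendsto_finset_sum _ fun γ _ => hA _)
  have h2 : Tendsto (fun n : ℕ => ∑ γ : G × G × G × G,
      ψ (List.ofFn fun j => (m (Lp β γ (v j))) n).prod -
      ∑ γ : G × G × G × G, ψ (List.ofFn fun j => (m (Lm β γ (v j))) n).prod) ω (𝓝 0) := by
    refine (h0.mono_left hω).congr fun n => ?_
    simp only [hE, hf]
    rw [← Finset.mul_sum, ← Finset.mul_sum, ← mul_sub, Finset.sum_sub_distrib]
    congr 2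
    · exact Finset.sum_comm
    · exact Finset.sum_comm
  exact sub_eq_zero.1 (tendsto_nhds_unique h1 h2)

end Vale.Agent.P095
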