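import Vale.Agent.P095.Lying
import Vale.Agent.P095.Dede
import Vale.Agent.P095.Mu

open scoped ENNReal Topology
open Filter

namespace Vale.Agent.P095

open Vale.Agent.P101K

universe u v w

open scoped IsMulCommutative in
theorem desc1_lying {R : Type u} [Ring R] [Algebra ℂ R] (C : Subalgebra ℂ R)
    (hC : IsMulCommutative C) {G : Type v} [Group G] [Fintype G]
    (σ : G → (C →ₐ[ℂ] C)) (h1 : ∀ c, σ 1 c = c) (hm : ∀ g h c, σ (g * h) c = σ g (σ h c))
    (Ψ : C →ₗ[ℂ] ℂ) (hΨ1 : Ψ 1 = 1) (hΨG : ∀ g c, Ψ (σ g c) = Ψ c)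
    (hΨm : ∀ a b, (∀ g, σ g a = a) → Ψ (a * b) = Ψ a * Ψ b) :
    ∃ ρ : C →ₐ[ℂ] ℂ, ∀ c, (Fintype.card G : ℂ) * Ψ c = ∑ g, ρ (σ g c) :=
  lying_over (C := C) σ h1 hm Ψ hΨ1 hΨG hΨm

/-- DESC1.  The functional `ρ` on `B`: let `C ⊆ D_ω` be the commutative algebra generated by the
`μ b = omk (m b)` (`Algebra.adjoin`, `isMulCommutative_adjoin`), with `σ g` = restriction of
`aomMap ω (α g)` and `Ψ` = ultralimit of `ψ`.  `lying_over` gives `ρ'` and `ρ b = ρ' (μ b)`.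
(Invariant `a ∈ C` is `omk` of a sequence of invariant elements: average a lift.) -/
theorem exists_rho {D : Type u} [CStarAlgebra D] [Nontrivial D] (ω : Ultrafilter ℕ)
    (hω : (ω : Filter ℕ) ≤ atTop) {G : Type v} [Group G] [Fintype G]
    {α : G → (D →⋆ₐ[ℂ] D)} (hα : IsAct α) {B : Type w} [Ring B] [StarRing B] [Algebra ℂ B]
    {β : G → (B →⋆ₐ[ℂ] B)} (θ : ℕ → (B →⋆ₐ[ℂ] D))
    (he : ∀ i g b, α g (θ i b) = θ i (β g b))
    (ψ : D →ₗ[ℂ] ℂ) (hψ1 : ψ 1 = 1) (hψg : ∀ g x, ψ (α g x) = ψ x)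
    (hψ : ∀ a ∈ fixAlg α Set.univ, ∀ x, ψ (a * x) = ψ a * ψ x)
    (Ψ : Aom D ω →ₗ[ℂ] ℂ) (hΨ : ∀ x : Bdd D, Tendsto (fun n => ψ (x n)) ω (𝓝 (Ψ (omk D ω x))))
    (m : B →ₗ[ℂ] Bdd D)
    (hm : ∀ b n, (m b) n = ((n : ℂ) + 1)⁻¹ • ∑ i ∈ Finset.range (n + 1), θ i b)
    (hmc : ∀ a b, Commute (omk D ω (m a)) (omk D ω (m b))) :
    ∃ ρ : B →ₗ[ℂ] ℂ, ρ 1 = 1 ∧ ∀ (r : ℕ) (y : Fin r → B),
      (Fintype.card G : ℂ) * Ψ (List.ofFn fun j => omk D ω (m (y j))).prod =
        ∑ g : G, ∏ j, ρ (β g (y j)) := by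
  classical
  have hcard : (Fintype.card G : ℂ) ≠ 0 := Nat.cast_ne_zero.2 Fintype.card_ne_zero
  let μ : B → Aom D ω := fun b => omk D ω (m b)
  let C : Subalgebra ℂ (Aom D ω) := Algebra.adjoin ℂ (Set.range μ)
  have hC : IsMulCommutative C := Algebra.isMulCommutative_adjoin ℂ (by
    rintro _ ⟨a, rfl⟩ _ ⟨b, rfl⟩
    exact (hmc a b).eq)
  have hμC : ∀ b, μ b ∈ C := fun b => Algebra.subset_adjoin ⟨b, rfl⟩
  let F : G → (Aom D ω →ₐ[ℂ] Aom D ω) := fun g => (aomMap ω (α g) : Aom D ω →ₐ[ℂ] Aom D ω)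
  have hF : ∀ g x, F g (omk D ω x) = omk D ω (bmap (α g) x) := fun g x => aomMap_omk ω (α g) x
  have hFμ : ∀ g b, F g (μ b) = μ (β g b) := by
    intro g b
    show F g (omk D ω (m b)) = omk D ω (m (β g b))
    rw [hF]
    congr 1
    refine lp.ext (funext fun n => ?_)
    rw [bmap_apply, hm, hm, map_smul, map_sum]
    simp only [he]
  have hFC : ∀ g, ∀ c ∈ C, F g c ∈ C := by
    intro g
    have : C ≤ C.comap (F g) := by
      refine Algebra.adjoin_le ?_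
      rintro _ ⟨b, rfl⟩
      show F g (μ b) ∈ C
      rw [hFμ]
      exact hμC _
    exact fun c hc => this hc
  have hF1 : ∀ x, F 1 x = x := by
    intro x
    obtain ⟨x, rfl⟩ := omk_surjective D ω x
    rw [hF]
    congr 1
    exact lp.ext (funext fun n => hα.one _)
  have hFm : ∀ g h x, F (g * h) x = F g (F h x) := by
    intro g h x
    obtain ⟨x, rfl⟩ := omk_surjective D ω x
    rw [hF, hF, hF]
    congr 1
    exact lp.ext (funext fun n => hα.mul _ _ _)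
  let σ : G → (C →ₐ[ℂ] C) := fun g => ((F g).comp C.val).codRestrict C (fun c => hFC g c c.2)
  let ΨC : C →ₗ[ℂ] ℂ := Ψ.comp C.val.toLinearMap
  have hΨ1 : Ψ 1 = 1 := by
    have h1 := hΨ 1
    have h2 : (fun n => ψ ((1 : Bdd D) n)) = fun _ => (1 : ℂ) := funext fun n => hψ1
    rw [h2, map_one] at h1
    exact tendsto_nhds_unique h1 tendsto_const_nhds
  have hΨg : ∀ g x, Ψ (F g x) = Ψ x := by
    intro g x
    obtain ⟨x, rfl⟩ := omk_surjective D ω x
    rw [hF]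
    refine tendsto_nhds_unique (hΨ (bmap (α g) x)) ((hΨ x).congr fun n => ?_)
    rw [bmap_apply, hψg]
  have hΨm : ∀ a b : Aom D ω, (∀ g, F g a = a) → Ψ (a * b) = Ψ a * Ψ b := by
    intro a b ha
    obtain ⟨x, rfl⟩ := omk_surjective D ω a
    obtain ⟨y, rfl⟩ := omk_surjective D ω b
    let x' : Bdd D := ((Fintype.card G : ℂ))⁻¹ • ∑ g, bmap (α g) x
    have hx' : omk D ω x' = omk D ω x := by
      show omk D ω (((Fintype.card G : ℂ))⁻¹ • ∑ g, bmap (α g) x) = omk D ω x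
      rw [map_smul, map_sum]
      have : ∀ g, omk D ω (bmap (α g) x) = omk D ω x := fun g => by rw [← hF, ha]
      simp only [this, Finset.sum_const, Finset.card_univ]
      rw [← Nat.cast_smul_eq_nsmul ℂ, smul_smul, inv_mul_cancel₀ hcard, one_smul]
    have hx'v : ∀ n, x' n = ((Fintype.card G : ℂ))⁻¹ • ∑ g, α g (x n) := by
      intro n
      show (((Fintype.card G : ℂ))⁻¹ • ∑ g, bmap (α g) x : Bdd D) n = _
      rw [lp.coeFn_smul, Pi.smul_apply, lp.coeFn_sum, Finset.sum_apply]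
      rfl
    have hx'n : ∀ n, x' n ∈ fixAlg α Set.univ := by
      intro n h _
      rw [hx'v, map_smul, map_sum]
      congr 1
      simp only [← hα.mul]
      exact Fintype.sum_equiv (Equiv.mulLeft h) _ _ (fun g => rfl)
    rw [← hx', ← map_mul]
    refine tendsto_nhds_unique (hΨ (x' * y)) (((hΨ x').mul (hΨ y)).congr fun n => ?_)
    exact (hψ _ (hx'n n) _).symm
  obtain ⟨ρ', hρ'⟩ := desc1_lying C hC σ (fun c => Subtype.ext (hF1 _))
    (fun g h c => Subtype.ext (hFm g h _)) ΨC hΨ1 (fun g c => hΨg g _)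
    (fun a b ha => hΨm a b fun g => congrArg Subtype.val (ha g))
  let ν : B → C := fun b => ⟨μ b, hμC b⟩
  have hν1 : ν 1 = 1 := by
    refine Subtype.ext ?_
    show omk D ω (m 1) = 1
    have : m 1 = 1 := by
      refine lp.ext (funext fun n => ?_)
      rw [hm]
      have h1 : (1 : Bdd D) n = 1 := rfl
      rw [h1]
      simp only [map_one, Finset.sum_const, Finset.card_range]
      rw [← Nat.cast_smul_eq_nsmul ℂ, smul_smul]
      push_cast
      rw [inv_mul_cancel₀ (by exact_mod_cast Nat.succ_ne_zero n), one_smul]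
    rw [this, map_one]
  let νL : B →ₗ[ℂ] C :=
    { toFun := ν
      map_add' := fun a b => Subtype.ext (by
        show omk D ω (m (a + b)) = omk D ω (m a) + omk D ω (m b)
        rw [map_add, map_add])
      map_smul' := fun z a => Subtype.ext (by
        show omk D ω (m (z • a)) = z • omk D ω (m a)
        rw [map_smul, map_smul]) }
  refine ⟨ρ'.toLinearMap.comp νL, ?_, ?_⟩
  · show ρ' (ν 1) = 1
    rw [hν1, map_one]
  · intro r y
    have h1 := hρ' (List.ofFn fun j => ν (y j)).prod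
    have h2 : ΨC (List.ofFn fun j => ν (y j)).prod =
        Ψ (List.ofFn fun j => omk D ω (m (y j))).prod := by
      show Ψ (C.val (List.ofFn fun j => ν (y j)).prod) = _
      rw [map_list_prod, List.map_ofFn]
      rfl
    rw [h2] at h1
    rw [h1]
    refine Finset.sum_congr rfl fun g _ => ?_
    have h3 : σ g (List.ofFn fun j => ν (y j)).prod = (List.ofFn fun j => ν (β g (y j))).prod := by
      rw [map_list_prod, List.map_ofFn]
      congr 2
      funext j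
      exact Subtype.ext (hFμ g (y j))
    rw [h3, map_list_prod, List.map_ofFn, List.prod_ofFn]
    rfl

/-- DESC.  `G` finite, commuting equivariant copies of `B`, `1` in the commutator ideal of `B`: the
fixed point algebra of `D` has no characters. -/
theorem descent {D : Type u} [CStarAlgebra D] [Nontrivial D] {G : Type v} [Group G] [Fintype G]
    {α : G → (D →⋆ₐ[ℂ] D)} (hα : IsAct α) {B : Type w} [Ring B] [StarRing B] [Algebra ℂ B]
    {β : G → (B →⋆ₐ[ℂ] B)} (hβ : IsAct β) (θ : ℕ → (B →⋆ₐ[ℂ] D))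
    (hc : ∀ i j, i ≠ j → ∀ s t, Commute (θ i s) (θ j t))
    (hb : ∀ b, ∃ M : ℝ, ∀ i, ‖θ i b‖ ≤ M)
    (he : ∀ i g b, α g (θ i b) = θ i (β g b))
    {n : ℕ} (p c d p' : Fin n → B)
    (hw : ∑ l, p l * (c l * d l - d l * c l) * p' l = 1) :
    IsEmpty (fixAlg α Set.univ →⋆ₐ[ℂ] ℂ) := by
  refine ⟨fun χ => ?_⟩
  classical
  obtain ⟨ψ, hψ1, hψb, hψg, hψ⟩ := exists_psi hα χ
  let ω : Ultrafilter ℕ := Filter.hyperfilter ℕ
  have hω : (ω : Filter ℕ) ≤ atTop := by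
    rw [← Nat.cofinite_eq_atTop]
    exact Filter.hyperfilter_le_cofinite
  obtain ⟨Ψ, hΨ⟩ := exists_ulim ω ψ 1 (fun x => by rw [one_mul]; exact hψb x)
  obtain ⟨m, hm, hmc⟩ := exists_mu ω hω θ hc hb
  obtain ⟨ρ, hρ1, hρ⟩ := exists_rho ω hω hα θ he ψ hψ1 hψg hψ Ψ hΨ m hm hmc
  have hcard : (Fintype.card G : ℂ) ≠ 0 := Nat.cast_ne_zero.2 Fintype.card_ne_zero
  have key : ∀ (r : ℕ) (v : Fin r → B × B × B × B),
      ∑ i : (G × G × G × G) × G, ∏ k, ρ (β i.2 (Lp β i.1 (v k))) =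
        ∑ i : (G × G × G × G) × G, ∏ k, ρ (β i.2 (Lm β i.1 (v k))) := by
    intro r v
    have h1 := lim_rel ω hω hα θ hc hb he ψ hψb hψ Ψ hΨ m hm v
    have h2 := congrArg (fun z => (Fintype.card G : ℂ) * z) h1
    simp only [Finset.mul_sum] at h2
    have s1 : ∀ f : (G × G × G × G) × G → ℂ, ∑ i, f i = ∑ γ, ∑ g, f (γ, g) :=
      fun f => Fintype.sum_prod_type f
    rw [s1, s1]
    have e1 : ∀ γ : G × G × G × G, ∑ g : G, ∏ k, ρ (β g (Lp β γ (v k))) =
        (Fintype.card G : ℂ) * Ψ (List.ofFn fun j => omk D ω (m (Lp β γ (v j)))).prod :=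
      fun γ => (hρ r fun j => Lp β γ (v j)).symm
    have e2 : ∀ γ : G × G × G × G, ∑ g : G, ∏ k, ρ (β g (Lm β γ (v k))) =
        (Fintype.card G : ℂ) * Ψ (List.ofFn fun j => omk D ω (m (Lm β γ (v j)))).prod :=
      fun γ => (hρ r fun j => Lm β γ (v j)).symm
    simp only [e1, e2]
    exact h2
  obtain ⟨⟨γ, g⟩, hγ⟩ := dede (fun (i : (G × G × G × G) × G) (x : B × B × B × B) =>
      ρ (β i.2 (Lp β i.1 x)))
    (fun (i : (G × G × G × G) × G) (x : B × B × B × B) => ρ (β i.2 (Lm β i.1 x))) key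
    ((1, 1, 1, 1), 1)
  have h4 : ∀ a b c d, ρ (a * b * c * d) =
      ρ (β (g * γ.1) a * β (g * γ.2.2.1) c * β (g * γ.2.1) b * β (g * γ.2.2.2) d) := by
    intro a b c d
    have := congrFun hγ (a, b, c, d)
    simp only [Lp, Lm, hβ.one, map_mul] at this
    rw [← this]
    simp only [hβ.mul]
  have h5 := rho_comm (fun g => (β g : B →ₐ[ℂ] B)) hβ.one hβ.mul ρ (g * γ.1) (g * γ.2.1)
    (g * γ.2.2.1) (g * γ.2.2.2) h4
  have h6 : ρ 1 = 0 := by
    rw [← hw, map_sum]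
    refine Finset.sum_eq_zero fun l _ => ?_
    have := h5 (p l) (c l) (d l) (p' l)
    rw [mul_sub, sub_mul, map_sub, ← mul_assoc, ← mul_assoc, this, sub_self]
  rw [hρ1] at h6
  exact one_ne_zero h6

end Vale.Agent.P095
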