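import Vale.Agent.P095.Act

open scoped ENNReal Topology
open Filter

namespace Vale.Agent.P095

open Vale.Agent.P101K

universe u v w

/-- FCOP.  Equivariant commuting copies in `F_ω(A)`.  As `fom_hasCopies` in P101K/Cop.lean, with the
set of lifts `L = {bmap (actHom α g) (lift x)}` (countable and `G`-invariant),
`C = StarAlgebra.adjoin ℂ (⋃_g fomAct ω α g '' X)`; norm bound `‖θ i b‖ ≤ ‖lift of b‖`. -/
theorem fom_eqCopies (A : Type u) [CStarAlgebra A] [Nontrivial A]
    [TopologicalSpace.SeparableSpace A] (ω : Ultrafilter ℕ) (hω : (ω : Filter ℕ) ≤ atTop)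
    {G : Type v} [Group G] [Countable G] (α : G →* (A ≃⋆ₐ[ℂ] A)) : EqCopies (fomAct ω α) := by
  classical
  intro X hX
  have hlift : ∀ d : Fom A ω, ∃ x : Bdd A, omk A ω x = (d : Aom A ω) :=
    fun d => omk_surjective A ω _
  choose lift hlift using hlift
  set L : Set (Bdd A) := ⋃ g : G, (fun d => bmap (actHom α g) (lift d)) '' X with hL
  set X' : Set (Fom A ω) := ⋃ g : G, (fun d => fomAct ω α g d) '' X with hX'
  have hLc : L.Countable := Set.countable_iUnion fun g => hX.image _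
  have hLX : ∀ z ∈ L, ∃ d ∈ X', omk A ω z = (d : Aom A ω) := by
    intro z hz
    obtain ⟨g, d, hd, rfl⟩ := Set.mem_iUnion.1 hz
    refine ⟨fomAct ω α g d, Set.mem_iUnion.2 ⟨g, d, hd, rfl⟩, ?_⟩
    rw [fomAct_coe, ← hlift, aomMap_omk]
  have hXL : ∀ d ∈ X', ∃ z ∈ L, omk A ω z = (d : Aom A ω) := by
    intro z hz
    obtain ⟨g, d, hd, rfl⟩ := Set.mem_iUnion.1 hz
    refine ⟨bmap (actHom α g) (lift d), Set.mem_iUnion.2 ⟨g, d, hd, rfl⟩, ?_⟩
    show _ = ((fomAct ω α g d : Fom A ω) : Aom A ω)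
    rw [fomAct_coe, ← hlift, aomMap_omk]
  -- invariance
  have hLinv : ∀ g, ∀ z ∈ L, bmap (actHom α g) z ∈ L := by
    intro g z hz
    obtain ⟨h, d, hd, rfl⟩ := Set.mem_iUnion.1 hz
    refine Set.mem_iUnion.2 ⟨g * h, d, hd, ?_⟩
    exact lp.ext (funext fun n => (actHom_isAct α).mul g h _)
  have hXinv : ∀ g, ∀ z ∈ X', fomAct ω α g z ∈ X' := by
    intro g z hz
    obtain ⟨h, d, hd, rfl⟩ := Set.mem_iUnion.1 hz
    exact Set.mem_iUnion.2 ⟨g * h, d, hd, (fomAct_isAct ω α).mul g h d⟩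
  set L' : Set (Bdd A) := insert 0 (L ∪ (fun z => star z) '' L) with hL'
  have hL'c : L'.Countable := (hLc.union (hLc.image _)).insert 0
  obtain ⟨x, hx⟩ := hL'c.exists_eq_range ⟨0, Set.mem_insert _ _⟩
  have hL'F : ∀ z ∈ L', omk A ω z ∈ Fom A ω := by
    intro z hz
    rcases hz with rfl | hz | ⟨z', hz', rfl⟩
    · rw [map_zero]; exact zero_mem _
    · obtain ⟨d, -, hd⟩ := hLX z hz
      rw [hd]; exact d.2
    · obtain ⟨d, -, hd⟩ := hLX z' hz'
      show omk A ω (star z') ∈ Fom A ω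
      rw [map_star, hd]; exact star_mem d.2
  -- the kernel
  let S : StarSubalgebra ℂ (Bdd A) := StarAlgebra.adjoin ℂ L
  let N : Submodule ℂ (Bdd A) :=
    { carrier := {s | s ∈ S ∧ omk A ω s = 0}
      add_mem' := fun {a b} ha hb => ⟨add_mem ha.1 hb.1, by rw [map_add, ha.2, hb.2, add_zero]⟩
      zero_mem' := ⟨zero_mem _, map_zero _⟩
      smul_mem' := fun c a ha => ⟨S.smul_mem ha.1 c, by rw [map_smul, ha.2, smul_zero]⟩ }
  obtain ⟨y, hyN, hyspan⟩ := countable_span L hLc N (fun z hz => hz.1)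
  obtain ⟨σ, hσ1, hσ2, hσ3⟩ := exists_sigma A ω hω x y
    (fun k => (omk_mem_fom A ω (x k)).1 (hL'F _ (by rw [hx]; exact Set.mem_range_self k)))
    (fun k => (omk_eq_zero_iff _).1 (hyN k).2)
  have hf : ∀ i, ∃ f : Bdd A →⋆ₐ[ℂ] Bdd A, ∀ a n, (f a) n = a (σ i n) :=
    fun i => exists_reidx A (σ i)
  choose f hf using hf
  let φ : ℕ → (Bdd A →⋆ₐ[ℂ] Aom A ω) := fun i => (omk A ω).comp (f i)
  have hφ : ∀ i s, φ i s = omk A ω (f i s) := fun i s => rfl
  -- membership
  have hmemL' : ∀ i, ∀ z ∈ L', φ i z ∈ Fom A ω := by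
    intro i z hz
    rw [hx] at hz
    obtain ⟨k, rfl⟩ := hz
    rw [hφ, omk_mem_fom]
    intro a
    have := hσ2 i k a
    simpa only [hf] using this
  have hmem : ∀ i, ∀ s ∈ S, φ i s ∈ Fom A ω := by
    intro i
    have h1 : S ≤ (Fom A ω).comap (φ i) := by
      refine StarAlgebra.adjoin_le fun z hz => ?_
      exact hmemL' i z (Set.mem_insert_of_mem _ (Set.mem_union_left _ hz))
    exact fun s hs => h1 hs
  -- kernel
  have hker : ∀ i, ∀ s ∈ S, omk A ω s = 0 → φ i s = 0 := by
    intro i s hs h0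
    have h1 : s ∈ Submodule.span ℂ (Set.range y) := hyspan ⟨hs, h0⟩
    have h2 : Submodule.span ℂ (Set.range y) ≤
        LinearMap.ker ((φ i : Bdd A →ₐ[ℂ] Aom A ω)).toLinearMap := by
      rw [Submodule.span_le]
      rintro _ ⟨k, rfl⟩
      show φ i (y k) = 0
      rw [hφ, omk_eq_zero_iff]
      have := hσ1 i k
      simpa only [hf] using this
    exact h2 h1
  have hwd : ∀ i, ∀ s ∈ S, ∀ s' ∈ S, omk A ω s = omk A ω s' → φ i s = φ i s' := by
    intro i s hs s' hs' h
    have := hker i (s - s') (sub_mem hs hs') (by rw [map_sub, h, sub_self])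
    rwa [map_sub, sub_eq_zero] at this
  -- commutation
  have hcL : ∀ i j, i ≠ j → ∀ z ∈ L', ∀ w ∈ L', Commute (φ i z) (φ j w) := by
    intro i j hij z hz w hw
    rw [hx] at hz hw
    obtain ⟨k, rfl⟩ := hz
    obtain ⟨l, rfl⟩ := hw
    have h1 : omk A ω (f i (x k) * f j (x l) - f j (x l) * f i (x k)) = 0 := by
      rw [omk_eq_zero_iff]
      have := hσ3 i j k l hij
      refine this.congr fun n => ?_
      rw [lp.coeFn_sub, Pi.sub_apply, lp.infty_coeFn_mul, lp.infty_coeFn_mul, Pi.mul_apply,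
        Pi.mul_apply, hf, hf]
    rw [map_sub, map_mul, map_mul, sub_eq_zero] at h1
    exact h1
  have hLL' : ∀ z ∈ L, z ∈ L' := fun z hz => Set.mem_insert_of_mem _ (Set.mem_union_left _ hz)
  have hsLL' : ∀ z ∈ L, star z ∈ L' := fun z hz =>
    Set.mem_insert_of_mem _ (Set.mem_union_right _ ⟨z, hz, rfl⟩)
  have hc1 : ∀ i j, i ≠ j → ∀ s ∈ S, ∀ w ∈ L, Commute (φ i s) (φ j w) := by
    intro i j hij s hs w hw
    have h1 : S ≤ (StarSubalgebra.centralizer ℂ {φ j w}).comap (φ i) := by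
      refine StarAlgebra.adjoin_le fun z hz => ?_
      show φ i z ∈ StarSubalgebra.centralizer ℂ {φ j w}
      rw [StarSubalgebra.mem_centralizer_iff]
      rintro g rfl
      refine ⟨(hcL i j hij z (hLL' z hz) w (hLL' w hw)).symm.eq, ?_⟩
      have := (hcL i j hij z (hLL' z hz) (star w) (hsLL' w hw)).symm.eq
      rwa [map_star] at this
    have h2 := h1 hs
    have h3 : φ i s ∈ StarSubalgebra.centralizer ℂ {φ j w} := h2
    rw [StarSubalgebra.mem_centralizer_iff] at h3
    exact ((h3 _ rfl).1 : φ j w * φ i s = φ i s * φ j w).symm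
  have hc2 : ∀ i j, i ≠ j → ∀ s ∈ S, ∀ t ∈ S, Commute (φ i s) (φ j t) := by
    intro i j hij s hs t ht
    have h1 : S ≤ (StarSubalgebra.centralizer ℂ {φ i s}).comap (φ j) := by
      refine StarAlgebra.adjoin_le fun z hz => ?_
      show φ j z ∈ StarSubalgebra.centralizer ℂ {φ i s}
      rw [StarSubalgebra.mem_centralizer_iff]
      rintro g rfl
      refine ⟨(hc1 i j hij s hs z hz).eq, ?_⟩
      have := (hc1 i j hij (star s) (star_mem hs) z hz).eq
      rwa [map_star] at this
    have h3 : φ j t ∈ StarSubalgebra.centralizer ℂ {φ i s} := h1 ht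
    rw [StarSubalgebra.mem_centralizer_iff] at h3
    exact ((h3 _ rfl).1 : φ i s * φ j t = φ j t * φ i s)
  -- lifts of elements of the star algebra
  have hsur : ∀ t : StarAlgebra.adjoin ℂ X', ∃ s ∈ S, omk A ω s = ((t : Fom A ω) : Aom A ω) := by
    have h1 : StarAlgebra.adjoin ℂ X' ≤ (S.map (omk A ω)).comap (Fom A ω).subtype := by
      refine StarAlgebra.adjoin_le fun d hd => ?_
      obtain ⟨z, hz, hzd⟩ := hXL d hd
      exact ⟨z, StarAlgebra.subset_adjoin ℂ L hz, hzd⟩
    intro t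
    obtain ⟨s, hs, hst⟩ := h1 t.2
    exact ⟨s, hs, hst⟩
  -- invariance of the algebras
  have hCinv : ∀ g, ∀ d ∈ StarAlgebra.adjoin ℂ X', fomAct ω α g d ∈ StarAlgebra.adjoin ℂ X' := by
    intro g
    have h1 : StarAlgebra.adjoin ℂ X' ≤ (StarAlgebra.adjoin ℂ X').comap (fomAct ω α g) :=
      StarAlgebra.adjoin_le fun d hd => StarAlgebra.subset_adjoin ℂ X' (hXinv g d hd)
    exact fun d hd => h1 hd
  have hSinv : ∀ g, ∀ s ∈ S, bmap (actHom α g) s ∈ S := by
    intro g
    have h1 : S ≤ S.comap (bmap (actHom α g)) :=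
      StarAlgebra.adjoin_le fun d hd => StarAlgebra.subset_adjoin ℂ L (hLinv g d hd)
    exact fun d hd => h1 hd
  choose g hgS hg using hsur
  let θ : ℕ → (StarAlgebra.adjoin ℂ X' →⋆ₐ[ℂ] Fom A ω) := fun i =>
    { toFun := fun t => ⟨φ i (g t), hmem i _ (hgS t)⟩
      map_one' := by
        refine Subtype.ext ?_
        have := hwd i (g 1) (hgS 1) 1 (one_mem _) (by rw [hg, map_one]; rfl)
        rw [map_one] at this
        exact this
      map_mul' := fun a b => by
        refine Subtype.ext ?_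
        have := hwd i (g (a * b)) (hgS _) (g a * g b) (mul_mem (hgS a) (hgS b))
          (by rw [hg, map_mul, hg, hg]; rfl)
        rw [map_mul] at this
        exact this
      map_zero' := by
        refine Subtype.ext ?_
        have := hwd i (g 0) (hgS 0) 0 (zero_mem _) (by rw [hg, map_zero]; rfl)
        rw [map_zero] at this
        exact this
      map_add' := fun a b => by
        refine Subtype.ext ?_
        have := hwd i (g (a + b)) (hgS _) (g a + g b) (add_mem (hgS a) (hgS b))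
          (by rw [hg, map_add, hg, hg]; rfl)
        rw [map_add] at this
        exact this
      commutes' := fun c => by
        refine Subtype.ext ?_
        have := hwd i (g (algebraMap ℂ _ c)) (hgS _) (algebraMap ℂ _ c)
          (S.algebraMap_mem c) (by rw [hg, AlgHomClass.commutes]; rfl)
        rw [AlgHomClass.commutes] at this
        exact this
      map_star' := fun a => by
        refine Subtype.ext ?_
        have := hwd i (g (star a)) (hgS _) (star (g a)) (star_mem (hgS a))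
          (by rw [hg, map_star, hg]; rfl)
        rw [map_star] at this
        exact this }
  refine ⟨StarAlgebra.adjoin ℂ X', hCinv, fun d hd => ?_, θ, fun i j hij s t => ?_,
    fun b => ⟨‖g b‖, fun i => ?_⟩, fun i h s => ?_⟩
  · refine StarAlgebra.subset_adjoin ℂ X' (Set.mem_iUnion.2 ⟨1, d, hd, ?_⟩)
    exact (fomAct_isAct ω α).one d
  · have h1 := hc2 i j hij (g s) (hgS s) (g t) (hgS t)
    exact Subtype.ext h1.eq
  · exact NonUnitalStarAlgHom.norm_apply_le (φ i) (g b)
  · refine Subtype.ext ?_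
    show aomMap ω (actHom α h) (omk A ω (f i (g s))) = φ i (g ⟨fomAct ω α h s, _⟩)
    rw [aomMap_omk]
    have e1 : bmap (actHom α h) (f i (g s)) = f i (bmap (actHom α h) (g s)) := by
      refine lp.ext (funext fun n => ?_)
      rw [bmap_apply, hf, hf, bmap_apply]
    rw [e1]
    refine hwd i _ (hSinv h _ (hgS s)) _ (hgS _) ?_
    rw [hg, ← aomMap_omk, hg]
    rfl

end Vale.Agent.P095
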