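import Vale.Agent.P095.Act
import Vale.Agent.P101K.Main

open scoped ENNReal Topology
open Filter

namespace Vale.Agent.P095

open Vale.Agent.P101K

universe u v w

/-- five elements, `h = z₀ + z₁` -/
def Rel {D : Type u} [Ring D] [StarRing D] (z : Fin 5 → D) : Prop :=
  z 2 * z 2 = 0 ∧ z 2 * z 3 = (z 0 + z 1) * z 0 ∧ z 3 * z 2 = (z 0 + z 1) * z 1 ∧
  z 0 * z 0 = (z 0 + z 1) * z 0 ∧ star (z 4) * z 4 = 1 - (z 0 + z 1) ∧ z 0 * z 4 = z 4

/-- RNC. -/
theorem rel_no_char {D : Type u} [Ring D] [StarRing D] [Algebra ℂ D] (z : Fin 5 → D)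
    (h : Rel z) : IsEmpty (D →⋆ₐ[ℂ] ℂ) := by
  obtain ⟨h1, h2, h3, h4, h5, h6⟩ := h
  refine ⟨fun χ => ?_⟩
  have g1 := congrArg χ h1
  have g2 := congrArg χ h2
  have g3 := congrArg χ h3
  have g4 := congrArg χ h4
  have g5 := congrArg χ h5
  have g6 := congrArg χ h6
  simp only [map_mul, map_add, map_sub, map_zero, map_one] at g1 g2 g3 g4 g5 g6
  have a2 : χ (z 2) = 0 := mul_self_eq_zero.1 g1
  rw [a2, zero_mul] at g2
  rw [a2, mul_zero] at g3
  rw [← g2] at g4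
  have a0 : χ (z 0) = 0 := mul_self_eq_zero.1 g4
  rw [a0, zero_add] at g3
  have a1 : χ (z 1) = 0 := mul_self_eq_zero.1 g3.symm
  rw [a0, zero_mul] at g6
  rw [a0, a1, ← g6] at g5
  simp at g5

private theorem rex_star {D : Type u} [Ring D] [Algebra ℂ D] [StarRing D]
    {Φ : Matrix (Fin 2) (Fin 2) ℂ →ₗ[ℂ] D} (hΦ : IsOZ Φ) (i j : Fin 2) :
    star (Φ (eu i j)) = Φ (eu j i) := by
  rw [← hΦ.star', Matrix.conjTranspose_single, star_one]

private theorem rex_one : (1 : Matrix (Fin 2) (Fin 2) ℂ) = eu 0 0 + eu 1 1 := by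
  ext i j
  fin_cases i <;> fin_cases j <;> simp [Matrix.single]

private theorem rex_norm {D : Type u} [CStarAlgebra D]
    {Φ : Matrix (Fin 2) (Fin 2) ℂ →ₗ[ℂ] D} (hΦ : IsOZ Φ) (h1 : ‖Φ 1‖ ≤ 1) (i j : Fin 2) :
    ‖Φ (eu i j)‖ ≤ 1 := by
  have key : ∀ i j : Fin 2, ‖Φ (eu i j)‖ * ‖Φ (eu i j)‖ ≤ ‖Φ (eu j j)‖ := by
    intro i j
    rw [← CStarRing.norm_star_mul_self, rex_star hΦ, hΦ.mul', Matrix.single_mul_single_same,
      one_mul]
    calc ‖Φ 1 * Φ (eu j j)‖ ≤ ‖Φ 1‖ * ‖Φ (eu j j)‖ := norm_mul_le _ _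
      _ ≤ 1 * ‖Φ (eu j j)‖ := mul_le_mul_of_nonneg_right h1 (norm_nonneg _)
      _ = ‖Φ (eu j j)‖ := one_mul _
  have diag : ∀ j : Fin 2, ‖Φ (eu j j)‖ ≤ 1 := by
    intro j
    by_contra hc
    have hc' := not_le.1 hc
    have := key j j
    nlinarith
  have h2 := (key i j).trans (diag j)
  by_contra hc
  have hc' := not_le.1 hc
  nlinarith

/-- REX.  `main_abstract` with `q = 1`: `z = (Φ e₀₀, Φ e₁₁, Φ e₀₁, Φ e₁₀, v)`, norms:
`‖Φ e_jj‖² = ‖Φ 1 * Φ e_jj‖ ≤ ‖Φ e_jj‖`. -/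
theorem exists_rel {D : Type u} [CStarAlgebra D] [Nontrivial D] (hD : HasCopies D)
    (h : IsEmpty (D →⋆ₐ[ℂ] ℂ)) : ∃ z : Fin 5 → D, Rel z ∧ ∀ i, ‖z i‖ ≤ 1 := by
  let _ : PartialOrder D := CStarAlgebra.spectralOrder _
  have _ : StarOrderedRing D := CStarAlgebra.spectralOrderedRing _
  obtain ⟨Φ, hΦ, hp, hp1, v, hv, hv2⟩ := main_abstract hD h 1 le_rfl
  have hs : Φ (eu 0 0) + Φ (eu 1 1) = Φ 1 := by rw [rex_one, map_add]
  have hn1 : ‖Φ 1‖ ≤ 1 := (CStarAlgebra.norm_le_one_iff_of_nonneg _ hp).2 hp1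
  have hnv : ‖v‖ ≤ 1 := by
    have h3 : ‖v‖ * ‖v‖ ≤ 1 := by
      rw [← CStarRing.norm_star_mul_self, hv]
      exact (CStarAlgebra.norm_le_one_iff_of_nonneg _ (sub_nonneg.2 hp1)).2
        (sub_le_self 1 hp)
    by_contra hc
    have hc' := not_le.1 hc
    nlinarith
  refine ⟨![Φ (eu 0 0), Φ (eu 1 1), Φ (eu 0 1), Φ (eu 1 0), v], ?_, ?_⟩
  · refine ⟨?_, ?_, ?_, ?_, ?_, ?_⟩
    · show Φ (eu 0 1) * Φ (eu 0 1) = 0
      rw [hΦ.mul', Matrix.single_mul_single_of_ne _ _ _ _ (by decide), map_zero, mul_zero]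
    · show Φ (eu 0 1) * Φ (eu 1 0) = (Φ (eu 0 0) + Φ (eu 1 1)) * Φ (eu 0 0)
      rw [hs, hΦ.mul', Matrix.single_mul_single_same, one_mul]
    · show Φ (eu 1 0) * Φ (eu 0 1) = (Φ (eu 0 0) + Φ (eu 1 1)) * Φ (eu 1 1)
      rw [hs, hΦ.mul', Matrix.single_mul_single_same, one_mul]
    · show Φ (eu 0 0) * Φ (eu 0 0) = (Φ (eu 0 0) + Φ (eu 1 1)) * Φ (eu 0 0)
      rw [hs, hΦ.mul', Matrix.single_mul_single_same, one_mul]
    · show star v * v = 1 - (Φ (eu 0 0) + Φ (eu 1 1))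
      rw [hs, hv]
    · exact hv2
  · intro i
    fin_cases i
    · exact rex_norm hΦ hn1 0 0
    · exact rex_norm hΦ hn1 1 1
    · exact rex_norm hΦ hn1 0 1
    · exact rex_norm hΦ hn1 1 0
    · exact hnv

/-- SATS.  Diagonal sequence: `U_N = {n ≥ N : ∀ j ≤ N, |f j (z^N n)| < 1/(N+1)} ∈ ω`, at `n` use
`z^N n` for the largest `N ≤ n` with `n ∈ U_N`. -/
theorem sat_seq {A : Type u} [CStarAlgebra A] (ω : Ultrafilter ℕ) (hω : (ω : Filter ℕ) ≤ atTop)
    {m : ℕ} (f : ℕ → (Fin m → A) → ℝ) (R : ℝ)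
    (h : ∀ N : ℕ, ∃ z : ℕ → Fin m → A, (∀ n i, ‖z n i‖ ≤ R) ∧
      ∀ j ≤ N, Tendsto (fun n => f j (z n)) ω (𝓝 0)) :
    ∃ z : ℕ → Fin m → A, (∀ n i, ‖z n i‖ ≤ R) ∧ ∀ j, Tendsto (fun n => f j (z n)) ω (𝓝 0) := by
  classical
  choose z hz1 hz2 using h
  have hpos : ∀ n : ℕ, (0 : ℝ) < 1 / ((n : ℝ) + 1) := fun n => by positivity
  let U : ℕ → ℕ → Prop := fun N n => N ≤ n ∧ ∀ j ∈ Finset.range (N + 1), |f j (z N n)| < 1 / ((N : ℝ) + 1)
  have hU : ∀ N, ∀ᶠ n in (ω : Filter ℕ), U N n := by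
    intro N
    have h0 : ∀ᶠ n in (ω : Filter ℕ), N ≤ n := hω (eventually_ge_atTop N)
    refine h0.and ?_
    rw [Finset.eventually_all]
    intro j hj
    have h1 := hz2 N j (Nat.lt_succ_iff.1 (Finset.mem_range.1 hj))
    have h2 := h1.eventually (Metric.ball_mem_nhds 0 (hpos N))
    filter_upwards [h2] with n hn
    simpa [Real.dist_eq] using hn
  -- the largest index
  let s : ℕ → ℕ := fun n => Nat.findGreatest (fun N => U N n) n
  refine ⟨fun n => z (s n) n, fun n i => hz1 _ _ _, fun j => ?_⟩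
  rw [Metric.tendsto_nhds]
  intro ε hε
  obtain ⟨N, hN⟩ := exists_nat_one_div_lt hε
  filter_upwards [hU (max j N)] with n hn
  have h1 : max j N ≤ s n := Nat.le_findGreatest hn.1 hn
  have h2 : U (s n) n := Nat.findGreatest_spec (P := fun N => U N n) hn.1 hn
  have h3 := h2.2 j (Finset.mem_range.2 (Nat.lt_succ_of_le ((le_max_left _ _).trans h1)))
  rw [Real.dist_0_eq_abs]
  refine h3.trans (lt_of_le_of_lt ?_ hN)
  have h4 : (N : ℝ) ≤ (s n : ℝ) := by exact_mod_cast (le_max_right _ _).trans h1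
  exact one_div_le_one_div_of_le (by positivity) (by linarith)

private theorem sat_lift {A : Type u} [CStarAlgebra A] [Nontrivial A] {ω : Ultrafilter ℕ}
    (x : Aom A ω) (h : ‖x‖ ≤ 1) : ∃ a : Bdd A, omk A ω a = x ∧ ‖a‖ ≤ 2 :=
  aom_lift x 2 (lt_of_le_of_lt h one_lt_two)

/-- the six relations as norms -/
private def satR {A : Type u} [CStarAlgebra A] (j : Fin 6) (z : Fin 5 → A) : ℝ :=
  ![‖z 2 * z 2‖, ‖z 2 * z 3 - (z 0 + z 1) * z 0‖, ‖z 3 * z 2 - (z 0 + z 1) * z 1‖,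
    ‖z 0 * z 0 - (z 0 + z 1) * z 0‖, ‖star (z 4) * z 4 - (1 - (z 0 + z 1))‖,
    ‖z 0 * z 4 - z 4‖] j

private def satF {A : Type u} [CStarAlgebra A] {G : Type v} [Group G] (α : G →* (A ≃⋆ₐ[ℂ] A))
    (a : ℕ → A) (γ : ℕ → G) : Fin 6 ⊕ (Fin 5 × ℕ) ⊕ (Fin 5 × ℕ) → (Fin 5 → A) → ℝ
  | Sum.inl j, z => satR j z
  | Sum.inr (Sum.inl (i, k)), z => ‖z i * a k - a k * z i‖
  | Sum.inr (Sum.inr (i, k)), z => ‖α (γ k) (z i) - z i‖

private theorem satR_rel {A : Type u} [CStarAlgebra A] [Nontrivial A] {ω : Ultrafilter ℕ}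
    (x : Fin 5 → Bdd A) :
    Rel (fun i => omk A ω (x i)) ↔ ∀ j, Tendsto (fun n => satR j (fun i => x i n)) ω (𝓝 0) := by
  have e0 : omk A ω (x 2) * omk A ω (x 2) = 0 ↔
      Tendsto (fun n => satR 0 (fun i => x i n)) ω (𝓝 0) := by
    rw [← map_mul, omk_eq_zero_iff]
    exact Iff.rfl
  have e1 : omk A ω (x 2) * omk A ω (x 3) = (omk A ω (x 0) + omk A ω (x 1)) * omk A ω (x 0) ↔
      Tendsto (fun n => satR 1 (fun i => x i n)) ω (𝓝 0) := by
    rw [← map_mul, ← map_add, ← map_mul, omk_eq_iff]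
    exact Iff.rfl
  have e2 : omk A ω (x 3) * omk A ω (x 2) = (omk A ω (x 0) + omk A ω (x 1)) * omk A ω (x 1) ↔
      Tendsto (fun n => satR 2 (fun i => x i n)) ω (𝓝 0) := by
    rw [← map_mul, ← map_add, ← map_mul, omk_eq_iff]
    exact Iff.rfl
  have e3 : omk A ω (x 0) * omk A ω (x 0) = (omk A ω (x 0) + omk A ω (x 1)) * omk A ω (x 0) ↔
      Tendsto (fun n => satR 3 (fun i => x i n)) ω (𝓝 0) := by
    rw [← map_mul, ← map_add, ← map_mul, omk_eq_iff]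
    exact Iff.rfl
  have e4 : star (omk A ω (x 4)) * omk A ω (x 4) = 1 - (omk A ω (x 0) + omk A ω (x 1)) ↔
      Tendsto (fun n => satR 4 (fun i => x i n)) ω (𝓝 0) := by
    rw [← map_star, ← map_mul, ← map_add, ← map_one (omk A ω), ← map_sub, omk_eq_iff]
    exact Iff.rfl
  have e5 : omk A ω (x 0) * omk A ω (x 4) = omk A ω (x 4) ↔
      Tendsto (fun n => satR 5 (fun i => x i n)) ω (𝓝 0) := by
    rw [← map_mul, omk_eq_iff]
    exact Iff.rfl
  unfold Rel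
  rw [e0, e1, e2, e3, e4, e5]
  constructor
  · rintro ⟨h0, h1, h2, h3, h4, h5⟩ j
    fin_cases j
    · exact h0
    · exact h1
    · exact h2
    · exact h3
    · exact h4
    · exact h5
  · intro h
    exact ⟨h 0, h 1, h 2, h 3, h 4, h 5⟩

private theorem sat_dense {A : Type u} [CStarAlgebra A] {ω : Ultrafilter ℕ} (a : ℕ → A)
    (ha : DenseRange a) (z : ℕ → A) (hz : ∀ n, ‖z n‖ ≤ 2)
    (h : ∀ k, Tendsto (fun n => ‖z n * a k - a k * z n‖) ω (𝓝 0)) (b : A) :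
    Tendsto (fun n => ‖z n * b - b * z n‖) ω (𝓝 0) := by
  rw [Metric.tendsto_nhds]
  intro ε hε
  obtain ⟨k, hk⟩ := ha.exists_dist_lt b (show 0 < ε / 8 by positivity)
  rw [dist_eq_norm] at hk
  have h1 := Metric.tendsto_nhds.1 (h k) (ε / 2) (by positivity)
  filter_upwards [h1] with n hn
  rw [Real.dist_eq, sub_zero, abs_of_nonneg (norm_nonneg _)] at hn ⊢
  have e : z n * b - b * z n = (z n * a k - a k * z n) + (z n * (b - a k) - (b - a k) * z n) := by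
    noncomm_ring
  rw [e]
  have h2 : ‖z n * (b - a k)‖ ≤ 2 * (ε / 8) :=
    (norm_mul_le _ _).trans (mul_le_mul (hz n) hk.le (norm_nonneg _) (by norm_num))
  have h3 : ‖(b - a k) * z n‖ ≤ (ε / 8) * 2 :=
    (norm_mul_le _ _).trans (mul_le_mul hk.le (hz n) (norm_nonneg _) (by positivity))
  have h4 := norm_add_le (z n * a k - a k * z n) (z n * (b - a k) - (b - a k) * z n)
  have h5 := norm_sub_le (z n * (b - a k)) ((b - a k) * z n)
  linarith

private theorem rel_coe {D : Type u} [Ring D] [StarRing D] [Algebra ℂ D] [StarModule ℂ D]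
    (S : StarSubalgebra ℂ D) (z : Fin 5 → S) : Rel z ↔ Rel (fun i => (z i : D)) := by
  unfold Rel
  simp only [← Subtype.coe_inj]
  rfl

/-- SAT.  If `F_ω(A)^{H}` has no characters for arbitrarily large subgroups `H` then
`F_ω(A)^G` has no characters.  `exists_rel` for `fixAlg (fomAct ω α) K` (`HasCopies` as hypothesis),
lifts with norm `≤ 2` (`aom_lift`), conditions: the six relations, commutation with a dense sequence
of `A`, `‖α_g x - x‖` for an enumeration of `G`; `sat_seq`; `rel_no_char`. -/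
theorem sat {A : Type u} [CStarAlgebra A] [Nontrivial A] [TopologicalSpace.SeparableSpace A]
    (ω : Ultrafilter ℕ) (hω : (ω : Filter ℕ) ≤ atTop) {G : Type v} [Group G] [Countable G]
    (α : G →* (A ≃⋆ₐ[ℂ] A)) (hC : ∀ K : Set G, HasCopies (fixAlg (fomAct ω α) K))
    (h : ∀ S : Finset G, ∃ K : Set G, (S : Set G) ⊆ K ∧
      IsEmpty (fixAlg (fomAct ω α) K →⋆ₐ[ℂ] ℂ)) :
    IsEmpty (fixAlg (fomAct ω α) Set.univ →⋆ₐ[ℂ] ℂ) := by
  classical
  set a : ℕ → A := TopologicalSpace.denseSeq A with ha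
  obtain ⟨γ, hγ⟩ := exists_surjective_nat G
  set f : ℕ → (Fin 5 → A) → ℝ := fun j z =>
    (Encodable.decode (α := Fin 6 ⊕ (Fin 5 × ℕ) ⊕ (Fin 5 × ℕ)) j).elim 0 (fun i => satF α a γ i z) with hf
  have hfe : ∀ i z, f (Encodable.encode i) z = satF α a γ i z := by
    intro i z
    rw [hf]
    simp only [Encodable.encodek, Option.elim]
  have key : ∀ N : ℕ, ∃ z : ℕ → Fin 5 → A, (∀ n i, ‖z n i‖ ≤ 2) ∧
      ∀ j ≤ N, Tendsto (fun n => f j (z n)) ω (𝓝 0) := by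
    intro N
    set S : Finset G := (Finset.range (N + 1)).image (fun j =>
      (Encodable.decode (α := Fin 6 ⊕ (Fin 5 × ℕ) ⊕ (Fin 5 × ℕ)) j).elim 1
        (fun i => match i with
          | Sum.inr (Sum.inr (_, k)) => γ k
          | _ => 1)) with hS
    obtain ⟨K, hSK, hK⟩ := h S
    obtain ⟨w, hw, hw1⟩ := exists_rel (hC K) hK
    have hl : ∀ i, ∃ y : Bdd A, omk A ω y = ((w i : Fom A ω) : Aom A ω) ∧ ‖y‖ ≤ 2 :=
      fun i => sat_lift _ (hw1 i)
    choose y hy hy2 using hl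
    refine ⟨fun n i => y i n, fun n i => (aom_apply_le (y i) n).trans (hy2 i), fun j hj => ?_⟩
    have hrel : Rel (fun i => omk A ω (y i)) := by
      simp only [hy]
      exact (rel_coe _ _).1 ((rel_coe _ _).1 hw)
    rw [satR_rel] at hrel
    simp only [hf]
    cases hd : (Encodable.decode (α := Fin 6 ⊕ (Fin 5 × ℕ) ⊕ (Fin 5 × ℕ)) j) with
    | none => exact tendsto_const_nhds
    | some i =>
      simp only [Option.elim]
      rcases i with i | ⟨i, k⟩ | ⟨i, k⟩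
      · exact hrel i
      · have h1 : omk A ω (y i) ∈ Fom A ω := by
          rw [hy]
          exact (w i : Fom A ω).2
        rw [omk_mem_fom] at h1
        exact h1 (a k)
      · have hk : γ k ∈ K := by
          apply hSK
          rw [hS, Finset.coe_image]
          refine ⟨j, Finset.mem_coe.2 (Finset.mem_range.2 (Nat.lt_succ_of_le hj)), ?_⟩
          simp only [hd, Option.elim]
        have h1 := (w i).2
        rw [mem_fixAlg] at h1
        have h2 := congrArg Subtype.val (h1 (γ k) hk)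
        rw [fomAct_coe, ← hy, aomMap_omk, omk_eq_iff] at h2
        exact h2
  obtain ⟨z, hz, hzf⟩ := sat_seq ω hω f 2 key
  have hb : ∀ i, Memℓp (fun n => z n i) ∞ := fun i =>
    memℓp_infty ⟨2, by rintro _ ⟨n, rfl⟩; exact hz n i⟩
  set x : Fin 5 → Bdd A := fun i => ⟨fun n => z n i, hb i⟩ with hx
  have hF : ∀ i z', satF α a γ i z' = f (Encodable.encode i) z' := fun i z' => (hfe i z').symm
  have hrel : Rel (fun i => omk A ω (x i)) := by
    rw [satR_rel]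
    intro j
    have := hzf (Encodable.encode (Sum.inl j : Fin 6 ⊕ (Fin 5 × ℕ) ⊕ (Fin 5 × ℕ)))
    simp only [hfe] at this
    exact this
  have hcen : ∀ i, omk A ω (x i) ∈ Fom A ω := by
    intro i
    rw [omk_mem_fom]
    refine sat_dense a (TopologicalSpace.denseRange_denseSeq A) _ (fun n => hz n i) fun k => ?_
    have := hzf (Encodable.encode
      (Sum.inr (Sum.inl (i, k)) : Fin 6 ⊕ (Fin 5 × ℕ) ⊕ (Fin 5 × ℕ)))
    simp only [hfe] at this
    exact this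
  have hinv : ∀ i, (⟨omk A ω (x i), hcen i⟩ : Fom A ω) ∈ fixAlg (fomAct ω α) Set.univ := by
    intro i
    rw [mem_fixAlg]
    intro g _
    obtain ⟨k, rfl⟩ := hγ g
    apply Subtype.ext
    rw [fomAct_coe]
    show aomMap ω (actHom α (γ k)) (omk A ω (x i)) = omk A ω (x i)
    rw [aomMap_omk, omk_eq_iff]
    have := hzf (Encodable.encode
      (Sum.inr (Sum.inr (i, k)) : Fin 6 ⊕ (Fin 5 × ℕ) ⊕ (Fin 5 × ℕ)))
    simp only [hfe] at this
    exact this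
  refine rel_no_char (fun i => (⟨⟨omk A ω (x i), hcen i⟩, hinv i⟩ :
    fixAlg (fomAct ω α) Set.univ)) ?_
  rw [rel_coe, rel_coe]
  exact hrel

end Vale.Agent.P095
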