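import Vale.Agent.P095.Act
import Vale.Agent.P095.Defs

open scoped ENNReal Topology
open Filter

namespace Vale.Agent.P095

open Vale.Agent.P101K

universe u v w

/-- a bounded sequence as an element of `ℓ^∞(ℕ, A)` -/
noncomputable def trB {A : Type u} [CStarAlgebra A] [Nontrivial A] (x : ℕ → A)
    (h : ∃ C : ℝ, ∀ n, ‖x n‖ ≤ C) : Bdd A :=
  ⟨x, memℓp_infty (by
    obtain ⟨C, hC⟩ := h
    exact ⟨C, by rintro _ ⟨n, rfl⟩; exact hC n⟩)⟩

theorem trB_apply {A : Type u} [CStarAlgebra A] [Nontrivial A] (x : ℕ → A)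
    (h : ∃ C : ℝ, ∀ n, ‖x n‖ ≤ C) (n : ℕ) : trB x h n = x n := rfl

/-- TRA. -/
theorem cenHom_to_fix {A : Type u} [CStarAlgebra A] [Nontrivial A] (ω : Ultrafilter ℕ)
    {G : Type v} [Group G] (α : G →* (A ≃⋆ₐ[ℂ] A)) (H : Set G)
    {B : Type w} [Ring B] [StarRing B] [Algebra ℂ B] (φ : B → ℕ → A) (hφ : CenHom A ω φ)
    (hH : ∀ h ∈ H, ∀ b, Tendsto (fun n => ‖α h (φ b n) - φ b n‖) ω (𝓝 0)) :
    Nonempty (B →⋆ₐ[ℂ] fixAlg (fomAct ω α) H) := by
  have hmem : ∀ b, omk A ω (trB (φ b) (hφ.bdd b)) ∈ Fom A ω := fun b =>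
    (omk_mem_fom A ω _).2 (hφ.cen b)
  let F : B → Fom A ω := fun b => ⟨omk A ω (trB (φ b) (hφ.bdd b)), hmem b⟩
  have hF : ∀ b, (F b : Aom A ω) = omk A ω (trB (φ b) (hφ.bdd b)) := fun b => rfl
  have hfix : ∀ b, F b ∈ fixAlg (fomAct ω α) H := by
    intro b h hh
    refine Subtype.ext ?_
    rw [fomAct_coe, hF, aomMap_omk, omk_eq_iff]
    exact hH h hh b
  have hone : F 1 = 1 := by
    refine Subtype.ext ?_
    show omk A ω _ = 1
    rw [← map_one (omk A ω), omk_eq_iff]
    exact hφ.one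
  have hadd : ∀ b c, F (b + c) = F b + F c := by
    intro b c
    refine Subtype.ext ?_
    show omk A ω _ = omk A ω _ + omk A ω _
    rw [← map_add, omk_eq_iff]
    exact hφ.add b c
  have hmul : ∀ b c, F (b * c) = F b * F c := by
    intro b c
    refine Subtype.ext ?_
    show omk A ω _ = omk A ω _ * omk A ω _
    rw [← map_mul, omk_eq_iff]
    exact hφ.mul b c
  have hsmul : ∀ (z : ℂ) b, F (z • b) = z • F b := by
    intro z b
    refine Subtype.ext ?_
    show omk A ω _ = z • omk A ω _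
    rw [← map_smul, omk_eq_iff]
    exact hφ.smul z b
  have hstar : ∀ b, F (star b) = star (F b) := by
    intro b
    refine Subtype.ext ?_
    show omk A ω _ = star (omk A ω _)
    rw [← map_star, omk_eq_iff]
    exact hφ.star b
  refine ⟨{ toFun := fun b => ⟨F b, hfix b⟩
            map_one' := Subtype.ext hone
            map_mul' := fun b c => Subtype.ext (hmul b c)
            map_zero' := Subtype.ext ?_
            map_add' := fun b c => Subtype.ext (hadd b c)
            commutes' := fun r => Subtype.ext ?_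
            map_star' := fun b => Subtype.ext (hstar b) }⟩
  · show F 0 = 0
    have := hsmul 0 0
    rwa [zero_smul, zero_smul] at this
  · show F (algebraMap ℂ B r) = _
    rw [Algebra.algebraMap_eq_smul_one, hsmul, hone]
    rw [Algebra.algebraMap_eq_smul_one]
    rfl

/-- TRB. -/
theorem fix_to_cenHom {A : Type u} [CStarAlgebra A] [Nontrivial A] (ω : Ultrafilter ℕ)
    {G : Type v} [Group G] (α : G →* (A ≃⋆ₐ[ℂ] A)) (H : Set G)
    {B : Type w} [Ring B] [StarRing B] [Algebra ℂ B] (Θ : B →⋆ₐ[ℂ] fixAlg (fomAct ω α) H) :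
    ∃ φ : B → ℕ → A, CenHom A ω φ ∧
      ∀ h ∈ H, ∀ b, Tendsto (fun n => ‖α h (φ b n) - φ b n‖) ω (𝓝 0) := by
  have hlift : ∀ b : B, ∃ x : Bdd A, omk A ω x = ((Θ b : Fom A ω) : Aom A ω) :=
    fun d => omk_surjective A ω _
  choose lift hlift using hlift
  refine ⟨fun b n => lift b n, ⟨fun b => ⟨‖lift b‖, fun n => aom_apply_le (lift b) n⟩,
    fun b => ?_, ?_, fun b c => ?_, fun b c => ?_, fun z b => ?_, fun b => ?_⟩, fun h hh b => ?_⟩
  · refine (omk_mem_fom A ω (lift b)).1 ?_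
    rw [hlift]
    exact (Θ b : Fom A ω).2
  · refine (omk_eq_iff (lift 1) 1).1 ?_
    rw [hlift, map_one, map_one]
    rfl
  · refine (omk_eq_iff (lift (b + c)) (lift b + lift c)).1 ?_
    rw [map_add, hlift, hlift, hlift, map_add]
    rfl
  · refine (omk_eq_iff (lift (b * c)) (lift b * lift c)).1 ?_
    rw [map_mul, hlift, hlift, hlift, map_mul]
    rfl
  · refine (omk_eq_iff (lift (z • b)) (z • lift b)).1 ?_
    rw [map_smul, hlift, hlift, map_smul]
    rfl
  · refine (omk_eq_iff (lift (star b)) (star (lift b))).1 ?_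
    rw [map_star, hlift, hlift, map_star]
    rfl
  · refine (omk_eq_iff (bmap (actHom α h) (lift b)) (lift b)).1 ?_
    rw [← aomMap_omk, hlift, ← fomAct_coe]
    exact congrArg Subtype.val ((Θ b).2 h hh)

end Vale.Agent.P095
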