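import Vale.Agent.P095.Step
import Vale.Agent.P095.FomCop
import Vale.Agent.P095.Sat
import Vale.Agent.P095.Tr
import Vale.Agent.P101K.Final
import Vale.Agent.P101K.NoChar

open scoped ENNReal Topology
open Filter

namespace Vale.Agent.P095

open Vale.Agent.P101K

universe u v w

section

variable (A : Type u) [CStarAlgebra A] [Nontrivial A] [TopologicalSpace.SeparableSpace A]
  (ω : Ultrafilter ℕ) (hω : (ω : Filter ℕ) ≤ atTop) {G : Type v} [Group G] [Countable G]
  (α : G →* (A ≃⋆ₐ[ℂ] A))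

include hω

theorem eqZ_iff (H : Subgroup G) :
    EqZStable A ω α H ↔ IsEmpty (fixAlg (fomAct ω α) (H : Set G) →⋆ₐ[ℂ] ℂ) := by
  constructor
  · intro h
    obtain ⟨φ, h1, h2⟩ := h 0
    obtain ⟨Θ⟩ := cenHom_to_fix ω α (H : Set G) φ h1 h2
    exact ⟨fun χ => (dimdrop_no_char (Fin 2) (Fin 3)).false (χ.comp Θ)⟩
  · intro h k
    obtain ⟨Θ⟩ := dimdrop_of_no_char (hasCopies_fix _ (fom_eqCopies A ω hω α) _) h k
    exact fix_to_cenHom ω α (H : Set G) Θ

theorem main_red (h : ∀ S : Finset G, ∃ K H : Subgroup G, (S : Set G) ⊆ K ∧ H ≤ K ∧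
      H.relIndex K ≠ 0 ∧ EqZStable A ω α H) : EqZStable A ω α ⊤ := by
  rw [eqZ_iff A ω hω]
  have hE := fom_eqCopies A ω hω α
  have h2 := sat ω hω α (fun K => hasCopies_fix _ hE K) (fun S => by
    obtain ⟨K, H, h1, h2, h3, h4⟩ := h S
    refine ⟨K, h1, ?_⟩
    exact fin_step (fomAct_isAct ω α) hE H K h2 h3 ((eqZ_iff A ω hω α H).1 h4))
  simpa using h2

theorem zStable_bot (h : ZStable A ω) : EqZStable A ω α ⊥ := by
  intro k
  obtain ⟨φ, hφ⟩ := h k
  refine ⟨φ, hφ, fun g hg b => ?_⟩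
  rw [Subgroup.mem_bot] at hg
  subst hg
  have : (fun n => ‖(α 1) (φ b n) - φ b n‖) = fun _ => (0 : ℝ) := by
    funext n
    rw [map_one]
    show ‖φ b n - φ b n‖ = 0
    rw [sub_self, norm_zero]
  rw [this]
  exact tendsto_const_nhds

theorem main_lf (hG : ∀ S : Finset G, (Subgroup.closure (S : Set G) : Set G).Finite)
    (h : ZStable A ω) : EqZStable A ω α ⊤ := by
  refine main_red A ω hω α fun S => ⟨Subgroup.closure (S : Set G), ⊥, Subgroup.subset_closure,
    bot_le, ?_, zStable_bot A ω hω α h⟩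
  have : Finite (Subgroup.closure (S : Set G)) := (hG S).to_subtype
  rw [Subgroup.relIndex_bot_left]
  exact Nat.card_pos.ne'

/-- inner automorphisms act trivially on central sequences -/
theorem zStable_inner (H : Subgroup G)
    (hH : ∀ h ∈ H, ∃ u ∈ unitary A, ∀ a, α h a = u * a * star u) (h : ZStable A ω) :
    EqZStable A ω α H := by
  intro k
  obtain ⟨φ, hφ⟩ := h k
  refine ⟨φ, hφ, fun g hg b => ?_⟩
  obtain ⟨u, hu, hα⟩ := hH g hg
  have h1 := hφ.cen b u
  refine squeeze_zero (fun n => norm_nonneg _) (fun n => ?_) h1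
  have h2 : u * star u = 1 := Unitary.mul_star_self_of_mem hu
  have h3 : ‖star u‖ ≤ 1 := by
    have : star u * u = 1 := Unitary.star_mul_self_of_mem hu
    have h4 : ‖u‖ * ‖u‖ = 1 := by rw [← CStarRing.norm_star_mul_self, this, norm_one]
    rw [norm_star]
    nlinarith [norm_nonneg u]
  have e : α g (φ b n) - φ b n = -((φ b n * u - u * φ b n) * star u) := by
    rw [hα, sub_mul, mul_assoc (φ b n), h2, mul_one, neg_sub]
  rw [e, norm_neg]
  calc ‖(φ b n * u - u * φ b n) * star u‖ ≤ ‖φ b n * u - u * φ b n‖ * ‖star u‖ := norm_mul_le _ _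
    _ ≤ ‖φ b n * u - u * φ b n‖ * 1 := by gcongr
    _ = _ := mul_one _

theorem main_inner (h : ZStable A ω)
    (hG : ∀ S : Finset G, ∃ K H : Subgroup G, (S : Set G) ⊆ K ∧ H ≤ K ∧ H.relIndex K ≠ 0 ∧
      ∀ h ∈ H, ∃ u ∈ unitary A, ∀ a, α h a = u * a * star u) : EqZStable A ω α ⊤ := by
  refine main_red A ω hω α fun S => ?_
  obtain ⟨K, H, h1, h2, h3, h4⟩ := hG S
  exact ⟨K, H, h1, h2, h3, zStable_inner A ω hω α H h4 h⟩

end

end Vale.Agent.P095
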