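import Vale.Agent.P095.NDefs

open Filter Topology

namespace Vale.Agent.P095

universe u v

/-- positive tracial functional of norm at most `1` on a C*-algebra, unital or not -/
structure BTrace {A : Type u} [NonUnitalCStarAlgebra A] (τ : A →ₗ[ℂ] ℂ) : Prop where
  norm : ∀ a, ‖τ a‖ ≤ ‖a‖
  pos : ∀ a, 0 ≤ (τ (star a * a)).re ∧ (τ (star a * a)).im = 0
  comm : ∀ a b, τ (a * b) = τ (b * a)

/-- equivariant uniform property Gamma, `A` unital or not: for all finite sets `E`, `K` and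
`ε > 0` there is a self-adjoint contraction `v` which almost commutes with `E` and such that
`τ(a v)`, `τ(a (1 - v²))` and `τ(a (α_g v - v)²)` are almost `0` for all `a ∈ E`, `g ∈ K` and for
all bounded traces `τ` at the same time -/
def EqGammaN {A : Type u} [NonUnitalCStarAlgebra A] {G : Type v} [Group G]
    (α : G →* (A ≃⋆ₐ[ℂ] A)) : Prop :=
  ∀ (E : Finset A) (K : Finset G) (ε : ℝ), 0 < ε → ∃ v : A, star v = v ∧ ‖v‖ ≤ 1 ∧
    (∀ a ∈ E, ‖a * v - v * a‖ < ε) ∧ ∀ τ : A →ₗ[ℂ] ℂ, BTrace τ → ∀ a ∈ E,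
      ‖τ (a * v)‖ < ε ∧ ‖τ (a - a * (v * v))‖ < ε ∧
      ∀ g ∈ K, ‖τ (a * ((α g v - v) * (α g v - v)))‖ < ε

/-- locally finite group -/
def LocFin (G : Type v) [Group G] : Prop :=
  ∀ S : Finset G, (Subgroup.closure (S : Set G) : Set G).Finite

/-- every finite subset lies in a subgroup that has a finite-index subgroup with property `P` -/
def VirtU (G : Type v) [Group G] (P : Subgroup G → Prop) : Prop :=
  ∀ S : Finset G, ∃ K H : Subgroup G, (S : Set G) ⊆ K ∧ H ≤ K ∧ H.relIndex K ≠ 0 ∧ P H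

/-- `H` acts trivially on `F_ω(A)` -/
def TrivF (A : Type u) [NonUnitalCStarAlgebra A] (ω : Ultrafilter ℕ) {G : Type v} [Group G]
    (α : G →* (A ≃⋆ₐ[ℂ] A)) (H : Subgroup G) : Prop :=
  ∀ h ∈ H, ∀ x : ℕ → A, FixSeq A ω α ⊥ x → ∀ a : A,
    Tendsto (fun n => ‖(α h (x n) - x n) * a‖) ω (𝓝 0)

end Vale.Agent.P095
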