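import Vale.Agent.P095.NRep
import Vale.Agent.P095.GNDefs
import Vale.Agent.P095G.Defs

open scoped ENNReal Topology
open Filter

namespace Vale.Agent.P095

open Vale.Agent.P095G Vale.Agent.P101K

universe u v

section

variable {A : Type u} [NonUnitalCStarAlgebra A] {ω : Ultrafilter ℕ}

theorem bt_herm {τ : A →ₗ[ℂ] ℂ} (h : BTrace τ) (c d : A) :
    τ (star c * d) = star (τ (star d * c)) := by
  have h1 := (h.pos (c + d)).2
  have h2 := (h.pos (c + Complex.I • d)).2
  have hc := (h.pos c).2
  have hd := (h.pos d).2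
  have e1 : star (c + d) * (c + d) = star c * c + star c * d + (star d * c + star d * d) := by
    rw [star_add, add_mul, mul_add, mul_add]
  have e2 : star (c + Complex.I • d) * (c + Complex.I • d) =
      star c * c + Complex.I • (star c * d) + (-(Complex.I • (star d * c)) + star d * d) := by
    have : star Complex.I = -Complex.I := Complex.conj_I
    rw [star_add, star_smul, add_mul, mul_add, mul_add, mul_smul_comm, smul_mul_assoc,
      smul_mul_assoc, mul_smul_comm, smul_smul, this, neg_smul, neg_mul, Complex.I_mul_I, neg_neg,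
      one_smul]
  rw [e1] at h1
  rw [e2] at h2
  simp only [map_add, map_neg, map_smul, smul_eq_mul, Complex.add_im, Complex.neg_im,
    Complex.mul_im, Complex.I_re, Complex.I_im, zero_mul, one_mul, zero_add] at h1 h2
  apply Complex.ext
  · show _ = (τ (star d * c)).re
    linarith
  · show _ = -(τ (star d * c)).im
    linarith

theorem gn_lim {τ : ℕ → (A →ₗ[ℂ] ℂ)} (hτ : ∀ n, BTrace (τ n)) (b : A) (x : ℕ → A)
    (hx : ∃ C : ℝ, ∀ n, ‖x n‖ ≤ C) :
    ∃ l : ℝ, Tendsto (fun n => (τ n (star b * x n * b)).re) ω (𝓝 l) := by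
  obtain ⟨C, hC⟩ := hx
  have hb : ∀ n, (τ n (star b * x n * b)).re ∈ Set.Icc (-(‖b‖ * C * ‖b‖)) (‖b‖ * C * ‖b‖) := by
    intro n
    refine abs_le.1 ((Complex.abs_re_le_norm _).trans (((hτ n).norm _).trans ?_))
    refine (norm_mul_le _ _).trans (mul_le_mul_of_nonneg_right ((norm_mul_le _ _).trans ?_)
      (norm_nonneg _))
    rw [norm_star]
    exact mul_le_mul_of_nonneg_left (hC n) (norm_nonneg _)
  obtain ⟨l, -, hl⟩ := (isCompact_Icc (a := -(‖b‖ * C * ‖b‖))
    (b := ‖b‖ * C * ‖b‖)).ultrafilter_le_nhds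
    (ω.map fun n => (τ n (star b * x n * b)).re) (by
      rw [le_principal_iff]
      exact Ultrafilter.mem_map.2 (Filter.Eventually.of_forall hb))
  exact ⟨l, hl⟩

variable [TopologicalSpace.SeparableSpace A] {F : Type u} [CStarAlgebra F]

omit [TopologicalSpace.SeparableSpace A] in
theorem CenS.add {x y : ℕ → A} (hx : CenS A ω x) (hy : CenS A ω y) :
    CenS A ω (fun n => x n + y n) := by
  obtain ⟨⟨C, hC⟩, h1⟩ := hx
  obtain ⟨⟨C', hC'⟩, h2⟩ := hy
  refine ⟨⟨C + C', fun n => (norm_add_le _ _).trans (add_le_add (hC n) (hC' n))⟩, fun a => ?_⟩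
  have h3 := (h1 a).add (h2 a)
  rw [add_zero] at h3
  refine squeeze_zero (fun n => norm_nonneg _) (fun n => ?_) h3
  have : (x n + y n) * a - a * (x n + y n) = x n * a - a * x n + (y n * a - a * y n) := by
    noncomm_ring
  rw [this]
  exact norm_add_le _ _

omit [TopologicalSpace.SeparableSpace A] in
theorem CenS.smul {x : ℕ → A} (r : ℂ) (hx : CenS A ω x) : CenS A ω (fun n => r • x n) := by
  obtain ⟨⟨C, hC⟩, h1⟩ := hx
  refine ⟨⟨‖r‖ * C, fun n => ?_⟩, fun a => ?_⟩
  · rw [norm_smul]
    exact mul_le_mul_of_nonneg_left (hC n) (norm_nonneg _)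
  · have h3 := (h1 a).const_mul ‖r‖
    rw [mul_zero] at h3
    refine h3.congr fun n => ?_
    rw [smul_mul_assoc, mul_smul_comm, ← smul_sub, norm_smul]

omit [TopologicalSpace.SeparableSpace A] in
theorem CenS.mul {x y : ℕ → A} (hx : CenS A ω x) (hy : CenS A ω y) :
    CenS A ω (fun n => x n * y n) := by
  obtain ⟨⟨C, hC⟩, h1⟩ := hx
  obtain ⟨⟨C', hC'⟩, h2⟩ := hy
  have hC0 : 0 ≤ C := (norm_nonneg _).trans (hC 0)
  refine ⟨⟨C * C', fun n => (norm_mul_le _ _).trans
    (mul_le_mul (hC n) (hC' n) (norm_nonneg _) hC0)⟩, fun a => ?_⟩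
  have h3 := ((h2 a).const_mul C).add ((h1 a).mul_const C')
  rw [mul_zero, zero_mul, add_zero] at h3
  refine squeeze_zero (fun n => norm_nonneg _) (fun n => ?_) h3
  have : x n * y n * a - a * (x n * y n) =
      x n * (y n * a - a * y n) + (x n * a - a * x n) * y n := by noncomm_ring
  rw [this]
  refine (norm_add_le _ _).trans (add_le_add ?_ ?_)
  · exact (norm_mul_le _ _).trans (mul_le_mul_of_nonneg_right (hC n) (norm_nonneg _))
  · exact (norm_mul_le _ _).trans (mul_le_mul_of_nonneg_left (hC' n) (norm_nonneg _))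

omit [TopologicalSpace.SeparableSpace A] in
theorem CenS.star {x : ℕ → A} (hx : CenS A ω x) : CenS A ω (fun n => star (x n)) := by
  obtain ⟨⟨C, hC⟩, h1⟩ := hx
  refine ⟨⟨C, fun n => by rw [norm_star]; exact hC n⟩, fun a => ?_⟩
  refine (h1 (Star.star a)).congr fun n => ?_
  rw [← norm_star, star_sub, star_mul, star_mul, star_star, norm_sub_rev]

omit [TopologicalSpace.SeparableSpace A] in
theorem csOf_add {x y : ℕ → A} (hx : CenS A ω x) (hy : CenS A ω y)
    (hxy : CenS A ω (fun n => x n + y n)) :
    csOf (fun n => x n + y n) hxy = csOf x hx + csOf y hy := by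
  refine Subtype.ext (lp.ext (funext fun n => ?_))
  show ((x n + y n : A) : UA A) = (x n : UA A) + (y n : UA A)
  exact Unitization.inr_add _ _ _

omit [TopologicalSpace.SeparableSpace A] in
theorem csOf_smul {x : ℕ → A} (r : ℂ) (hx : CenS A ω x) (hxy : CenS A ω (fun n => r • x n)) :
    csOf (fun n => r • x n) hxy = r • csOf x hx := by
  refine Subtype.ext (lp.ext (funext fun n => ?_))
  show ((r • x n : A) : UA A) = r • (x n : UA A)
  exact Unitization.inr_smul _ _ _

omit [TopologicalSpace.SeparableSpace A] in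
theorem csOf_mul {x y : ℕ → A} (hx : CenS A ω x) (hy : CenS A ω y)
    (hxy : CenS A ω (fun n => x n * y n)) :
    csOf (fun n => x n * y n) hxy = csOf x hx * csOf y hy := by
  refine Subtype.ext (lp.ext (funext fun n => ?_))
  show ((x n * y n : A) : UA A) = (x n : UA A) * (y n : UA A)
  exact Unitization.inr_mul _ _ _

omit [TopologicalSpace.SeparableSpace A] in
theorem csOf_star {x : ℕ → A} (hx : CenS A ω x) (hxy : CenS A ω (fun n => Star.star (x n))) :
    csOf (fun n => Star.star (x n)) hxy = Star.star (csOf x hx) := by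
  refine Subtype.ext (lp.ext (funext fun n => ?_))
  show ((Star.star (x n) : A) : UA A) = Star.star (x n : UA A)
  exact Unitization.inr_star _

theorem gn_limit_trace (hω : (ω : Filter ℕ) ≤ atTop) (M : FMod A ω F) {τ : ℕ → (A →ₗ[ℂ] ℂ)}
    (hτ : ∀ n, BTrace (τ n)) (b : A) :
    ∃ φ : F →ₗ[ℝ] ℝ, Tr φ ∧ Tendsto (fun n => (τ n (star b * b)).re) ω (𝓝 (φ 1)) ∧
      ∀ (x : ℕ → A) (hx : CenS A ω x),
        Tendsto (fun n => (τ n (star b * x n * b)).re) ω (𝓝 (φ (M.q (csOf x hx)))) := by
  have hlim : ∀ (x : ℕ → A), CenS A ω x → ∃ l : ℝ,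
      Tendsto (fun n => (τ n (star b * x n * b)).re) ω (𝓝 l) := fun x hx => gn_lim hτ b x hx.1
  choose! L hL using hlim
  choose s hs hsq using exists_rep hω M
  have huniq : ∀ (x : ℕ → A), CenS A ω x → ∀ l : ℝ,
      Tendsto (fun n => (τ n (star b * x n * b)).re) ω (𝓝 l) → L x = l :=
    fun x hx l hl => tendsto_nhds_unique (hL x hx) hl
  have hwd : ∀ (x y : ℕ → A) (hx : CenS A ω x) (hy : CenS A ω y),
      M.q (csOf x hx) = M.q (csOf y hy) → L x = L y := by
    intro x y hx hy hxy
    have h1 := ((q_csOf_eq M x y hx hy).1 hxy b).const_mul ‖b‖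
    rw [mul_zero] at h1
    have h2 : Tendsto (fun n => (τ n (star b * x n * b)).re - (τ n (star b * y n * b)).re) ω
        (𝓝 0) := by
      refine squeeze_zero_norm (fun n => ?_) h1
      rw [← Complex.sub_re, ← map_sub, Real.norm_eq_abs]
      refine (Complex.abs_re_le_norm _).trans (((hτ n).norm _).trans ?_)
      have e : star b * x n * b - star b * y n * b = star b * ((x n - y n) * b) := by noncomm_ring
      rw [e]
      refine (norm_mul_le _ _).trans ?_
      rw [norm_star]
    have h3 := (hL y hy).add h2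
    rw [add_zero] at h3
    refine huniq x hx _ (h3.congr fun n => ?_)
    ring
  let φ : F →ₗ[ℝ] ℝ :=
    { toFun := fun a => L (s a)
      map_add' := fun y z => by
        have h1 := (hs y).add (hs z)
        rw [hwd (s (y + z)) _ (hs _) h1 (by rw [csOf_add (hs y) (hs z), map_add, hsq, hsq, hsq])]
        refine huniq _ h1 _ (((hL _ (hs y)).add (hL _ (hs z))).congr fun n => ?_)
        rw [mul_add, add_mul, map_add, Complex.add_re]
      map_smul' := fun r y => by
        have h1 := (hs y).smul (r : ℂ)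
        rw [hwd (s (r • y)) _ (hs _) h1 (by
          rw [csOf_smul _ (hs y), map_smul, hsq, hsq]
          exact (Complex.coe_smul r y).symm)]
        rw [RingHom.id_apply, smul_eq_mul]
        refine huniq _ h1 _ (((hL _ (hs y)).const_mul r).congr fun n => ?_)
        rw [mul_smul_comm, smul_mul_assoc, map_smul, smul_eq_mul, Complex.re_ofReal_mul] }
  have hφ : ∀ (x : ℕ → A) (hx : CenS A ω x), φ (M.q (csOf x hx)) = L x := fun x hx =>
    hwd _ _ (hs _) hx (hsq _)
  refine ⟨φ, ⟨?_, ?_, ?_⟩, ?_, fun x hx => ?_⟩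
  · intro y z
    obtain ⟨x, hx, rfl⟩ := exists_rep hω M y
    obtain ⟨x', hx', rfl⟩ := exists_rep hω M z
    rw [← map_mul, ← map_mul, ← csOf_mul hx hx' (hx.mul hx'), ← csOf_mul hx' hx (hx'.mul hx),
      hφ, hφ]
    refine huniq _ (hx.mul hx') _ ?_
    obtain ⟨C, hC⟩ := hx.1
    have hC0 : 0 ≤ C := (norm_nonneg _).trans (hC 0)
    have h1 := ((hx'.2 b).const_mul (‖b‖ * C)).add ((hx'.2 (star b)).mul_const (C * ‖b‖))
    rw [mul_zero, zero_mul, add_zero] at h1
    have h2 : Tendsto (fun n => (τ n (star b * (x n * x' n) * b)).re -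
        (τ n (star b * (x' n * x n) * b)).re) ω (𝓝 0) := by
      refine squeeze_zero_norm (fun n => ?_) h1
      have e : τ n (star b * (x n * x' n) * b) - τ n (star b * (x' n * x n) * b) =
          τ n (star b * x n * (x' n * b - b * x' n)) +
          τ n ((x' n * star b - star b * x' n) * (x n * b)) := by
        have e1 : τ n (star b * x n * (b * x' n)) = τ n (x' n * star b * (x n * b)) := by
          rw [← mul_assoc, (hτ n).comm]
          congr 1
          noncomm_ring
        rw [mul_sub, sub_mul, map_sub, map_sub, e1]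
        have e2 : star b * (x n * x' n) * b = star b * x n * (x' n * b) := by noncomm_ring
        have e3 : star b * (x' n * x n) * b = star b * x' n * (x n * b) := by noncomm_ring
        rw [e2, e3]
        ring
      rw [← Complex.sub_re, e, Real.norm_eq_abs]
      refine (Complex.abs_re_le_norm _).trans ((norm_add_le _ _).trans (add_le_add ?_ ?_))
      · refine ((hτ n).norm _).trans ((norm_mul_le _ _).trans ?_)
        refine mul_le_mul_of_nonneg_right ((norm_mul_le _ _).trans ?_) (norm_nonneg _)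
        rw [norm_star]
        exact mul_le_mul_of_nonneg_left (hC n) (norm_nonneg _)
      · refine ((hτ n).norm _).trans ((norm_mul_le _ _).trans ?_)
        refine mul_le_mul_of_nonneg_left ((norm_mul_le _ _).trans ?_) (norm_nonneg _)
        exact mul_le_mul_of_nonneg_right (hC n) (norm_nonneg _)
    have h3 := (hL _ (hx'.mul hx)).add h2
    rw [add_zero] at h3
    refine h3.congr fun n => ?_
    ring
  · intro y
    obtain ⟨x, hx, rfl⟩ := exists_rep hω M y
    rw [← map_star, ← csOf_star hx hx.star, ← map_mul,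
      ← csOf_mul hx.star hx (hx.star.mul hx), hφ]
    refine ge_of_tendsto' (hL _ (hx.star.mul hx)) fun n => ?_
    have e : star b * (star (x n) * x n) * b = star (x n * b) * (x n * b) := by
      rw [star_mul]
      noncomm_ring
    rw [e]
    exact ((hτ n).pos _).1
  · intro y
    obtain ⟨x, hx, rfl⟩ := exists_rep hω M y
    rw [← map_star, ← csOf_star hx hx.star, hφ, hφ]
    refine huniq _ hx.star _ ((hL x hx).congr fun n => ?_)
    have e : star b * star (x n) * b = star (x n * b) * b := by rw [star_mul]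
    have e2 : star b * x n * b = star b * (x n * b) := by rw [mul_assoc]
    rw [e, e2, bt_herm (hτ n) b (x n * b)]
    rfl
  · obtain ⟨e, he, he1⟩ := exists_rep hω M 1
    have h1 := (q_csOf_one M e he).1 he1 b
    have h2 := hL e he
    rw [← hφ e he, he1] at h2
    have h3 : Tendsto (fun n => (τ n (star b * b)).re - (τ n (star b * e n * b)).re) ω (𝓝 0) := by
      have h4 := h1.const_mul ‖b‖
      rw [mul_zero] at h4
      refine squeeze_zero_norm (fun n => ?_) h4
      rw [← Complex.sub_re, ← map_sub, Real.norm_eq_abs]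
      refine (Complex.abs_re_le_norm _).trans (((hτ n).norm _).trans ?_)
      have e5 : star b * b - star b * e n * b = star b * (b - e n * b) := by noncomm_ring
      rw [e5]
      refine (norm_mul_le _ _).trans ?_
      rw [norm_star, norm_sub_rev]
    have h5 := h2.add h3
    rw [add_zero] at h5
    refine h5.congr fun n => ?_
    ring
  · rw [hφ]
    exact hL x hx

end

end Vale.Agent.P095
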