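import Vale.Agent.P095.GN1
import Vale.Agent.P095.GN2
import Vale.Agent.P095G.AmpM
import Vale.Agent.P095G.Tb

open scoped ENNReal Topology
open Filter

namespace Vale.Agent.P095

open Vale.Agent.P095G Vale.Agent.P101K

universe u v

section

variable {A : Type u} [NonUnitalCStarAlgebra A] [TopologicalSpace.SeparableSpace A]
  {ω : Ultrafilter ℕ} {F : Type u} [CStarAlgebra F]

/-- representing sequences with norm control -/
theorem exists_rep_norm (hω : (ω : Filter ℕ) ≤ atTop) (M : FMod A ω F) (y : F) (r : ℝ)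
    (hr : ‖y‖ < r) :
    ∃ (x : ℕ → A) (hx : CenS A ω x), M.q (csOf x hx) = y ∧ ∀ n, ‖x n‖ ≤ r := by
  obtain ⟨e, he1, hes, hea⟩ := exists_apu A
  obtain ⟨X, rfl, hXr⟩ := M.lift y r hr
  have hmul : ∀ (z : UA A) (b : A),
      z * (b : UA A) = ((z.fst • b + z.snd * b : A) : UA A) := by
    intro z b
    induction z using Unitization.ind with
    | inl_add_inr r a =>
      rw [add_mul, ← Unitization.inr_mul, Unitization.inl_mul_inr]
      simp
  have hbd : ∀ n, ‖(X : Bdd (UA A)) n‖ ≤ ‖(X : Bdd (UA A))‖ := fun n => aom_apply_le _ n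
  have hin : ∀ b : A, ‖(b : UA A)‖ = ‖b‖ := Unitization.norm_inr
  have hea' : ∀ a : A, Tendsto (fun n => ‖e n * a - a‖) ω (𝓝 0) := fun a => (hea a).mono_left hω
  have hea2 : ∀ a : A, Tendsto (fun n => ‖a - a * e n‖) ω (𝓝 0) := by
    intro a
    refine (hea' (star a)).congr fun n => ?_
    rw [← norm_star, star_sub, star_mul, star_star, hes, norm_sub_rev]
  obtain ⟨x, hxdef⟩ : ∃ x : ℕ → A, ∀ n, (x n : UA A) = (X : Bdd (UA A)) n * (e n : UA A) :=
    ⟨fun n => ((X : Bdd (UA A)) n).fst • e n + ((X : Bdd (UA A)) n).snd * e n,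
      fun n => (hmul _ _).symm⟩
  have hxn : ∀ n, ‖x n‖ ≤ ‖(X : Bdd (UA A))‖ := by
    intro n
    rw [← hin, hxdef]
    refine (norm_mul_le _ _).trans ?_
    rw [hin]
    exact (mul_le_mul (hbd n) (he1 n) (norm_nonneg _) (norm_nonneg _)).trans (mul_one _).le
  have hxc : CenS A ω x := by
    refine ⟨⟨_, hxn⟩, fun a => ?_⟩
    have h1 := ((hea' a).const_mul ‖(X : Bdd (UA A))‖).add
      (((hea2 a).const_mul ‖(X : Bdd (UA A))‖).add (X.2 a))
    rw [mul_zero, add_zero, add_zero] at h1
    refine squeeze_zero (fun n => norm_nonneg _) (fun n => ?_) h1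
    have e1 : ((x n * a - a * x n : A) : UA A)
        = (X : Bdd (UA A)) n * ((e n * a - a : A) : UA A)
          + ((X : Bdd (UA A)) n * ((a - a * e n : A) : UA A)
            + ((X : Bdd (UA A)) n * (a : UA A) - (a : UA A) * (X : Bdd (UA A)) n) * (e n : UA A)) := by
      rw [Unitization.inr_sub, Unitization.inr_mul, Unitization.inr_mul, hxdef,
        Unitization.inr_sub, Unitization.inr_mul, Unitization.inr_sub, Unitization.inr_mul]
      noncomm_ring
    rw [← hin, e1]
    refine (norm_add_le _ _).trans (add_le_add ?_ ((norm_add_le _ _).trans (add_le_add ?_ ?_)))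
    · refine (norm_mul_le _ _).trans ?_
      rw [hin]
      exact mul_le_mul_of_nonneg_right (hbd n) (norm_nonneg _)
    · refine (norm_mul_le _ _).trans ?_
      rw [hin]
      exact mul_le_mul_of_nonneg_right (hbd n) (norm_nonneg _)
    · refine (norm_mul_le _ _).trans ?_
      rw [hin (e n)]
      exact (mul_le_mul_of_nonneg_left (he1 n) (norm_nonneg _)).trans (mul_one _).le
  refine ⟨x, hxc, ?_, fun n => (hxn n).trans hXr⟩
  rw [← sub_eq_zero, ← map_sub, M.ker]
  intro a
  have h1 := (hea' a).const_mul ‖(X : Bdd (UA A))‖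
  rw [mul_zero] at h1
  refine squeeze_zero (fun n => norm_nonneg _) (fun n => ?_) h1
  have e1 : ((csOf x hxc - X : CS A ω) : Bdd (UA A)) n * (a : UA A)
      = (X : Bdd (UA A)) n * ((e n * a - a : A) : UA A) := by
    have e2 : ((csOf x hxc - X : CS A ω) : Bdd (UA A)) n
        = (x n : UA A) - (X : Bdd (UA A)) n := rfl
    rw [e2, hxdef, Unitization.inr_sub, Unitization.inr_mul]
    noncomm_ring
  rw [e1]
  refine (norm_mul_le _ _).trans ?_
  rw [hin]
  exact mul_le_mul_of_nonneg_right (hbd n) (norm_nonneg _)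

/-- self-adjoint contractive representatives -/
theorem gn_sa (hω : (ω : Filter ℕ) ≤ atTop) (M : FMod A ω F) (V : F) (hV : star V = V)
    (hV1 : ‖V‖ < 1) :
    ∃ (x : ℕ → A) (hx : CenS A ω x), M.q (csOf x hx) = V ∧ ∀ n, star (x n) = x n ∧ ‖x n‖ ≤ 1 := by
  obtain ⟨x, hx, hq, hn⟩ := exists_rep_norm hω M V 1 hV1
  have h1 : CenS A ω (fun n => x n + star (x n)) := hx.add hx.star
  have h2 : CenS A ω (fun n => ((1 / 2 : ℝ) : ℂ) • (x n + star (x n))) := h1.smul _
  refine ⟨_, h2, ?_, fun n => ⟨?_, ?_⟩⟩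
  · rw [csOf_smul _ h1, csOf_add hx hx.star, csOf_star hx, map_smul, map_add, map_star, hq, hV,
      ← two_smul ℂ V, smul_smul]
    norm_num
  · rw [star_smul, star_add, star_star, add_comm]
    congr 1
    exact Complex.conj_ofReal _
  · rw [norm_smul, Complex.norm_real]
    have h3 := norm_add_le (x n) (star (x n))
    rw [norm_star] at h3
    have h4 := hn n
    rw [Real.norm_of_nonneg (by norm_num)]
    linarith

omit [TopologicalSpace.SeparableSpace A] in
theorem gn_act {G : Type v} [Group G] (α : G →* (A ≃⋆ₐ[ℂ] A)) (g : G) {x : ℕ → A}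
    (hx : CenS A ω x) : ∃ h : CenS A ω (fun n => α g (x n)),
      csOf (fun n => α g (x n)) h = csMap ω α g (csOf x hx) := by
  have h1 : CenS A ω (fun n => α g (x n)) := by
    refine ⟨?_, fun a => ?_⟩
    · obtain ⟨C, hC⟩ := hx.1
      exact ⟨C, fun n => (NonUnitalStarAlgHom.norm_apply_le (α g) (x n)).trans (hC n)⟩
    · refine ((csMap ω α g (csOf x hx)).2 a).congr fun n => ?_
      have e : (csMap ω α g (csOf x hx) : Bdd (UA A)) n = ((α g (x n) : A) : UA A) := by
        rw [csMap_apply, ← extA_inr]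
        rfl
      rw [e, ← Unitization.inr_mul, ← Unitization.inr_mul, ← Unitization.inr_sub,
        Unitization.norm_inr]
  refine ⟨h1, Subtype.ext (lp.ext (funext fun n => ?_))⟩
  rw [csMap_apply]
  show ((α g (x n) : A) : UA A) = _
  rw [← extA_inr]
  rfl

theorem bt_im {τ : A →ₗ[ℂ] ℂ} (h : BTrace τ) {b x : A} (hx : star x = x) :
    ‖τ (star b * x * b)‖ = |(τ (star b * x * b)).re| := by
  have h1 := bt_herm h b (x * b)
  rw [star_mul, hx, ← mul_assoc] at h1
  have h2 : (τ (star b * x * b)).im = 0 := by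
    have := congrArg Complex.im h1
    have h3 : (star (τ (star b * x * b))).im = -(τ (star b * x * b)).im := rfl
    rw [h3] at this
    linarith
  have h4 : τ (star b * x * b) = (((τ (star b * x * b)).re : ℝ) : ℂ) :=
    Complex.ext (by simp) (by simp [h2])
  conv_lhs => rw [h4]
  rw [Complex.norm_real, Real.norm_eq_abs]

end

end Vale.Agent.P095
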