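import Vale.Agent.P095.GN3

open scoped ENNReal Topology
open Filter

namespace Vale.Agent.P095

open Vale.Agent.P095G Vale.Agent.P101K

universe u v

section

variable {A : Type u} [NonUnitalCStarAlgebra A] [TopologicalSpace.SeparableSpace A]
  {ω : Ultrafilter ℕ} {F : Type u} [CStarAlgebra F]

theorem gn_transfer (hω : (ω : Filter ℕ) ≤ atTop) (M : FMod A ω F) {G : Type v} [Group G]
    (α : G →* (A ≃⋆ₐ[ℂ] A)) (E E' : Finset A) (K : Finset G) (ε ε' : ℝ) (hε : 0 < ε)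
    (hE : ∀ b ∈ E, ε' * ‖b‖ ^ 2 < ε) (hε' : 0 ≤ ε') (V : F) (hV : star V = V) (hV1 : ‖V‖ < 1)
    (h1 : ∀ φ : F →ₗ[ℝ] ℝ, Tr φ → φ V = 0)
    (h2 : ∀ φ : F →ₗ[ℝ] ℝ, Tr φ → (1 - ε') * φ 1 ≤ φ (V * V))
    (h3 : ∀ φ : F →ₗ[ℝ] ℝ, Tr φ → ∀ s ∈ K,
      φ ((fAct M α s V - V) * (fAct M α s V - V)) ≤ ε' * φ 1) :
    ∃ v : A, star v = v ∧ ‖v‖ ≤ 1 ∧ (∀ a ∈ E', ‖a * v - v * a‖ < ε) ∧
      ∀ τ : A →ₗ[ℂ] ℂ, BTrace τ → ∀ b ∈ E, ‖τ (star b * v * b)‖ < ε ∧
        ‖τ (star b * b - star b * (v * v) * b)‖ < ε ∧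
        ∀ g ∈ K, ‖τ (star b * ((α g v - v) * (α g v - v)) * b)‖ < ε := by
  classical
  obtain ⟨x, hx, hxV, hxs⟩ := gn_sa hω M V hV hV1
  by_contra hcon
  push Not at hcon
  have hcomm : ∀ᶠ n in (ω : Filter ℕ), ∀ a ∈ E', ‖a * x n - x n * a‖ < ε := by
    rw [Filter.eventually_all_finset]
    intro a _
    filter_upwards [(hx.2 a).eventually (gt_mem_nhds hε)] with n hn
    rwa [norm_sub_rev]
  have h0 : BTrace (0 : A →ₗ[ℂ] ℂ) :=
    ⟨fun a => by simp, fun a => by simp, fun a b => by simp⟩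
  have hch : ∀ n, ∃ τ : A →ₗ[ℂ] ℂ, BTrace τ ∧ ((∀ a ∈ E', ‖a * x n - x n * a‖ < ε) →
      ∃ b ∈ E, ‖τ (star b * x n * b)‖ < ε →
        ‖τ (star b * b - star b * (x n * x n) * b)‖ < ε →
        ∃ g ∈ K, ε ≤ ‖τ (star b * ((α g (x n) - x n) * (α g (x n) - x n)) * b)‖) := by
    intro n
    by_cases h : ∀ a ∈ E', ‖a * x n - x n * a‖ < ε
    · obtain ⟨τ, hτ, hτ2⟩ := hcon (x n) (hxs n).1 (hxs n).2 h
      exact ⟨τ, hτ, fun _ => hτ2⟩
    · exact ⟨0, h0, fun h' => absurd h' h⟩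
  choose τ hτ hτ2 using hch
  have hall : ∀ᶠ n in (ω : Filter ℕ), ∀ b ∈ E, ‖τ n (star b * x n * b)‖ < ε ∧
      ‖τ n (star b * b - star b * (x n * x n) * b)‖ < ε ∧
      ∀ g ∈ K, ‖τ n (star b * ((α g (x n) - x n) * (α g (x n) - x n)) * b)‖ < ε := by
    rw [Filter.eventually_all_finset]
    intro b hb
    obtain ⟨φ, hφ, hlim1, hlim⟩ := gn_limit_trace hω M hτ b
    have hφ0 : 0 ≤ φ 1 := by
      have := hφ.pos 1
      rwa [star_one, one_mul] at this
    have hφ1 : φ 1 ≤ ‖b‖ ^ 2 := by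
      refine le_of_tendsto' hlim1 fun n => ?_
      refine (Complex.re_le_norm _).trans (((hτ n).norm _).trans ?_)
      rw [CStarRing.norm_star_mul_self, sq]
    have hδ : ε' * φ 1 < ε := (mul_le_mul_of_nonneg_left hφ1 hε').trans_lt (hE b hb)
    refine Filter.Eventually.and ?_ (Filter.Eventually.and ?_ ?_)
    · have h4 := (hlim x hx).abs
      rw [hxV, h1 φ hφ, abs_zero] at h4
      filter_upwards [h4.eventually (gt_mem_nhds hε)] with n hn
      rw [bt_im (hτ n) (hxs n).1]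
      exact hn
    · have h4 := (hlim1.sub (hlim _ (hx.mul hx))).abs
      rw [csOf_mul hx hx, map_mul, hxV] at h4
      have h5 : |φ 1 - φ (V * V)| < ε := by
        have h6 := h2 φ hφ
        have h7 : φ (V * V) ≤ φ 1 := by
          have h8 := n2_mul_le hφ 1 V
          unfold N2 at h8
          rw [mul_one, hV, star_one, one_mul] at h8
          have h9 : ‖V‖ ^ 2 ≤ 1 := pow_le_one₀ (norm_nonneg _) hV1.le
          exact h8.trans (mul_le_of_le_one_left hφ0 h9)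
        rw [abs_of_nonneg (by linarith)]
        linarith
      filter_upwards [h4.eventually (gt_mem_nhds h5)] with n hn
      have e1 : τ n (star b * b - star b * (x n * x n) * b) =
          (((τ n (star b * b)).re - (τ n (star b * (x n * x n) * b)).re : ℝ) : ℂ) := by
        have e2 : star b * (x n * x n) * b = star (x n * b) * (x n * b) := by
          rw [star_mul, (hxs n).1]
          noncomm_ring
        have i1 := ((hτ n).pos b).2
        have i2 := ((hτ n).pos (x n * b)).2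
        rw [← e2] at i2
        rw [map_sub]
        exact Complex.ext (by simp) (by simp [i1, i2])
      rw [e1, Complex.norm_real, Real.norm_eq_abs]
      exact hn
    · rw [Filter.eventually_all_finset]
      intro g hg
      obtain ⟨hgx, hgq⟩ := gn_act α g hx
      have hneg : CenS A ω (fun n => (-1 : ℂ) • x n) := hx.smul _
      have hy : CenS A ω (fun n => α g (x n) + (-1 : ℂ) • x n) := hgx.add hneg
      have hyq : M.q (csOf _ hy) = fAct M α g V - V := by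
        rw [csOf_add hgx hneg, csOf_smul _ hx, map_add, map_smul, hgq, ← fAct_q, hxV, neg_smul,
          one_smul, sub_eq_add_neg]
      have h4 := hlim _ (hy.mul hy)
      rw [csOf_mul hy hy, map_mul, hyq] at h4
      have h5 : φ ((fAct M α g V - V) * (fAct M α g V - V)) < ε := (h3 φ hφ g hg).trans_lt hδ
      filter_upwards [h4.eventually (gt_mem_nhds h5)] with n hn
      have e0 : α g (x n) + (-1 : ℂ) • x n = α g (x n) - x n := by
        rw [neg_smul, one_smul, sub_eq_add_neg]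
      rw [e0] at hn
      have h6 : star (α g (x n) - x n) = α g (x n) - x n := by
        rw [star_sub, ← map_star, (hxs n).1]
      have e2 : star b * ((α g (x n) - x n) * (α g (x n) - x n)) * b =
          star ((α g (x n) - x n) * b) * ((α g (x n) - x n) * b) := by
        rw [star_mul, h6]
        noncomm_ring
      have h7 : star ((α g (x n) - x n) * (α g (x n) - x n)) =
          (α g (x n) - x n) * (α g (x n) - x n) := by rw [star_mul, h6]
      rw [bt_im (hτ n) h7, abs_of_nonneg]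
      · exact hn
      · rw [e2]
        exact ((hτ n).pos _).1
  obtain ⟨n, hn1, hn2⟩ := (hcomm.and hall).exists
  obtain ⟨b, hb, hb2⟩ := hτ2 n hn1
  obtain ⟨h4, h5, h6⟩ := hn2 b hb
  obtain ⟨g, hg, hg2⟩ := hb2 h4 h5
  exact absurd hg2 (not_le.2 (h6 g hg))

/-- the diagonal form of property Gamma -/
theorem gn_diag [Nontrivial A] (hω : (ω : Filter ℕ) ≤ atTop) (M : FMod A ω F) {G : Type v}
    [Group G] [Countable G] (hP : PropP.{u, v} G) (α : G →* (A ≃⋆ₐ[ℂ] A)) (h : EqZ A ω α ⊥)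
    (E E' : Finset A) (K : Finset G) (ε : ℝ) (hε : 0 < ε) :
    ∃ v : A, star v = v ∧ ‖v‖ ≤ 1 ∧ (∀ a ∈ E', ‖a * v - v * a‖ < ε) ∧
      ∀ τ : A →ₗ[ℂ] ℂ, BTrace τ → ∀ b ∈ E, ‖τ (star b * v * b)‖ < ε ∧
        ‖τ (star b * b - star b * (v * v) * b)‖ < ε ∧
        ∀ g ∈ K, ‖τ (star b * ((α g v - v) * (α g v - v)) * b)‖ < ε := by
  obtain ⟨D, c, hc, hc1, hcom, hinv, hgood⟩ := gn_good hω M α h
  set R : ℝ := ∑ b ∈ E, ‖b‖ ^ 2 with hR
  have hR0 : 0 ≤ R := Finset.sum_nonneg fun b _ => by positivity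
  obtain ⟨ε', hε'0, hε'1, hε'2⟩ : ∃ ε' : ℝ, 0 < ε' ∧ ε' ≤ 1 ∧ ε' * R < ε := by
    refine ⟨min 1 (ε / (2 * (R + 1))), lt_min one_pos (by positivity), min_le_left _ _, ?_⟩
    calc min 1 (ε / (2 * (R + 1))) * R ≤ ε / (2 * (R + 1)) * R :=
          mul_le_mul_of_nonneg_right (min_le_right _ _) hR0
      _ = ε * (R / (2 * (R + 1))) := by ring
      _ < ε * 1 := by
          refine mul_lt_mul_of_pos_left ?_ hε
          rw [div_lt_one (by positivity)]
          linarith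
      _ = ε := mul_one _
  obtain ⟨e, he⟩ : ∃ e : ℝ, e = ε' / 4 := ⟨_, rfl⟩
  have he0 : 0 < e := by rw [he]; positivity
  have he1 : e ≤ 1 / 4 := by rw [he]; linarith
  obtain ⟨I, V, -, hV, hAI⟩ := amp (K := K) hcom (fAct_isAct M α) hinv hc (by linarith)
    (fun ε' n₀ hε' => hP F D hcom (fAct M α) (fAct_isAct M α) hinv c hc hc1 hgood K ε' n₀ hε')
    e he0 0
  have h1Z : (1 : F) ∈ Zc D I := one_mem _
  have hVs : star V = V := hV.sa
  have hre : star (((1 - e : ℝ)) : ℂ) = (((1 - e : ℝ)) : ℂ) := Complex.conj_ofReal _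
  have hsm : ∀ (φ : F →ₗ[ℝ] ℝ) (x : F), φ ((((1 - e : ℝ)) : ℂ) • x) = (1 - e) * φ x := by
    intro φ x
    have h2 : (((1 - e : ℝ)) : ℂ) • x = (1 - e : ℝ) • x := Complex.coe_smul _ _
    rw [h2, map_smul, smul_eq_mul]
  have h1e : 0 ≤ 1 - e := by linarith
  have hsq : (1 - e) * (1 - e) ≤ 1 := by nlinarith
  refine gn_transfer hω M α E E' K ε ε' hε (fun b hb => ?_) hε'0.le ((((1 - e : ℝ)) : ℂ) • V)
    ?_ ?_ ?_ ?_ ?_
  · refine lt_of_le_of_lt (mul_le_mul_of_nonneg_left ?_ hε'0.le) hε'2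
    exact Finset.single_le_sum (f := fun b : A => ‖b‖ ^ 2) (fun b _ => by positivity) hb
  · rw [star_smul, hre, hVs]
  · rw [norm_smul, Complex.norm_real, Real.norm_eq_abs, abs_of_nonneg h1e]
    have h2 := mul_le_mul_of_nonneg_left hV.norm h1e
    linarith
  · intro φ hφ
    have h2 := hV.mean φ hφ 1 h1Z
    rw [one_mul] at h2
    rw [hsm, h2, mul_zero]
  · intro φ hφ
    have h2 := hV.var φ hφ 1 h1Z
    unfold N2 at h2
    rw [star_one, one_mul, mul_one, hVs] at h2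
    have h3 : 0 ≤ φ 1 := by
      have := hφ.pos 1
      rwa [star_one, one_mul] at this
    rw [smul_mul_smul_comm]
    have h4 : φ (((((1 - e : ℝ)) : ℂ) * (((1 - e : ℝ)) : ℂ)) • (V * V)) =
        (1 - e) * ((1 - e) * φ (V * V)) := by
      rw [mul_smul, hsm, hsm]
    rw [h4]
    have h5 : (1 - e) * ((1 - e) * ((1 - e) * φ 1)) ≤ (1 - e) * ((1 - e) * φ (V * V)) := by
      gcongr
    refine le_trans ?_ h5
    have h6 : (1 - ε') ≤ (1 - e) * ((1 - e) * (1 - e)) := by nlinarith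
    have h7 := mul_le_mul_of_nonneg_right h6 h3
    linarith
  · intro φ hφ s hs
    have h2 := hAI φ hφ 1 h1Z s hs
    unfold N2 at h2
    have h3 : 0 ≤ φ 1 := by
      have := hφ.pos 1
      rwa [star_one, one_mul] at this
    obtain ⟨y, hy⟩ : ∃ y, y = fAct M α s V - V := ⟨_, rfl⟩
    have hys : star y = y := by
      rw [hy, star_sub, ← map_star, hVs]
    rw [← hy, mul_one, star_one, one_mul, hys] at h2
    have h4 : fAct M α s ((((1 - e : ℝ)) : ℂ) • V) - (((1 - e : ℝ)) : ℂ) • V =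
        (((1 - e : ℝ)) : ℂ) • y := by
      rw [map_smul, hy, smul_sub]
    have h5 : 0 ≤ φ (y * y) := by
      have := hφ.pos y
      rwa [hys] at this
    rw [h4, smul_mul_smul_comm, mul_smul, hsm, hsm, ← mul_assoc]
    calc (1 - e) * (1 - e) * φ (y * y) ≤ 1 * φ (y * y) := by gcongr
      _ ≤ e * φ 1 := by rw [one_mul]; exact h2
      _ ≤ ε' * φ 1 := by gcongr; linarith

end

end Vale.Agent.P095
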