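import Vale.Agent.P095.Desc
import Vale.Agent.P101K.Wit

open scoped ENNReal Topology
open Filter

namespace Vale.Agent.P095

open Vale.Agent.P101K

universe u v w

/-- FIX.  The fixed point algebras have commuting copies. -/
theorem hasCopies_fix {D : Type u} [CStarAlgebra D] [Nontrivial D] {G : Type v}
    (α : G → (D →⋆ₐ[ℂ] D)) (hE : EqCopies α) (K : Set G) : HasCopies (fixAlg α K) := by
  intro X hX
  obtain ⟨C, hC, hXC, θ, hθc, -, hθe⟩ := hE ((fun x : fixAlg α K => (x : D)) '' X) (hX.image _)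
  have hle : StarAlgebra.adjoin ℂ X ≤ C.comap (fixAlg α K).subtype :=
    StarAlgebra.adjoin_le fun z hz => hXC ⟨z, hz, rfl⟩
  have hmem : ∀ s : StarAlgebra.adjoin ℂ X, ((s : fixAlg α K) : D) ∈ C := fun s => hle s.2
  let ι : StarAlgebra.adjoin ℂ X →⋆ₐ[ℂ] C :=
    ((fixAlg α K).subtype.comp (StarAlgebra.adjoin ℂ X).subtype).codRestrict C hmem
  have hι : ∀ s, ((ι s : C) : D) = ((s : fixAlg α K) : D) := fun s => rfl
  have hfix : ∀ i s, θ i (ι s) ∈ fixAlg α K := by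
    intro i s h hh
    rw [hθe]
    congr 1
    apply Subtype.ext
    show α h (ι s : D) = (ι s : D)
    rw [hι]
    exact (s : fixAlg α K).2 h hh
  refine ⟨fun i => ((θ i).comp ι).codRestrict (fixAlg α K) (hfix i), fun i j hij s t => ?_⟩
  apply Subtype.ext
  exact hθc i j hij (ι s) (ι t)

section StepAux

variable {D : Type u} [CStarAlgebra D] {G : Type v} [Group G]
  {α : G → (D →⋆ₐ[ℂ] D)} {K : Subgroup G}

/-- the image in `G` of a subgroup of `K` -/
private def stepS (N : Subgroup K) : Set G := {g | ∃ n : K, n ∈ N ∧ (n : G) = g}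

private theorem step_inv (hα : IsAct α) (N : Subgroup K) [N.Normal] (k : K) {x : D}
    (hx : x ∈ fixAlg α (stepS N)) : α (k : G) x ∈ fixAlg α (stepS N) := by
  rintro _ ⟨n, hn, rfl⟩
  have h1 : k⁻¹ * n * k ∈ N := by
    have := Subgroup.Normal.conj_mem (inferInstanceAs N.Normal) n hn k⁻¹
    rwa [inv_inv] at this
  have h2 := hx ((k⁻¹ * n * k : K) : G) ⟨_, h1, rfl⟩
  rw [← hα.mul]
  have h3 : (n : G) * (k : G) = (k : G) * ((k⁻¹ * n * k : K) : G) := by
    push_cast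
    group
  rw [h3, hα.mul, h2]

private noncomputable def stepAct (hα : IsAct α) (N : Subgroup K) [N.Normal] (q : K ⧸ N) :
    fixAlg α (stepS N) →⋆ₐ[ℂ] fixAlg α (stepS N) :=
  ((α ((Quotient.out q : K) : G)).comp (fixAlg α (stepS N)).subtype).codRestrict
    (fixAlg α (stepS N)) (fun x => step_inv hα N _ x.2)

private theorem stepAct_mk (hα : IsAct α) (N : Subgroup K) [N.Normal] (k : K)
    (x : fixAlg α (stepS N)) :
    ((stepAct hα N (k : K ⧸ N) x : fixAlg α (stepS N)) : D) = α (k : G) x := by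
  obtain ⟨n, hn⟩ := QuotientGroup.mk_out_eq_mul N k
  show α ((Quotient.out (k : K ⧸ N) : K) : G) x = α (k : G) x
  have h1 : ((Quotient.out (k : K ⧸ N) : K) : G) = (k : G) * ((n : K) : G) := by
    rw [hn]
    rfl
  rw [h1, hα.mul, x.2 _ ⟨n, n.2, rfl⟩]

private theorem stepAct_isAct (hα : IsAct α) (N : Subgroup K) [N.Normal] :
    IsAct (stepAct hα N) := by
  refine ⟨fun x => Subtype.ext ?_, fun g h x => Subtype.ext ?_⟩
  · have h1 := stepAct_mk hα N 1 x
    rw [QuotientGroup.mk_one] at h1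
    rw [h1]
    exact hα.one _
  · obtain ⟨k, rfl⟩ := QuotientGroup.mk_surjective g
    obtain ⟨l, rfl⟩ := QuotientGroup.mk_surjective h
    rw [← QuotientGroup.mk_mul, stepAct_mk, stepAct_mk, stepAct_mk]
    exact hα.mul _ _ _

/-- the algebra `C ∩ D^N` -/
private def stepB (α : G → (D →⋆ₐ[ℂ] D)) (N : Subgroup K) (C : StarSubalgebra ℂ D) :
    StarSubalgebra ℂ D := C ⊓ fixAlg α (stepS N)

private noncomputable def stepBeta (hα : IsAct α) (N : Subgroup K) [N.Normal]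
    (C : StarSubalgebra ℂ D) (hC : ∀ g, ∀ x ∈ C, α g x ∈ C) (q : K ⧸ N) :
    stepB α N C →⋆ₐ[ℂ] stepB α N C :=
  ((α ((Quotient.out q : K) : G)).comp (stepB α N C).subtype).codRestrict (stepB α N C)
    (fun x => ⟨hC _ _ x.2.1, step_inv hα N _ x.2.2⟩)

private theorem stepBeta_mk (hα : IsAct α) (N : Subgroup K) [N.Normal]
    (C : StarSubalgebra ℂ D) (hC : ∀ g, ∀ x ∈ C, α g x ∈ C) (k : K) (x : stepB α N C) :
    ((stepBeta hα N C hC (k : K ⧸ N) x : stepB α N C) : D) = α (k : G) x := by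
  obtain ⟨n, hn⟩ := QuotientGroup.mk_out_eq_mul N k
  show α ((Quotient.out (k : K ⧸ N) : K) : G) x = α (k : G) x
  have h1 : ((Quotient.out (k : K ⧸ N) : K) : G) = (k : G) * ((n : K) : G) := by
    rw [hn]
    rfl
  rw [h1, hα.mul, x.2.2 _ ⟨n, n.2, rfl⟩]

private theorem stepBeta_isAct (hα : IsAct α) (N : Subgroup K) [N.Normal]
    (C : StarSubalgebra ℂ D) (hC : ∀ g, ∀ x ∈ C, α g x ∈ C) :
    IsAct (stepBeta hα N C hC) := by
  refine ⟨fun x => Subtype.ext ?_, fun g h x => Subtype.ext ?_⟩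
  · have h1 := stepBeta_mk hα N C hC 1 x
    rw [QuotientGroup.mk_one] at h1
    rw [h1]
    exact hα.one _
  · obtain ⟨k, rfl⟩ := QuotientGroup.mk_surjective g
    obtain ⟨l, rfl⟩ := QuotientGroup.mk_surjective h
    rw [← QuotientGroup.mk_mul, stepBeta_mk, stepBeta_mk, stepBeta_mk]
    exact hα.mul _ _ _

private noncomputable def stepIncl (α : G → (D →⋆ₐ[ℂ] D)) (N : Subgroup K)
    (C : StarSubalgebra ℂ D) : stepB α N C →⋆ₐ[ℂ] C :=
  (stepB α N C).subtype.codRestrict C (fun x => x.2.1)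

private theorem step_theta_mem (N : Subgroup K) (C : StarSubalgebra ℂ D)
    (hC : ∀ g, ∀ x ∈ C, α g x ∈ C) (θ : C →⋆ₐ[ℂ] D)
    (hθ : ∀ g (s : C), α g (θ s) = θ ⟨α g s, hC g s s.2⟩) (x : stepB α N C) :
    θ (stepIncl α N C x) ∈ fixAlg α (stepS N) := by
  intro g hg
  rw [hθ]
  congr 1
  apply Subtype.ext
  exact x.2.2 g hg

private noncomputable def stepTheta (N : Subgroup K) (C : StarSubalgebra ℂ D)
    (hC : ∀ g, ∀ x ∈ C, α g x ∈ C) (θ : C →⋆ₐ[ℂ] D)
    (hθ : ∀ g (s : C), α g (θ s) = θ ⟨α g s, hC g s s.2⟩) :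
    stepB α N C →⋆ₐ[ℂ] fixAlg α (stepS N) :=
  (θ.comp (stepIncl α N C)).codRestrict (fixAlg α (stepS N)) (step_theta_mem N C hC θ hθ)

private theorem stepTheta_coe (N : Subgroup K) (C : StarSubalgebra ℂ D)
    (hC : ∀ g, ∀ x ∈ C, α g x ∈ C) (θ : C →⋆ₐ[ℂ] D)
    (hθ : ∀ g (s : C), α g (θ s) = θ ⟨α g s, hC g s s.2⟩) (x : stepB α N C) :
    ((stepTheta N C hC θ hθ x : fixAlg α (stepS N)) : D) = θ ⟨x, x.2.1⟩ := rfl

private theorem step_equi (hα : IsAct α) (N : Subgroup K) [N.Normal] (C : StarSubalgebra ℂ D)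
    (hC : ∀ g, ∀ x ∈ C, α g x ∈ C) (θ : C →⋆ₐ[ℂ] D)
    (hθ : ∀ g (s : C), α g (θ s) = θ ⟨α g s, hC g s s.2⟩) (q : K ⧸ N) (x : stepB α N C) :
    stepAct hα N q (stepTheta N C hC θ hθ x) =
      stepTheta N C hC θ hθ (stepBeta hα N C hC q x) := by
  obtain ⟨k, rfl⟩ := QuotientGroup.mk_surjective q
  apply Subtype.ext
  rw [stepAct_mk, stepTheta_coe, stepTheta_coe, hθ]
  congr 1
  apply Subtype.ext
  exact (stepBeta_mk hα N C hC k x).symm

private noncomputable def stepFix (hα : IsAct α) (N : Subgroup K) [N.Normal] :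
    fixAlg (stepAct hα N) Set.univ →⋆ₐ[ℂ] fixAlg α (K : Set G) :=
  ((fixAlg α (stepS N)).subtype.comp (fixAlg (stepAct hα N) Set.univ).subtype).codRestrict
    (fixAlg α (K : Set G)) (fun x => by
      intro k hk
      have h1 := x.2 ((⟨k, hk⟩ : K) : K ⧸ N) trivial
      have h2 := congrArg Subtype.val h1
      rw [stepAct_mk] at h2
      exact h2)

end StepAux

/-- STEP.  `H ≤ K` of finite index: if the fixed point algebra of `H` has no characters then neither
has the fixed point algebra of `K`.  Let `N` be the normal core of `H.subgroupOf K`, `Q = K ⧸ N`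
acting on `fixAlg α N`, `exists_witness` for `fixAlg α N`, `EqCopies`, `descent`. -/
theorem fin_step {D : Type u} [CStarAlgebra D] [Nontrivial D] {G : Type v} [Group G]
    {α : G → (D →⋆ₐ[ℂ] D)} (hα : IsAct α) (hE : EqCopies α) (H K : Subgroup G) (hHK : H ≤ K)
    (hidx : H.relIndex K ≠ 0) (h : IsEmpty (fixAlg α (H : Set G) →⋆ₐ[ℂ] ℂ)) :
    IsEmpty (fixAlg α (K : Set G) →⋆ₐ[ℂ] ℂ) := by
  classical
  refine ⟨fun χ => ?_⟩
  obtain ⟨n, p, x, p', hx, hsum⟩ := exists_witness (D := fixAlg α (H : Set G)) h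
  choose c d _hc hcd using hx
  have hfi : (H.subgroupOf K).FiniteIndex := ⟨hidx⟩
  let N : Subgroup K := (H.subgroupOf K).normalCore
  have hNfi : N.FiniteIndex := inferInstanceAs (H.subgroupOf K).normalCore.FiniteIndex
  have hNn : N.Normal := inferInstanceAs (H.subgroupOf K).normalCore.Normal
  letI : Fintype (K ⧸ N) := N.fintypeQuotientOfFiniteIndex
  have hNH : ∀ z : fixAlg α (H : Set G), (z : D) ∈ fixAlg α (stepS N) := by
    rintro z _ ⟨m, hm, rfl⟩
    exact z.2 _ (Subgroup.mem_subgroupOf.1 (Subgroup.normalCore_le _ hm))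
  let X : Set D := (Set.range fun l => (p l : D)) ∪ (Set.range fun l => (c l : D)) ∪
    (Set.range fun l => (d l : D)) ∪ (Set.range fun l => (p' l : D))
  have hX : X.Countable := (((Set.countable_range _).union (Set.countable_range _)).union
    (Set.countable_range _)).union (Set.countable_range _)
  obtain ⟨C, hC, hXC, θ, hθc, hθb, hθe⟩ := hE X hX
  have hp : ∀ l, (p l : D) ∈ stepB α N C :=
    fun l => ⟨hXC (Or.inl (Or.inl (Or.inl ⟨l, rfl⟩))), hNH _⟩
  have hc : ∀ l, (c l : D) ∈ stepB α N C :=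
    fun l => ⟨hXC (Or.inl (Or.inl (Or.inr ⟨l, rfl⟩))), hNH _⟩
  have hd : ∀ l, (d l : D) ∈ stepB α N C :=
    fun l => ⟨hXC (Or.inl (Or.inr ⟨l, rfl⟩)), hNH _⟩
  have hp' : ∀ l, (p' l : D) ∈ stepB α N C :=
    fun l => ⟨hXC (Or.inr ⟨l, rfl⟩), hNH _⟩
  have key := descent (α := stepAct hα N) (stepAct_isAct hα N) (β := stepBeta hα N C hC)
    (stepBeta_isAct hα N C hC) (fun i => stepTheta N C hC (θ i) (fun g s => hθe i g s))
    (fun i j hij s t => Subtype.ext (hθc i j hij _ _))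
    (fun b => by
      obtain ⟨M, hM⟩ := hθb ⟨b, b.2.1⟩
      exact ⟨M, fun i => hM i⟩)
    (fun i q b => step_equi hα N C hC (θ i) (fun g s => hθe i g s) q b)
    (fun l => (⟨p l, hp l⟩ : stepB α N C)) (fun l => ⟨c l, hc l⟩) (fun l => ⟨d l, hd l⟩)
    (fun l => ⟨p' l, hp' l⟩) (by
      apply Subtype.ext
      have h1 := congrArg (fixAlg α (H : Set G)).subtype hsum
      rw [map_sum, map_one] at h1
      have h2 : (stepB α N C).subtype (∑ l, (⟨p l, hp l⟩ : stepB α N C) *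
          ((⟨c l, hc l⟩ : stepB α N C) * ⟨d l, hd l⟩ - ⟨d l, hd l⟩ * ⟨c l, hc l⟩) *
          ⟨p' l, hp' l⟩) = 1 := by
        rw [map_sum, ← h1]
        refine Finset.sum_congr rfl fun l _ => ?_
        rw [hcd l]
        rfl
      exact h2)
  exact key.false (χ.comp (stepFix hα N))

end Vale.Agent.P095
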