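import Vale.Agent.P095.GN4
import Vale.Agent.P095G.FinalAm

open scoped ENNReal Topology
open Filter

namespace Vale.Agent.P095

open Vale.Agent.P095G Vale.Agent.P101K

universe u v

theorem pol4 (P Q R S : ℂ) (δ : ℝ) (h0 : ‖P + Q + R + S‖ < δ) (h2 : ‖P - Q - R + S‖ < δ)
    (h1 : ‖P + Complex.I * Q - Complex.I * R + S‖ < δ)
    (h3 : ‖P - Complex.I * Q + Complex.I * R + S‖ < δ) : ‖R‖ < δ := by
  have e : 4 * R = (P + Q + R + S) - (P - Q - R + S) +
      (Complex.I * (P + Complex.I * Q - Complex.I * R + S) -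
        Complex.I * (P - Complex.I * Q + Complex.I * R + S)) := by
    linear_combination (2 * R - 2 * Q) * Complex.I_mul_I
  have h4 : ‖4 * R‖ < 4 * δ := by
    rw [e]
    refine (norm_add_le _ _).trans_lt ?_
    have i1 := norm_sub_le (P + Q + R + S) (P - Q - R + S)
    have i2 := norm_sub_le (Complex.I * (P + Complex.I * Q - Complex.I * R + S))
      (Complex.I * (P - Complex.I * Q + Complex.I * R + S))
    rw [norm_mul, norm_mul, Complex.norm_I, one_mul, one_mul] at i2
    linarith
  rw [norm_mul] at h4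
  have : ‖(4 : ℂ)‖ = 4 := by norm_num
  rw [this] at h4
  linarith

theorem pol_gen {A : Type u} [NonUnitalCStarAlgebra A] (f : A → A → ℂ)
    (h1 : ∀ p p' q, f (p + p') q = f p q + f p' q) (h2 : ∀ p q q', f p (q + q') = f p q + f p q')
    (h3 : ∀ (i : ℂ) p q, f (i • p) q = star i * f p q)
    (h4 : ∀ (i : ℂ) p q, f p (i • q) = i * f p q) (b c : A) (δ : ℝ)
    (k0 : ‖f (b + (1 : ℂ) • c) (b + (1 : ℂ) • c)‖ < δ)
    (k2 : ‖f (b + (-1 : ℂ) • c) (b + (-1 : ℂ) • c)‖ < δ)
    (k1 : ‖f (b + Complex.I • c) (b + Complex.I • c)‖ < δ)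
    (k3 : ‖f (b + (-Complex.I) • c) (b + (-Complex.I) • c)‖ < δ) : ‖f c b‖ < δ := by
  have key : ∀ i : ℂ, f (b + i • c) (b + i • c) =
      f b b + i * f b c + star i * f c b + star i * i * f c c := by
    intro i
    rw [h1, h2, h2, h3, h3, h4, h4]
    ring
  rw [key] at k0 k1 k2 k3
  have s1 : star (1 : ℂ) = 1 := star_one _
  have s2 : star (-1 : ℂ) = -1 := by rw [star_neg, star_one]
  have s3 : star Complex.I = -Complex.I := Complex.conj_I
  have s4 : star (-Complex.I) = Complex.I := by rw [star_neg, s3, neg_neg]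
  rw [s1] at k0
  rw [s2] at k2
  rw [s3] at k1
  rw [s4] at k3
  refine pol4 (f b b) (f b c) (f c b) (f c c) δ ?_ ?_ ?_ ?_
  · convert k0 using 2
    ring
  · convert k2 using 2
    ring
  · convert k1 using 2
    linear_combination (f c c) * Complex.I_mul_I
  · convert k3 using 2
    linear_combination (f c c) * Complex.I_mul_I

section

variable {A : Type u} [NonUnitalCStarAlgebra A] [TopologicalSpace.SeparableSpace A]
  {ω : Ultrafilter ℕ} {F : Type u} [CStarAlgebra F]

theorem gn_gamma [Nontrivial A] (hω : (ω : Filter ℕ) ≤ atTop) (M : FMod A ω F) {G : Type v}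
    [Group G] [Countable G] (hP : PropP.{u, v} G) (α : G →* (A ≃⋆ₐ[ℂ] A)) (h : EqZ A ω α ⊥) :
    EqGammaN α := by
  classical
  intro E K ε hε
  have hex : ∀ a : A, ∃ e : A, ‖a - e * a‖ < ε / 8 := by
    intro a
    obtain ⟨e, -, -, hea⟩ := exists_apu A
    obtain ⟨n, hn⟩ := ((hea a).eventually (gt_mem_nhds (by positivity : 0 < ε / 8))).exists
    exact ⟨e n, by rwa [norm_sub_rev]⟩
  choose e he using hex
  let T : Finset ℂ := {1, -1, Complex.I, -Complex.I}
  let B : Finset A := E.biUnion fun a => T.image fun i => e a + i • star a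
  have hB : ∀ a ∈ E, ∀ i ∈ T, e a + i • star a ∈ B := fun a ha i hi =>
    Finset.mem_biUnion.2 ⟨a, ha, Finset.mem_image_of_mem _ hi⟩
  have t0 : (1 : ℂ) ∈ T := by simp [T]
  have t1 : (-1 : ℂ) ∈ T := by simp [T]
  have t2 : Complex.I ∈ T := by simp [T]
  have t3 : -Complex.I ∈ T := by simp [T]
  obtain ⟨v, hv, hv1, hvc, hvτ⟩ := gn_diag hω M hP α h B E K (ε / 8) (by positivity)
  refine ⟨v, hv, hv1, fun a ha => (hvc a ha).trans (by linarith), fun τ hτ a ha => ?_⟩
  have hvv : ‖v * v‖ ≤ 1 := (norm_mul_le _ _).trans (by nlinarith [norm_nonneg v])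
  -- the three sesquilinear forms
  have key : ∀ x : A, (∀ b ∈ B, ‖τ (star b * x * b)‖ < ε / 8) → ‖τ (e a * a * x)‖ < ε / 8 := by
    intro x hx
    have h5 := pol_gen (fun p q => τ (star p * x * q))
      (fun p p' q => by simp only [star_add, add_mul, map_add])
      (fun p q q' => by simp only [mul_add, map_add])
      (fun i p q => by simp only [star_smul, smul_mul_assoc, map_smul, smul_eq_mul])
      (fun i p q => by simp only [mul_smul_comm, map_smul, smul_eq_mul])
      (e a) (star a) (ε / 8) (hx _ (hB a ha _ t0)) (hx _ (hB a ha _ t1)) (hx _ (hB a ha _ t2))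
      (hx _ (hB a ha _ t3))
    simp only [star_star] at h5
    rwa [hτ.comm, ← mul_assoc] at h5
  have err : ∀ x : A, ‖τ (a * x)‖ ≤ ε / 8 * ‖x‖ + ‖τ (e a * a * x)‖ := by
    intro x
    have e1 : a * x = (a - e a * a) * x + e a * a * x := by rw [sub_mul, sub_add_cancel]
    rw [e1, map_add]
    refine (norm_add_le _ _).trans (add_le_add ?_ le_rfl)
    refine (hτ.norm _).trans ((norm_mul_le _ _).trans ?_)
    exact mul_le_mul_of_nonneg_right (he a).le (norm_nonneg _)
  refine ⟨?_, ?_, fun g hg => ?_⟩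
  · have h5 := key v fun b hb => (hvτ τ hτ b hb).1
    have h6 := err v
    nlinarith [norm_nonneg v]
  · have h5 := pol_gen (fun p q => τ (star p * q - star p * (v * v) * q))
      (fun p p' q => by simp only [star_add, add_mul, map_add, map_sub]; ring)
      (fun p q q' => by simp only [mul_add, map_add, map_sub]; ring)
      (fun i p q => by simp only [star_smul, smul_mul_assoc, map_smul, smul_eq_mul, map_sub]; ring)
      (fun i p q => by simp only [mul_smul_comm, map_smul, smul_eq_mul, map_sub]; ring)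
      (e a) (star a) (ε / 8) (hvτ τ hτ _ (hB a ha _ t0)).2.1 (hvτ τ hτ _ (hB a ha _ t1)).2.1
      (hvτ τ hτ _ (hB a ha _ t2)).2.1 (hvτ τ hτ _ (hB a ha _ t3)).2.1
    simp only [star_star, map_sub] at h5
    rw [hτ.comm a, hτ.comm (a * (v * v)), ← mul_assoc (e a), ← map_sub] at h5
    have e1 : a - a * (v * v) = (a - e a * a) - (a - e a * a) * (v * v) +
        (e a * a - e a * a * (v * v)) := by noncomm_ring
    rw [e1, map_add]
    refine (norm_add_le _ _).trans_lt ?_
    have h6 : ‖τ ((a - e a * a) - (a - e a * a) * (v * v))‖ ≤ ε / 8 + ε / 8 := by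
      refine (hτ.norm _).trans ((norm_sub_le _ _).trans (add_le_add (he a).le ?_))
      refine (norm_mul_le _ _).trans ?_
      have := (he a).le
      nlinarith [norm_nonneg (v * v), norm_nonneg (a - e a * a)]
    linarith
  · have h5 := key ((α g v - v) * (α g v - v)) fun b hb => (hvτ τ hτ b hb).2.2 g hg
    have h6 := err ((α g v - v) * (α g v - v))
    have h7 : ‖(α g v - v) * (α g v - v)‖ ≤ 4 := by
      have h8 : ‖α g v - v‖ ≤ 2 := by
        refine (norm_sub_le _ _).trans ?_
        have := NonUnitalStarAlgHom.norm_apply_le (α g) v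
        linarith
      refine (norm_mul_le _ _).trans ?_
      nlinarith [norm_nonneg (α g v - v)]
    nlinarith

/-- property Gamma for all actions of amenable groups, `A` unital or not -/
theorem gn_main [Nontrivial A] (hω : (ω : Filter ℕ) ≤ atTop) {G : Type v}
    [Group G] [Countable G] (hG : Folner G) (α : G →* (A ≃⋆ₐ[ℂ] A)) (h : EqZ A ω α ⊥) :
    EqGammaN α := by
  obtain ⟨F, _, ⟨M⟩⟩ := exists_fmod A ω
  exact gn_gamma hω M (propP_folner G hG) α h

end

end Vale.Agent.P095
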