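import Vale.Agent.P095.GWDefs
import Vale.Agent.P095.GN3

open scoped ENNReal Topology
open Filter

namespace Vale.Agent.P095

open Vale.Agent.P095G Vale.Agent.P101K

universe u v

section

variable {A : Type u} [NonUnitalCStarAlgebra A] {ω : Ultrafilter ℕ}

theorem wt_herm {N : Submodule ℂ A} {τ : A →ₗ[ℂ] ℂ} (h : WTrace N τ) (c d : A) (hcN : c ∈ N)
    (hdN : d ∈ N) : τ (star c * d) = star (τ (star d * c)) := by
  have h1 := (h.pos (c + d) (N.add_mem hcN hdN)).2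
  have h2 := (h.pos (c + Complex.I • d) (N.add_mem hcN (N.smul_mem _ hdN))).2
  have hc := (h.pos c hcN).2
  have hd := (h.pos d hdN).2
  have e1 : star (c + d) * (c + d) = star c * c + star c * d + (star d * c + star d * d) := by
    rw [star_add, add_mul, mul_add, mul_add]
  have e2 : star (c + Complex.I • d) * (c + Complex.I • d) =
      star c * c + Complex.I • (star c * d) + (-(Complex.I • (star d * c)) + star d * d) := by
    have : star Complex.I = -Complex.I := Complex.conj_I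
    rw [star_add, star_smul, add_mul, mul_add, mul_add, mul_smul_comm, smul_mul_assoc,
      smul_mul_assoc, mul_smul_comm, smul_smul, this, neg_smul, neg_mul, Complex.I_mul_I, neg_neg,
      one_smul]
  rw [e1] at h1
  rw [e2] at h2
  simp only [map_add, map_neg, map_smul, smul_eq_mul, Complex.add_im, Complex.neg_im,
    Complex.mul_im, Complex.I_re, Complex.I_im, zero_mul, one_mul, zero_add] at h1 h2
  apply Complex.ext
  · show _ = (τ (star d * c)).re
    linarith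
  · show _ = -(τ (star d * c)).im
    linarith

/-- Cauchy-Schwarz -/
theorem wt_two {N : Submodule ℂ A} {τ : A →ₗ[ℂ] ℂ} (h : WTrace N τ) {p q : A} (hp : p ∈ N)
    (hq : q ∈ N) {t : ℝ} (ht : 0 ≤ t) (h1 : (τ (star p * p)).re ≤ t ^ 2)
    (h2 : (τ (star q * q)).re ≤ 1) : ‖τ (star q * p)‖ ≤ t := by
  by_contra hcon
  push Not at hcon
  obtain ⟨s, hs⟩ : ∃ s : ℂ, s = τ (star q * p) := ⟨_, rfl⟩
  rw [← hs] at hcon
  have hs0 : 0 < ‖s‖ := lt_of_le_of_lt ht hcon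
  -- the vector `r q - u p`, `r = |s|`, `u = conj s / |s|`, scaled by `|s|`
  obtain ⟨w, hw⟩ : ∃ w : A, w = ((‖s‖ ^ 2 : ℝ) : ℂ) • q - star s • p := ⟨_, rfl⟩
  have hwN : w ∈ N := by
    rw [hw]
    exact N.sub_mem (N.smul_mem _ hq) (N.smul_mem _ hp)
  have h3 := (h.pos w hwN).1
  have hr : star (((‖s‖ ^ 2 : ℝ) : ℂ)) = ((‖s‖ ^ 2 : ℝ) : ℂ) := Complex.conj_ofReal _
  have e : star w * w = ((‖s‖ ^ 2 : ℝ) : ℂ) • ((‖s‖ ^ 2 : ℝ) : ℂ) • (star q * q) -
      ((‖s‖ ^ 2 : ℝ) : ℂ) • star s • (star q * p) - s • ((‖s‖ ^ 2 : ℝ) : ℂ) • (star p * q) +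
      s • star s • (star p * p) := by
    rw [hw, star_sub, star_smul, star_smul, star_star, hr, sub_mul, mul_sub, mul_sub]
    simp only [smul_mul_assoc, mul_smul_comm]
    module
  have hpq : τ (star p * q) = star s := by rw [hs]; exact wt_herm h p q hp hq
  have hss : s * star s = ((‖s‖ ^ 2 : ℝ) : ℂ) := by
    have := Complex.mul_conj s
    rw [Complex.normSq_eq_norm_sq] at this
    exact this
  have hss' : star s * s = ((‖s‖ ^ 2 : ℝ) : ℂ) := by rw [mul_comm]; exact hss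
  rw [e] at h3
  simp only [map_add, map_sub, map_smul, smul_eq_mul] at h3
  rw [hpq, ← hs, hss'] at h3
  have e2 : s * (((‖s‖ ^ 2 : ℝ) : ℂ) * star s) = ((‖s‖ ^ 2 * ‖s‖ ^ 2 : ℝ) : ℂ) := by
    rw [mul_left_comm, hss]
    push_cast
    ring
  have e3 : s * (star s * τ (star p * p)) = ((‖s‖ ^ 2 : ℝ) : ℂ) * τ (star p * p) := by
    rw [← mul_assoc, hss]
  rw [e2, e3] at h3
  simp only [Complex.add_re, Complex.sub_re, Complex.re_ofReal_mul, Complex.ofReal_re] at h3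
  have h5 : ‖s‖ ^ 2 * (‖s‖ ^ 2 * (τ (star q * q)).re) ≤ ‖s‖ ^ 2 * (‖s‖ ^ 2 * 1) := by gcongr
  have h6 : ‖s‖ ^ 2 * (τ (star p * p)).re ≤ ‖s‖ ^ 2 * t ^ 2 := by gcongr
  have h7 : 0 < ‖s‖ ^ 2 := by positivity
  have h8 : t ^ 2 < ‖s‖ ^ 2 := by nlinarith
  nlinarith

theorem wt_mono {N : Submodule ℂ A} {τ : A →ₗ[ℂ] ℂ} (h : WTrace N τ) {b : A} (hb : b ∈ N)
    (y : A) : (τ (star (y * b) * (y * b))).re ≤ ‖y‖ ^ 2 * (τ (star b * b)).re := by
  letI : PartialOrder (UA A) := CStarAlgebra.spectralOrder (UA A)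
  haveI : StarOrderedRing (UA A) := CStarAlgebra.spectralOrderedRing (UA A)
  have h1 : star (y : UA A) * (y : UA A) ≤ algebraMap ℝ (UA A) (‖(y : UA A)‖ ^ 2) :=
    CStarAlgebra.star_mul_le_algebraMap_norm_sq
  obtain ⟨W, hW⟩ := CStarAlgebra.nonneg_iff_eq_star_mul_self.1 (sub_nonneg.2 h1)
  rw [Unitization.norm_inr] at hW
  obtain ⟨d, hd⟩ : ∃ d : A, d = W.fst • b + W.snd * b := ⟨_, rfl⟩
  have hdW : (d : UA A) = W * (b : UA A) := by
    rw [hd]
    induction W using Unitization.ind with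
    | inl_add_inr r a =>
      rw [add_mul, ← Unitization.inr_mul, Unitization.inl_mul_inr]
      simp
  have hdN : d ∈ N := by
    rw [hd]
    exact N.add_mem (N.smul_mem _ hb) (h.left _ _ hb)
  have e : star d * d = ((‖y‖ ^ 2 : ℝ) : ℂ) • (star b * b) - star (y * b) * (y * b) := by
    apply Unitization.inr_injective (R := ℂ)
    rw [Unitization.inr_mul, Unitization.inr_star, hdW, star_mul]
    have e1 : star (b : UA A) * star W * (W * (b : UA A)) =
        star (b : UA A) * (star W * W) * (b : UA A) := by noncomm_ring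
    rw [e1, ← hW, Unitization.inr_sub, Unitization.inr_smul, Unitization.inr_mul,
      Unitization.inr_mul, Unitization.inr_star, Unitization.inr_star, Unitization.inr_mul,
      mul_sub, sub_mul]
    congr 1
    · have e2 : algebraMap ℝ (UA A) (‖y‖ ^ 2) = algebraMap ℂ (UA A) ((‖y‖ ^ 2 : ℝ) : ℂ) := rfl
      rw [e2, ← Algebra.commutes, ← Algebra.smul_def, smul_mul_assoc]
    · rw [star_mul]
      noncomm_ring
  have h2 := (h.pos d hdN).1
  rw [e, map_sub, map_smul, smul_eq_mul, Complex.sub_re, Complex.re_ofReal_mul] at h2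
  linarith

theorem wt_left {N : Submodule ℂ A} {τ : A →ₗ[ℂ] ℂ} (h : WTrace N τ) {b₁ b₂ : A} (h1 : b₁ ∈ N)
    (h2 : b₂ ∈ N) (k1 : (τ (star b₁ * b₁)).re ≤ 1) (k2 : (τ (star b₂ * b₂)).re ≤ 1) (y : A) :
    ‖τ (star (b₁ * b₂) * y)‖ ≤ ‖y‖ := by
  have e : star (b₁ * b₂) * y = star b₂ * (star b₁ * y) := by rw [star_mul, mul_assoc]
  rw [e]
  have hp : star b₁ * y ∈ N := h.right _ _ (h.adj _ h1)
  refine wt_two h hp h2 (norm_nonneg _) ?_ k2
  have h3 := wt_mono h h1 (star y)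
  rw [norm_star] at h3
  have e2 : τ (star (star b₁ * y) * (star b₁ * y)) = τ (star (star y * b₁) * (star y * b₁)) := by
    have e3 : star (star y * b₁) = star b₁ * y := by rw [star_mul, star_star]
    have e4 : star (star b₁ * y) = star y * b₁ := by rw [star_mul, star_star]
    rw [e3, e4]
    exact h.comm _ (h.left _ _ h1) _ hp
  rw [e2]
  refine h3.trans ?_
  calc ‖y‖ ^ 2 * (τ (star b₁ * b₁)).re ≤ ‖y‖ ^ 2 * 1 := by gcongr
    _ = ‖y‖ ^ 2 := mul_one _

theorem wt_right {N : Submodule ℂ A} {τ : A →ₗ[ℂ] ℂ} (h : WTrace N τ) {b₁ b₂ : A} (h1 : b₁ ∈ N)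
    (h2 : b₂ ∈ N) (k1 : (τ (star b₁ * b₁)).re ≤ 1) (k2 : (τ (star b₂ * b₂)).re ≤ 1) (y : A) :
    ‖τ (y * (b₁ * b₂))‖ ≤ ‖y‖ := by
  have e : y * (b₁ * b₂) = star (star (y * b₁)) * b₂ := by rw [star_star, mul_assoc]
  have hyN : y * b₁ ∈ N := h.left _ _ h1
  rw [e, wt_herm h _ _ (h.adj _ hyN) h2, norm_star]
  refine wt_two h (h.adj _ hyN) h2 (norm_nonneg _) ?_ k2
  rw [h.comm _ (h.adj _ (h.adj _ hyN)) _ (h.adj _ hyN), star_star]
  refine (wt_mono h h1 y).trans ?_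
  calc ‖y‖ ^ 2 * (τ (star b₁ * b₁)).re ≤ ‖y‖ ^ 2 * 1 := by gcongr
    _ = ‖y‖ ^ 2 := mul_one _

end

end Vale.Agent.P095
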