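import Vale.Agent.P095.GW1

open scoped ENNReal Topology
open Filter

namespace Vale.Agent.P095

open Vale.Agent.P095G Vale.Agent.P101K

universe u v

section

variable {A : Type u} [NonUnitalCStarAlgebra A] {ω : Ultrafilter ℕ}

/-- the normalization of a trace with respect to `b₁`, `b₂` -/
structure WN (N : Submodule ℂ A) (τ : A →ₗ[ℂ] ℂ) (b₁ b₂ : A) : Prop where
  tr : WTrace N τ
  m1 : b₁ ∈ N
  m2 : b₂ ∈ N
  k1 : (τ (star b₁ * b₁)).re ≤ 1
  k2 : (τ (star b₂ * b₂)).re ≤ 1

theorem WN.left {N : Submodule ℂ A} {τ : A →ₗ[ℂ] ℂ} {b₁ b₂ : A} (h : WN N τ b₁ b₂) (y : A) :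
    ‖τ (star (b₁ * b₂) * y)‖ ≤ ‖y‖ := wt_left h.tr h.m1 h.m2 h.k1 h.k2 y

theorem WN.right {N : Submodule ℂ A} {τ : A →ₗ[ℂ] ℂ} {b₁ b₂ : A} (h : WN N τ b₁ b₂) (y : A) :
    ‖τ (y * (b₁ * b₂))‖ ≤ ‖y‖ := wt_right h.tr h.m1 h.m2 h.k1 h.k2 y

theorem WN.mem {N : Submodule ℂ A} {τ : A →ₗ[ℂ] ℂ} {b₁ b₂ : A} (h : WN N τ b₁ b₂) :
    b₁ * b₂ ∈ N := h.tr.left _ _ h.m2

theorem gw_lim {N : ℕ → Submodule ℂ A} {τ : ℕ → (A →ₗ[ℂ] ℂ)} {b₁ b₂ : A}
    (hτ : ∀ n, WN (N n) (τ n) b₁ b₂) (x : ℕ → A) (hx : ∃ C : ℝ, ∀ n, ‖x n‖ ≤ C) :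
    ∃ l : ℝ, Tendsto (fun n => (τ n (star (b₁ * b₂) * x n * (b₁ * b₂))).re) ω (𝓝 l) := by
  obtain ⟨C, hC⟩ := hx
  have hb : ∀ n, (τ n (star (b₁ * b₂) * x n * (b₁ * b₂))).re ∈
      Set.Icc (-(C * ‖b₁ * b₂‖)) (C * ‖b₁ * b₂‖) := by
    intro n
    refine abs_le.1 ((Complex.abs_re_le_norm _).trans ?_)
    rw [mul_assoc]
    refine ((hτ n).left _).trans ((norm_mul_le _ _).trans ?_)
    exact mul_le_mul_of_nonneg_right (hC n) (norm_nonneg _)
  obtain ⟨l, -, hl⟩ := (isCompact_Icc (a := -(C * ‖b₁ * b₂‖))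
    (b := C * ‖b₁ * b₂‖)).ultrafilter_le_nhds
    (ω.map fun n => (τ n (star (b₁ * b₂) * x n * (b₁ * b₂))).re) (by
      rw [le_principal_iff]
      exact Ultrafilter.mem_map.2 (Filter.Eventually.of_forall hb))
  exact ⟨l, hl⟩

variable [TopologicalSpace.SeparableSpace A] {F : Type u} [CStarAlgebra F]

theorem gw_limit_trace (hω : (ω : Filter ℕ) ≤ atTop) (M : FMod A ω F) {N : ℕ → Submodule ℂ A}
    {τ : ℕ → (A →ₗ[ℂ] ℂ)} {b₁ b₂ : A} (hτ : ∀ n, WN (N n) (τ n) b₁ b₂) :
    ∃ φ : F →ₗ[ℝ] ℝ, Tr φ ∧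
      Tendsto (fun n => (τ n (star (b₁ * b₂) * (b₁ * b₂))).re) ω (𝓝 (φ 1)) ∧
      ∀ (x : ℕ → A) (hx : CenS A ω x),
        Tendsto (fun n => (τ n (star (b₁ * b₂) * x n * (b₁ * b₂))).re) ω
          (𝓝 (φ (M.q (csOf x hx)))) := by
  have hlim : ∀ (x : ℕ → A), CenS A ω x → ∃ l : ℝ,
      Tendsto (fun n => (τ n (star (b₁ * b₂) * x n * (b₁ * b₂))).re) ω (𝓝 l) :=
    fun x hx => gw_lim hτ x hx.1
  obtain ⟨b, hbb⟩ : ∃ b : A, b = b₁ * b₂ := ⟨_, rfl⟩
  have hleft : ∀ n (y : A), ‖τ n (star b * y)‖ ≤ ‖y‖ := fun n y => by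
    rw [hbb]
    exact (hτ n).left y
  have hright : ∀ n (y : A), ‖τ n (y * b)‖ ≤ ‖y‖ := fun n y => by
    rw [hbb]
    exact (hτ n).right y
  have hbN : ∀ n, b ∈ N n := fun n => by
    rw [hbb]
    exact (hτ n).mem
  rw [← hbb] at hlim ⊢
  choose! L hL using hlim
  choose s hs hsq using exists_rep hω M
  have huniq : ∀ (x : ℕ → A), CenS A ω x → ∀ l : ℝ,
      Tendsto (fun n => (τ n (star b * x n * b)).re) ω (𝓝 l) → L x = l :=
    fun x hx l hl => tendsto_nhds_unique (hL x hx) hl
  have hwd : ∀ (x y : ℕ → A) (hx : CenS A ω x) (hy : CenS A ω y),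
      M.q (csOf x hx) = M.q (csOf y hy) → L x = L y := by
    intro x y hx hy hxy
    have h1 := (q_csOf_eq M x y hx hy).1 hxy b
    have h2 : Tendsto (fun n => (τ n (star b * x n * b)).re - (τ n (star b * y n * b)).re) ω
        (𝓝 0) := by
      refine squeeze_zero_norm (fun n => ?_) h1
      rw [← Complex.sub_re, ← map_sub, Real.norm_eq_abs]
      refine (Complex.abs_re_le_norm _).trans ?_
      have e : star b * x n * b - star b * y n * b = star b * ((x n - y n) * b) := by noncomm_ring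
      rw [e]
      exact hleft n _
    have h3 := (hL y hy).add h2
    rw [add_zero] at h3
    refine huniq x hx _ (h3.congr fun n => ?_)
    ring
  let φ : F →ₗ[ℝ] ℝ :=
    { toFun := fun a => L (s a)
      map_add' := fun y z => by
        have h1 := (hs y).add (hs z)
        rw [hwd (s (y + z)) _ (hs _) h1 (by rw [csOf_add (hs y) (hs z), map_add, hsq, hsq, hsq])]
        refine huniq _ h1 _ (((hL _ (hs y)).add (hL _ (hs z))).congr fun n => ?_)
        rw [mul_add, add_mul, map_add, Complex.add_re]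
      map_smul' := fun r y => by
        have h1 := (hs y).smul (r : ℂ)
        rw [hwd (s (r • y)) _ (hs _) h1 (by
          rw [csOf_smul _ (hs y), map_smul, hsq, hsq]
          exact (Complex.coe_smul r y).symm)]
        rw [RingHom.id_apply, smul_eq_mul]
        refine huniq _ h1 _ (((hL _ (hs y)).const_mul r).congr fun n => ?_)
        rw [mul_smul_comm, smul_mul_assoc, map_smul, smul_eq_mul, Complex.re_ofReal_mul] }
  have hφ : ∀ (x : ℕ → A) (hx : CenS A ω x), φ (M.q (csOf x hx)) = L x := fun x hx =>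
    hwd _ _ (hs _) hx (hsq _)
  refine ⟨φ, ⟨?_, ?_, ?_⟩, ?_, fun x hx => ?_⟩
  · intro y z
    obtain ⟨x, hx, rfl⟩ := exists_rep hω M y
    obtain ⟨x', hx', rfl⟩ := exists_rep hω M z
    rw [← map_mul, ← map_mul, ← csOf_mul hx hx' (hx.mul hx'), ← csOf_mul hx' hx (hx'.mul hx),
      hφ, hφ]
    refine huniq _ (hx.mul hx') _ ?_
    obtain ⟨C, hC⟩ := hx.1
    have hC0 : 0 ≤ C := (norm_nonneg _).trans (hC 0)
    have h1 := ((hx'.2 b).const_mul C).add ((hx'.2 (star b)).mul_const C)
    rw [mul_zero, zero_mul, add_zero] at h1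
    have h2 : Tendsto (fun n => (τ n (star b * (x n * x' n) * b)).re -
        (τ n (star b * (x' n * x n) * b)).re) ω (𝓝 0) := by
      refine squeeze_zero_norm (fun n => ?_) h1
      have e : τ n (star b * (x n * x' n) * b) - τ n (star b * (x' n * x n) * b) =
          τ n (star b * (x n * (x' n * b - b * x' n))) +
          τ n ((x' n * star b - star b * x' n) * x n * b) := by
        have hb := hbN n
        have hsb := (hτ n).tr.adj _ hb
        have e1 : τ n (star b * x n * (b * x' n)) = τ n (x' n * star b * (x n * b)) := by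
          have c1 := (hτ n).tr.comm (star b * x n) ((hτ n).tr.right _ _ hsb) (b * x' n)
            ((hτ n).tr.right _ _ hb)
          have c2 := (hτ n).tr.comm (b * x' n) ((hτ n).tr.right _ _ hb) (star b * x n)
            ((hτ n).tr.right _ _ hsb)
          have c3 := (hτ n).tr.comm (x' n * star b) ((hτ n).tr.left _ _ hsb) (x n * b)
            ((hτ n).tr.left _ _ hb)
          have c5 : τ n ((x n * b) * (x' n * star b)) = τ n ((x' n * star b) * (x n * b)) := c3.symm
          have c6 : τ n (star b * (x n * (b * x' n))) = τ n ((x n * (b * x' n)) * star b) :=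
            (hτ n).tr.comm _ hsb _ ((hτ n).tr.left _ _ ((hτ n).tr.right _ _ hb))
          calc τ n (star b * x n * (b * x' n)) = τ n (star b * (x n * (b * x' n))) := by
                rw [mul_assoc]
            _ = τ n ((x n * (b * x' n)) * star b) := c6
            _ = τ n ((x n * b) * (x' n * star b)) := by
                congr 1
                noncomm_ring
            _ = τ n ((x' n * star b) * (x n * b)) := c5
        rw [mul_sub, mul_sub, sub_mul, sub_mul, map_sub, map_sub]
        have e2 : star b * (x n * x' n) * b = star b * (x n * (x' n * b)) := by noncomm_ring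
        have e3 : star b * (x' n * x n) * b = star b * x' n * x n * b := by noncomm_ring
        have e4 : star b * (x n * (b * x' n)) = star b * x n * (b * x' n) := by noncomm_ring
        have e5 : x' n * star b * x n * b = x' n * star b * (x n * b) := by noncomm_ring
        rw [e2, e3, e4, e5, e1]
        ring
      rw [← Complex.sub_re, e, Real.norm_eq_abs]
      refine (Complex.abs_re_le_norm _).trans ((norm_add_le _ _).trans (add_le_add ?_ ?_))
      · refine (hleft n _).trans ((norm_mul_le _ _).trans ?_)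
        exact mul_le_mul_of_nonneg_right (hC n) (norm_nonneg _)
      · refine (hright n _).trans ((norm_mul_le _ _).trans ?_)
        exact mul_le_mul_of_nonneg_left (hC n) (norm_nonneg _)
    have h3 := (hL _ (hx'.mul hx)).add h2
    rw [add_zero] at h3
    refine h3.congr fun n => ?_
    ring
  · intro y
    obtain ⟨x, hx, rfl⟩ := exists_rep hω M y
    rw [← map_star, ← csOf_star hx hx.star, ← map_mul,
      ← csOf_mul hx.star hx (hx.star.mul hx), hφ]
    refine ge_of_tendsto' (hL _ (hx.star.mul hx)) fun n => ?_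
    have e : star b * (star (x n) * x n) * b = star (x n * b) * (x n * b) := by
      rw [star_mul]
      noncomm_ring
    rw [e]
    exact ((hτ n).tr.pos _ ((hτ n).tr.left _ _ (hbN n))).1
  · intro y
    obtain ⟨x, hx, rfl⟩ := exists_rep hω M y
    rw [← map_star, ← csOf_star hx hx.star, hφ, hφ]
    refine huniq _ hx.star _ ((hL x hx).congr fun n => ?_)
    have e : star b * star (x n) * b = star (x n * b) * b := by rw [star_mul]
    have e2 : star b * x n * b = star b * (x n * b) := by rw [mul_assoc]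
    rw [e, e2, wt_herm (hτ n).tr b (x n * b) (hbN n) ((hτ n).tr.left _ _ (hbN n))]
    rfl
  · obtain ⟨e, he, he1⟩ := exists_rep hω M 1
    have h1 := (q_csOf_one M e he).1 he1 b
    have h2 := hL e he
    rw [← hφ e he, he1] at h2
    have h3 : Tendsto (fun n => (τ n (star b * b)).re - (τ n (star b * e n * b)).re) ω (𝓝 0) := by
      refine squeeze_zero_norm (fun n => ?_) h1
      rw [← Complex.sub_re, ← map_sub, Real.norm_eq_abs]
      refine (Complex.abs_re_le_norm _).trans ?_
      have e5 : star b * b - star b * e n * b = star b * (b - e n * b) := by noncomm_ring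
      rw [e5]
      refine (hleft n _).trans ?_
      rw [norm_sub_rev]
    have h5 := h2.add h3
    rw [add_zero] at h5
    refine h5.congr fun n => ?_
    ring
  · rw [hφ]
    exact hL x hx

end

end Vale.Agent.P095
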