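import Vale.Agent.P095.GW2
import Vale.Agent.P095.GN5

open scoped ENNReal Topology
open Filter

namespace Vale.Agent.P095

open Vale.Agent.P095G Vale.Agent.P101K

universe u v

section

variable {A : Type u} [NonUnitalCStarAlgebra A] {ω : Ultrafilter ℕ}

theorem wt_im {N : Submodule ℂ A} {τ : A →ₗ[ℂ] ℂ} (h : WTrace N τ) {b x : A} (hb : b ∈ N)
    (hx : star x = x) : ‖τ (star b * x * b)‖ = |(τ (star b * x * b)).re| := by
  have h1 := wt_herm h b (x * b) hb (h.left _ _ hb)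
  rw [star_mul, hx, ← mul_assoc] at h1
  have h2 : (τ (star b * x * b)).im = 0 := by
    have := congrArg Complex.im h1
    have h3 : (star (τ (star b * x * b))).im = -(τ (star b * x * b)).im := rfl
    rw [h3] at this
    linarith
  have h4 : τ (star b * x * b) = (((τ (star b * x * b)).re : ℝ) : ℂ) :=
    Complex.ext (by simp) (by simp [h2])
  conv_lhs => rw [h4]
  rw [Complex.norm_real, Real.norm_eq_abs]

/-- the three estimates -/
def GW3three {G : Type v} [Group G] (α : G →* (A ≃⋆ₐ[ℂ] A)) (K : Finset G) (ε : ℝ)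
    (τ : A →ₗ[ℂ] ℂ) (v b : A) : Prop :=
  ‖τ (star b * v * b)‖ < ε ∧ ‖τ (star b * b - star b * (v * v) * b)‖ < ε ∧
    ∀ g ∈ K, ‖τ (star b * ((α g v - v) * (α g v - v)) * b)‖ < ε

theorem wt_zero : WTrace (⊤ : Submodule ℂ A) (0 : A →ₗ[ℂ] ℂ) :=
  ⟨fun _ _ _ => trivial, fun _ _ _ => trivial, fun _ _ => trivial, fun a _ => by simp,
    fun a _ b _ => by simp⟩

theorem wn_zero (b₁ b₂ : A) : WN (⊤ : Submodule ℂ A) (0 : A →ₗ[ℂ] ℂ) b₁ b₂ :=
  ⟨wt_zero, trivial, trivial, by simp, by simp⟩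

variable [TopologicalSpace.SeparableSpace A] {F : Type u} [CStarAlgebra F]

theorem gw_pair (hω : (ω : Filter ℕ) ≤ atTop) (M : FMod A ω F) {G : Type v} [Group G]
    (α : G →* (A ≃⋆ₐ[ℂ] A)) (K : Finset G) (ε ε' : ℝ) (hε : 0 < ε) {b₁ b₂ : A}
    (hE : ε' * ‖b₁ * b₂‖ < ε) (hε' : 0 ≤ ε') (V : F) (hV : star V = V) (hV1 : ‖V‖ < 1)
    (h1 : ∀ φ : F →ₗ[ℝ] ℝ, Tr φ → φ V = 0)
    (h2 : ∀ φ : F →ₗ[ℝ] ℝ, Tr φ → (1 - ε') * φ 1 ≤ φ (V * V))
    (h3 : ∀ φ : F →ₗ[ℝ] ℝ, Tr φ → ∀ s ∈ K,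
      φ ((fAct M α s V - V) * (fAct M α s V - V)) ≤ ε' * φ 1)
    (x : ℕ → A) (hx : CenS A ω x) (hxV : M.q (csOf x hx) = V) (hxs : ∀ n, star (x n) = x n)
    {N : ℕ → Submodule ℂ A} {τ : ℕ → (A →ₗ[ℂ] ℂ)} (hτ : ∀ n, WN (N n) (τ n) b₁ b₂) :
    ∀ᶠ n in (ω : Filter ℕ), GW3three α K ε (τ n) (x n) (b₁ * b₂) := by
  obtain ⟨φ, hφ, hlim1, hlim⟩ := gw_limit_trace hω M hτ
  have hleft : ∀ n (y : A), ‖τ n (star (b₁ * b₂) * y)‖ ≤ ‖y‖ := fun n y => (hτ n).left y
  have hbN : ∀ n, b₁ * b₂ ∈ N n := fun n => (hτ n).mem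
  generalize b₁ * b₂ = b at hlim1 hlim hleft hbN hE ⊢
  have hφ0 : 0 ≤ φ 1 := by
    have := hφ.pos 1
    rwa [star_one, one_mul] at this
  have hφ1 : φ 1 ≤ ‖b‖ :=
    le_of_tendsto' hlim1 fun n => (Complex.re_le_norm _).trans (hleft n b)
  have hδ : ε' * φ 1 < ε := (mul_le_mul_of_nonneg_left hφ1 hε').trans_lt hE
  refine Filter.Eventually.and ?_ (Filter.Eventually.and ?_ ?_)
  · have h4 := (hlim x hx).abs
    rw [hxV, h1 φ hφ, abs_zero] at h4
    filter_upwards [h4.eventually (gt_mem_nhds hε)] with n hn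
    rw [wt_im (hτ n).tr (hbN n) (hxs n)]
    exact hn
  · have h4 := (hlim1.sub (hlim _ (hx.mul hx))).abs
    rw [csOf_mul hx hx, map_mul, hxV] at h4
    have h5 : |φ 1 - φ (V * V)| < ε := by
      have h6 := h2 φ hφ
      have h7 : φ (V * V) ≤ φ 1 := by
        have h8 := n2_mul_le hφ 1 V
        unfold N2 at h8
        rw [mul_one, hV, star_one, one_mul] at h8
        have h9 : ‖V‖ ^ 2 ≤ 1 := pow_le_one₀ (norm_nonneg _) hV1.le
        exact h8.trans (mul_le_of_le_one_left hφ0 h9)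
      rw [abs_of_nonneg (by linarith)]
      linarith
    filter_upwards [h4.eventually (gt_mem_nhds h5)] with n hn
    have e1 : τ n (star b * b - star b * (x n * x n) * b) =
        (((τ n (star b * b)).re - (τ n (star b * (x n * x n) * b)).re : ℝ) : ℂ) := by
      have e2 : star b * (x n * x n) * b = star (x n * b) * (x n * b) := by
        rw [star_mul, hxs n]
        noncomm_ring
      have i1 := ((hτ n).tr.pos b (hbN n)).2
      have i2 := ((hτ n).tr.pos (x n * b) ((hτ n).tr.left _ _ (hbN n))).2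
      rw [← e2] at i2
      rw [map_sub]
      exact Complex.ext (by simp) (by simp [i1, i2])
    rw [e1, Complex.norm_real, Real.norm_eq_abs]
    exact hn
  · rw [Filter.eventually_all_finset]
    intro g hg
    obtain ⟨hgx, hgq⟩ := gn_act α g hx
    have hneg : CenS A ω (fun n => (-1 : ℂ) • x n) := hx.smul _
    have hy : CenS A ω (fun n => α g (x n) + (-1 : ℂ) • x n) := hgx.add hneg
    have hyq : M.q (csOf _ hy) = fAct M α g V - V := by
      rw [csOf_add hgx hneg, csOf_smul _ hx, map_add, map_smul, hgq, ← fAct_q, hxV, neg_smul,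
        one_smul, sub_eq_add_neg]
    have h4 := hlim _ (hy.mul hy)
    rw [csOf_mul hy hy, map_mul, hyq] at h4
    have h5 : φ ((fAct M α g V - V) * (fAct M α g V - V)) < ε := (h3 φ hφ g hg).trans_lt hδ
    filter_upwards [h4.eventually (gt_mem_nhds h5)] with n hn
    have e0 : α g (x n) + (-1 : ℂ) • x n = α g (x n) - x n := by
      rw [neg_smul, one_smul, sub_eq_add_neg]
    rw [e0] at hn
    have h6 : star (α g (x n) - x n) = α g (x n) - x n := by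
      rw [star_sub, ← map_star, hxs n]
    have e2 : star b * ((α g (x n) - x n) * (α g (x n) - x n)) * b =
        star ((α g (x n) - x n) * b) * ((α g (x n) - x n) * b) := by
      rw [star_mul, h6]
      noncomm_ring
    have h7 : star ((α g (x n) - x n) * (α g (x n) - x n)) =
        (α g (x n) - x n) * (α g (x n) - x n) := by rw [star_mul, h6]
    rw [wt_im (hτ n).tr (hbN n) h7, abs_of_nonneg]
    · exact hn
    · rw [e2]
      exact ((hτ n).tr.pos _ ((hτ n).tr.left _ _ (hbN n))).1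

theorem gw_gamma [Nontrivial A] (hω : (ω : Filter ℕ) ≤ atTop) (M : FMod A ω F) {G : Type v}
    [Group G] [Countable G] (hP : PropP.{u, v} G) (α : G →* (A ≃⋆ₐ[ℂ] A)) (h : EqZ A ω α ⊥) :
    EqGammaW α := by
  classical
  intro E K ε hε
  obtain ⟨D, c, hc, hc1, hcom, hinv, hgood⟩ := gn_good hω M α h
  set R : ℝ := ∑ p ∈ E ×ˢ E, ‖p.1 * p.2‖ with hR
  have hR0 : 0 ≤ R := Finset.sum_nonneg fun b _ => norm_nonneg _
  obtain ⟨ε', hε'0, hε'1, hε'2⟩ : ∃ ε' : ℝ, 0 < ε' ∧ ε' ≤ 1 ∧ ε' * R < ε := by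
    refine ⟨min 1 (ε / (2 * (R + 1))), lt_min one_pos (by positivity), min_le_left _ _, ?_⟩
    calc min 1 (ε / (2 * (R + 1))) * R ≤ ε / (2 * (R + 1)) * R :=
          mul_le_mul_of_nonneg_right (min_le_right _ _) hR0
      _ = ε * (R / (2 * (R + 1))) := by ring
      _ < ε * 1 := by
          refine mul_lt_mul_of_pos_left ?_ hε
          rw [div_lt_one (by positivity)]
          linarith
      _ = ε := mul_one _
  obtain ⟨e, he⟩ : ∃ e : ℝ, e = ε' / 4 := ⟨_, rfl⟩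
  have he0 : 0 < e := by rw [he]; positivity
  have he1 : e ≤ 1 / 4 := by rw [he]; linarith
  obtain ⟨I, V, -, hV, hAI⟩ := amp (K := K) hcom (fAct_isAct M α) hinv hc (by linarith)
    (fun ε' n₀ hε' => hP F D hcom (fAct M α) (fAct_isAct M α) hinv c hc hc1 hgood K ε' n₀ hε')
    e he0 0
  have h1Z : (1 : F) ∈ Zc D I := one_mem _
  have hVs : star V = V := hV.sa
  have hre : star (((1 - e : ℝ)) : ℂ) = (((1 - e : ℝ)) : ℂ) := Complex.conj_ofReal _
  have hsm : ∀ (φ : F →ₗ[ℝ] ℝ) (x : F), φ ((((1 - e : ℝ)) : ℂ) • x) = (1 - e) * φ x := by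
    intro φ x
    have h2 : (((1 - e : ℝ)) : ℂ) • x = (1 - e : ℝ) • x := Complex.coe_smul _ _
    rw [h2, map_smul, smul_eq_mul]
  have h1e : 0 ≤ 1 - e := by linarith
  have hsq : (1 - e) * (1 - e) ≤ 1 := by nlinarith
  obtain ⟨V', hV'⟩ : ∃ V' : F, V' = (((1 - e : ℝ)) : ℂ) • V := ⟨_, rfl⟩
  have w0 : star V' = V' := by rw [hV', star_smul, hre, hVs]
  have w1 : ‖V'‖ < 1 := by
    rw [hV', norm_smul, Complex.norm_real, Real.norm_eq_abs, abs_of_nonneg h1e]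
    have h2 := mul_le_mul_of_nonneg_left hV.norm h1e
    linarith
  have w2 : ∀ φ : F →ₗ[ℝ] ℝ, Tr φ → φ V' = 0 := by
    intro φ hφ
    have h2 := hV.mean φ hφ 1 h1Z
    rw [one_mul] at h2
    rw [hV', hsm, h2, mul_zero]
  have w3 : ∀ φ : F →ₗ[ℝ] ℝ, Tr φ → (1 - ε') * φ 1 ≤ φ (V' * V') := by
    intro φ hφ
    have h2 := hV.var φ hφ 1 h1Z
    unfold N2 at h2
    rw [star_one, one_mul, mul_one, hVs] at h2
    have h3 : 0 ≤ φ 1 := by
      have := hφ.pos 1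
      rwa [star_one, one_mul] at this
    rw [hV', smul_mul_smul_comm]
    have h4 : φ (((((1 - e : ℝ)) : ℂ) * (((1 - e : ℝ)) : ℂ)) • (V * V)) =
        (1 - e) * ((1 - e) * φ (V * V)) := by
      rw [mul_smul, hsm, hsm]
    rw [h4]
    have h5 : (1 - e) * ((1 - e) * ((1 - e) * φ 1)) ≤ (1 - e) * ((1 - e) * φ (V * V)) := by
      gcongr
    refine le_trans ?_ h5
    have h6 : (1 - ε') ≤ (1 - e) * ((1 - e) * (1 - e)) := by nlinarith
    have h7 := mul_le_mul_of_nonneg_right h6 h3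
    linarith
  have w4 : ∀ φ : F →ₗ[ℝ] ℝ, Tr φ → ∀ s ∈ K,
      φ ((fAct M α s V' - V') * (fAct M α s V' - V')) ≤ ε' * φ 1 := by
    intro φ hφ s hs
    have h2 := hAI φ hφ 1 h1Z s hs
    unfold N2 at h2
    have h3 : 0 ≤ φ 1 := by
      have := hφ.pos 1
      rwa [star_one, one_mul] at this
    obtain ⟨y, hy⟩ : ∃ y, y = fAct M α s V - V := ⟨_, rfl⟩
    have hys : star y = y := by
      rw [hy, star_sub, ← map_star, hVs]
    rw [← hy, mul_one, star_one, one_mul, hys] at h2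
    have h4 : fAct M α s V' - V' = (((1 - e : ℝ)) : ℂ) • y := by
      rw [hV', map_smul, hy, smul_sub]
    have h5 : 0 ≤ φ (y * y) := by
      have := hφ.pos y
      rwa [hys] at this
    rw [h4, smul_mul_smul_comm, mul_smul, hsm, hsm, ← mul_assoc]
    calc (1 - e) * (1 - e) * φ (y * y) ≤ 1 * φ (y * y) := by gcongr
      _ ≤ e * φ 1 := by rw [one_mul]; exact h2
      _ ≤ ε' * φ 1 := by gcongr; linarith
  obtain ⟨x, hx, hxV, hxs⟩ := gn_sa hω M V' w0 w1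
  by_contra hcon
  push Not at hcon
  have hcomm : ∀ᶠ n in (ω : Filter ℕ), ∀ a ∈ E, ‖a * x n - x n * a‖ < ε := by
    rw [Filter.eventually_all_finset]
    intro a _
    filter_upwards [(hx.2 a).eventually (gt_mem_nhds hε)] with n hn
    rwa [norm_sub_rev]
  have hch : ∀ n, ∃ (N : Submodule ℂ A) (τ : A →ₗ[ℂ] ℂ), (∀ a ∈ E, ‖a * x n - x n * a‖ < ε) →
      ∃ b₁ ∈ E, ∃ b₂ ∈ E, WN N τ b₁ b₂ ∧ ¬ GW3three α K ε τ (x n) (b₁ * b₂) := by
    intro n
    by_cases h : ∀ a ∈ E, ‖a * x n - x n * a‖ < ε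
    · obtain ⟨N, τ, hτ, b₁, hb₁, b₂, hb₂, m1, m2, k1, k2, hbad⟩ := hcon (x n) (hxs n).1 (hxs n).2 h
      refine ⟨N, τ, fun _ => ⟨b₁, hb₁, b₂, hb₂, ⟨hτ, m1, m2, k1, k2⟩, fun h3 => ?_⟩⟩
      obtain ⟨g, hg, hg2⟩ := hbad h3.1 h3.2.1
      exact absurd hg2 (not_le.2 (h3.2.2 g hg))
    · exact ⟨⊤, 0, fun h' => absurd h' h⟩
  choose N τ hτ2 using hch
  have hall : ∀ᶠ n in (ω : Filter ℕ), ∀ b₁ ∈ E, ∀ b₂ ∈ E, WN (N n) (τ n) b₁ b₂ →
      GW3three α K ε (τ n) (x n) (b₁ * b₂) := by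
    rw [Filter.eventually_all_finset]
    intro b₁ hb₁
    rw [Filter.eventually_all_finset]
    intro b₂ hb₂
    let N' : ℕ → Submodule ℂ A := fun n => if WN (N n) (τ n) b₁ b₂ then N n else ⊤
    let τ' : ℕ → (A →ₗ[ℂ] ℂ) := fun n => if WN (N n) (τ n) b₁ b₂ then τ n else 0
    have hτ' : ∀ n, WN (N' n) (τ' n) b₁ b₂ := by
      intro n
      by_cases hn : WN (N n) (τ n) b₁ b₂
      · have e1 : N' n = N n := if_pos hn
        have e2 : τ' n = τ n := if_pos hn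
        rw [e1, e2]
        exact hn
      · have e1 : N' n = ⊤ := if_neg hn
        have e2 : τ' n = 0 := if_neg hn
        rw [e1, e2]
        exact wn_zero b₁ b₂
    have hE : ε' * ‖b₁ * b₂‖ < ε := by
      refine lt_of_le_of_lt (mul_le_mul_of_nonneg_left ?_ hε'0.le) hε'2
      exact Finset.single_le_sum (f := fun p : A × A => ‖p.1 * p.2‖) (fun b _ => norm_nonneg _)
        (Finset.mem_product.2 ⟨hb₁, hb₂⟩ : (b₁, b₂) ∈ E ×ˢ E)
    filter_upwards [gw_pair hω M α K ε ε' hε hE hε'0.le V' w0 w1 w2 w3 w4 x hx hxV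
      (fun n => (hxs n).1) hτ'] with n hn hW
    have e2 : τ' n = τ n := if_pos hW
    rwa [e2] at hn
  obtain ⟨n, hn1, hn2⟩ := (hcomm.and hall).exists
  obtain ⟨b₁, hb₁, b₂, hb₂, hW, hbad⟩ := hτ2 n hn1
  exact hbad (hn2 b₁ hb₁ b₂ hb₂ hW)

/-- property Gamma with respect to all traces, for all actions of amenable groups -/
theorem gw_main [Nontrivial A] (hω : (ω : Filter ℕ) ≤ atTop) {G : Type v}
    [Group G] [Countable G] (hG : Folner G) (α : G →* (A ≃⋆ₐ[ℂ] A)) (h : EqZ A ω α ⊥) :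
    EqGammaW α := by
  obtain ⟨F, _, ⟨M⟩⟩ := exists_fmod A ω
  exact gw_gamma hω M (propP_folner G hG) α h

end

end Vale.Agent.P095
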