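import Vale.Agent.P095.GNDefs

open Filter Topology

namespace Vale.Agent.P095

universe u v

/-- a trace on `A`, possibly unbounded: `N` is the ideal of the elements `x` with finite `τ(x* x)`,
and `τ` is linear on the span of the products of two elements of `N` (the values of the linear map
`τ` outside of this span do not matter) -/
structure WTrace {A : Type u} [NonUnitalCStarAlgebra A] (N : Submodule ℂ A)
    (τ : A →ₗ[ℂ] ℂ) : Prop where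
  left : ∀ a, ∀ x ∈ N, a * x ∈ N
  right : ∀ a, ∀ x ∈ N, x * a ∈ N
  adj : ∀ x ∈ N, star x ∈ N
  pos : ∀ x ∈ N, 0 ≤ (τ (star x * x)).re ∧ (τ (star x * x)).im = 0
  comm : ∀ x ∈ N, ∀ y ∈ N, τ (x * y) = τ (y * x)

/-- equivariant uniform property Gamma with respect to all traces, bounded or not: one `v` for all
traces `τ` and all `b = b₁ b₂` with `b₁, b₂ ∈ E`, `τ(b_i* b_i) ≤ 1` -/
def EqGammaW {A : Type u} [NonUnitalCStarAlgebra A] {G : Type v} [Group G]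
    (α : G →* (A ≃⋆ₐ[ℂ] A)) : Prop :=
  ∀ (E : Finset A) (K : Finset G) (ε : ℝ), 0 < ε → ∃ v : A, star v = v ∧ ‖v‖ ≤ 1 ∧
    (∀ a ∈ E, ‖a * v - v * a‖ < ε) ∧ ∀ (N : Submodule ℂ A) (τ : A →ₗ[ℂ] ℂ), WTrace N τ →
      ∀ b₁ ∈ E, ∀ b₂ ∈ E, b₁ ∈ N → b₂ ∈ N → (τ (star b₁ * b₁)).re ≤ 1 →
      (τ (star b₂ * b₂)).re ≤ 1 → ‖τ (star (b₁ * b₂) * v * (b₁ * b₂))‖ < ε ∧
      ‖τ (star (b₁ * b₂) * (b₁ * b₂) - star (b₁ * b₂) * (v * v) * (b₁ * b₂))‖ < ε ∧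
      ∀ g ∈ K, ‖τ (star (b₁ * b₂) * ((α g v - v) * (α g v - v)) * (b₁ * b₂))‖ < ε

end Vale.Agent.P095
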