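import Mathlib

namespace Vale.Agent.P095

universe u v

/-- LYING.  `C` commutative, `G` finite acting by algebra endomorphisms, `Ψ` a unital invariant
functional which is multiplicative over the invariants.  Then `Ψ` is the average of the orbit of a
character.  Proof: `K = {a invariant : Ψ a = 0}`; the ideal of `C` generated by `K` is proper (if
`∑ k_j c_j = 1`, apply `Ψ (∑_g σ_g ·)`: `|G| = Ψ (∑_j k_j ∑_g σ_g c_j) = ∑ Ψ(k_j) Ψ(..) = 0`), take a
maximal ideal `P ⊇ K`.  `L = C ⧸ P`; every `c` is a root of `∏_g (X - σ_g c)`, whose coefficients `a`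
are invariant so `a ≡ Ψ a` mod `P`; so `L` is integral over `ℂ`, hence `L = ℂ` and `ρ : C → L ≃ ℂ`.
For invariant `a`: `ρ a = Ψ a`.  `|G| Ψ c = Ψ (∑_g σ_g c) = ρ (∑_g σ_g c)`. -/
theorem lying_over {C : Type u} [CommRing C] [Algebra ℂ C] {G : Type v} [Group G] [Fintype G]
    (σ : G → (C →ₐ[ℂ] C)) (h1 : ∀ c, σ 1 c = c) (hm : ∀ g h c, σ (g * h) c = σ g (σ h c))
    (Ψ : C →ₗ[ℂ] ℂ) (hΨ1 : Ψ 1 = 1) (hΨG : ∀ g c, Ψ (σ g c) = Ψ c)
    (hΨm : ∀ a b, (∀ g, σ g a = a) → Ψ (a * b) = Ψ a * Ψ b) :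
    ∃ ρ : C →ₐ[ℂ] ℂ, ∀ c, (Fintype.card G : ℂ) * Ψ c = ∑ g, ρ (σ g c) := by
  classical
  set K : Ideal C := Ideal.span {a | (∀ g, σ g a = a) ∧ Ψ a = 0} with hK
  -- `Ψ` vanishes on `K`
  have hKΨ : ∀ x ∈ K, Ψ x = 0 := by
    intro x hx
    obtain ⟨n, f, g, rfl⟩ := Submodule.mem_span_set'.1 hx
    rw [map_sum]
    refine Finset.sum_eq_zero fun i _ => ?_
    rw [smul_eq_mul, mul_comm, hΨm _ _ (g i).2.1, (g i).2.2, zero_mul]
  have hKtop : K ≠ ⊤ := by
    intro h
    have h2 : (1 : C) ∈ K := by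
      rw [h]
      trivial
    have h3 := hKΨ 1 h2
    rw [hΨ1] at h3
    exact one_ne_zero h3
  obtain ⟨P, hP, hKP⟩ := Ideal.exists_le_maximal K hKtop
  let _ : Field (C ⧸ P) := Ideal.Quotient.field P
  -- invariant elements are scalars modulo `P`
  have hinv : ∀ a, (∀ g, σ g a = a) → Ideal.Quotient.mk P a = algebraMap ℂ (C ⧸ P) (Ψ a) := by
    intro a ha
    have h2 : a - algebraMap ℂ C (Ψ a) ∈ K := by
      refine Ideal.subset_span ⟨fun g => ?_, ?_⟩
      · rw [map_sub, ha, AlgHom.commutes]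
      · rw [map_sub, Algebra.algebraMap_eq_smul_one, map_smul, hΨ1, smul_eq_mul, mul_one, sub_self]
    have h3 : Ideal.Quotient.mk P (a - algebraMap ℂ C (Ψ a)) = 0 :=
      Ideal.Quotient.eq_zero_iff_mem.2 (hKP h2)
    rw [map_sub, sub_eq_zero] at h3
    exact h3
  -- integrality
  have hint : Algebra.IsIntegral ℂ (C ⧸ P) := by
    refine ⟨fun x => ?_⟩
    obtain ⟨c, rfl⟩ := Ideal.Quotient.mk_surjective x
    set p : Polynomial C := ∏ g : G, (Polynomial.X - Polynomial.C (σ g c)) with hp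
    have hpm : p.Monic := Polynomial.monic_prod_of_monic _ _ fun g _ => Polynomial.monic_X_sub_C _
    have hpc : p.eval c = 0 := by
      rw [hp, Polynomial.eval_prod]
      refine Finset.prod_eq_zero (Finset.mem_univ 1) ?_
      rw [Polynomial.eval_sub, Polynomial.eval_X, Polynomial.eval_C, h1, sub_self]
    have hpi : ∀ h, p.map (σ h : C →+* C) = p := by
      intro h
      rw [hp, Polynomial.map_prod]
      have e : ∀ g, (Polynomial.X - Polynomial.C (σ g c)).map (σ h : C →+* C) =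
          Polynomial.X - Polynomial.C (σ (h * g) c) := by
        intro g
        rw [Polynomial.map_sub, Polynomial.map_X, Polynomial.map_C, hm]
        rfl
      simp only [e]
      exact Fintype.prod_equiv (Equiv.mulLeft h) _ _ fun g => rfl
    have hpco : ∀ i, ∀ h, σ h (p.coeff i) = p.coeff i := by
      intro i h
      have e := congrArg (fun q => Polynomial.coeff q i) (hpi h)
      simp only [Polynomial.coeff_map] at e
      exact e
    have hl : p.map (Ideal.Quotient.mk P) ∈ Polynomial.lifts (algebraMap ℂ (C ⧸ P)) := by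
      rw [Polynomial.lifts_iff_coeff_lifts]
      intro i
      rw [Polynomial.coeff_map]
      exact ⟨Ψ (p.coeff i), (hinv _ (hpco i)).symm⟩
    obtain ⟨q, hq1, _, hq3⟩ := Polynomial.lifts_and_natDegree_eq_and_monic hl (hpm.map _)
    refine ⟨q, hq3, ?_⟩
    rw [← Polynomial.eval_map, hq1, Polynomial.eval_map, Polynomial.eval₂_at_apply, hpc, map_zero]
  have hbij := IsAlgClosed.algebraMap_bijective_of_isIntegral (k := ℂ) (K := C ⧸ P)
  let e : ℂ ≃ₐ[ℂ] (C ⧸ P) := AlgEquiv.ofBijective (Algebra.ofId ℂ (C ⧸ P)) hbij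
  let ρ : C →ₐ[ℂ] ℂ := (e.symm : (C ⧸ P) →ₐ[ℂ] ℂ).comp (Ideal.Quotient.mkₐ ℂ P)
  have hρ : ∀ a, (∀ g, σ g a = a) → ρ a = Ψ a := by
    intro a ha
    show e.symm (Ideal.Quotient.mk P a) = Ψ a
    rw [hinv a ha]
    exact e.symm_apply_apply (Ψ a)
  refine ⟨ρ, fun c => ?_⟩
  have hs : ∀ h, σ h (∑ g, σ g c) = ∑ g, σ g c := by
    intro h
    rw [map_sum]
    simp only [← hm]
    exact Fintype.sum_equiv (Equiv.mulLeft h) _ _ fun g => rfl
  rw [← map_sum, hρ _ hs, map_sum]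
  simp only [hΨG]
  rw [Finset.sum_const, Finset.card_univ, nsmul_eq_mul]

end Vale.Agent.P095
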