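import Mathlib

open scoped Topology
open Filter

namespace Vale.Agent.P095

universe u

/-- QUNIT.  `u = cfc (fun t => t/(t+δ)) (i*i)`: `u = (i*i) * cfc (1/(t+δ)) (i*i) ∈ I`,
`‖i (1-u)‖² = ‖(1-u) i*i (1-u)‖ = sup t δ²/(t+δ)² ≤ δ`. -/
theorem quot_unit {R : Type u} [CStarAlgebra R] (I : Set R)
    (hr : ∀ r : R, ∀ x ∈ I, x * r ∈ I) (hl : ∀ r : R, ∀ x ∈ I, r * x ∈ I)
    (i : R) (hi : i ∈ I) (ε : ℝ) (hε : 0 < ε) :
    ∃ u ∈ I, star u = u ∧ ‖1 - u‖ ≤ 1 ∧ ‖i * (1 - u)‖ ≤ ε := by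
  set h : R := star i * i with hh
  have hsa : IsSelfAdjoint h := IsSelfAdjoint.star_mul_self i
  have hsp : ∀ x ∈ spectrum ℝ h, 0 ≤ x := fun x hx => spectrum_star_mul_self_nonneg x hx
  set g : ℝ → ℝ := fun t => (max t 0 + ε ^ 2)⁻¹ with hg
  have hpos : ∀ t : ℝ, 0 < max t 0 + ε ^ 2 := fun t => by positivity
  have hgc : Continuous g := by
    refine Continuous.inv₀ (by fun_prop) fun t => (hpos t).ne'
  have hgc' : ContinuousOn g (spectrum ℝ h) := hgc.continuousOn
  set w : R := cfc (fun t : ℝ => ε ^ 2 * g t) h with hw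
  have hu : h * cfc g h = 1 - w := by
    have e1 : h * cfc g h = cfc (fun t : ℝ => t * g t) h := by
      rw [cfc_mul (fun t : ℝ => t) g h continuous_id.continuousOn hgc', cfc_id' ℝ h]
    have e2 : (1 : R) - w = cfc (fun t : ℝ => 1 - ε ^ 2 * g t) h := by
      rw [hw, cfc_sub (fun _ : ℝ => (1 : ℝ)) (fun t : ℝ => ε ^ 2 * g t) h
        continuous_const.continuousOn (continuous_const.mul hgc).continuousOn, cfc_const_one ℝ h]
    rw [e1, e2]
    refine cfc_congr fun t ht => ?_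
    have h0 := hsp t ht
    have h1 := (hpos t).ne'
    simp only [hg]
    rw [max_eq_left h0] at h1 ⊢
    field_simp
    ring
  refine ⟨1 - w, ?_, ?_, ?_, ?_⟩
  · rw [← hu]
    exact hr _ _ (hl _ _ hi)
  · rw [star_sub, star_one]
    have : star w = w := (cfc_predicate (p := IsSelfAdjoint) (fun t : ℝ => ε ^ 2 * g t) h)
    rw [this]
  · rw [sub_sub_cancel]
    refine norm_cfc_le zero_le_one fun t ht => ?_
    have h0 := hsp t ht
    simp only [hg]
    rw [max_eq_left h0, Real.norm_eq_abs, abs_of_nonneg (by positivity), ← div_eq_mul_inv,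
      div_le_one (by positivity)]
    linarith
  · rw [sub_sub_cancel]
    have hwsa : star w = w := (cfc_predicate (p := IsSelfAdjoint) (fun t : ℝ => ε ^ 2 * g t) h)
    have e3 : star (i * w) * (i * w) =
        cfc (fun t : ℝ => ε ^ 2 * g t * (t * (ε ^ 2 * g t))) h := by
      rw [cfc_mul (fun t : ℝ => ε ^ 2 * g t) (fun t : ℝ => t * (ε ^ 2 * g t)) h
        (continuous_const.mul hgc).continuousOn
        (continuous_id.mul (continuous_const.mul hgc)).continuousOn,
        cfc_mul (fun t : ℝ => t) (fun t : ℝ => ε ^ 2 * g t) h continuous_id.continuousOn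
        (continuous_const.mul hgc).continuousOn, cfc_id' ℝ h, ← hw, star_mul, hwsa, hh]
      simp only [mul_assoc]
    have e4 : ‖i * w‖ * ‖i * w‖ ≤ ε ^ 2 := by
      rw [← CStarRing.norm_star_mul_self, e3]
      refine norm_cfc_le (by positivity) fun t ht => ?_
      have h0 := hsp t ht
      simp only [hg]
      rw [max_eq_left h0, Real.norm_eq_abs, abs_of_nonneg (by positivity)]
      have h2 : (0 : ℝ) < t + ε ^ 2 := by positivity
      have e5 : ε ^ 2 * (t + ε ^ 2)⁻¹ * (t * (ε ^ 2 * (t + ε ^ 2)⁻¹)) =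
          ε ^ 2 * ((ε ^ 2 * t) / ((t + ε ^ 2) * (t + ε ^ 2))) := by
        field_simp
      rw [e5]
      have h3 : (ε ^ 2 * t) / ((t + ε ^ 2) * (t + ε ^ 2)) ≤ 1 := by
        rw [div_le_one (by positivity)]
        nlinarith [mul_nonneg h0 h0, sq_nonneg (ε ^ 2), mul_nonneg h0 (sq_nonneg ε)]
      have h4 : (0 : ℝ) ≤ ε ^ 2 := sq_nonneg ε
      nlinarith
    nlinarith [norm_nonneg (i * w)]

/-- a closed two-sided *-ideal -/
structure QIdeal (R : Type u) [CStarAlgebra R] where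
  I : Set R
  h0 : (0 : R) ∈ I
  hadd : ∀ x ∈ I, ∀ y ∈ I, x + y ∈ I
  hl : ∀ r : R, ∀ x ∈ I, r * x ∈ I
  hr : ∀ r : R, ∀ x ∈ I, x * r ∈ I
  hs : ∀ x ∈ I, star x ∈ I
  hc : IsClosed I

section Quot

variable {R : Type u} [CStarAlgebra R] {J : QIdeal R}

theorem QIdeal.neg (J : QIdeal R) {x : R} (hx : x ∈ J.I) : -x ∈ J.I := by
  have := J.hl (-1) x hx
  rwa [neg_one_mul] at this

theorem QIdeal.sub (J : QIdeal R) {x y : R} (hx : x ∈ J.I) (hy : y ∈ J.I) : x - y ∈ J.I := by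
  rw [sub_eq_add_neg]
  exact J.hadd _ hx _ (J.neg hy)

theorem QIdeal.smul (J : QIdeal R) (c : ℂ) {x : R} (hx : x ∈ J.I) : c • x ∈ J.I := by
  have := J.hl (algebraMap ℂ R c) x hx
  rwa [← Algebra.smul_def] at this

/-- the congruence -/
def qcon (J : QIdeal R) : RingCon R where
  r a b := a - b ∈ J.I
  iseqv := by
    refine ⟨fun a => ?_, fun {a b} h => ?_, fun {a b c} h k => ?_⟩
    · rw [sub_self]
      exact J.h0
    · rw [← neg_sub]
      exact J.neg h
    · rw [← sub_add_sub_cancel a b c]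
      exact J.hadd _ h _ k
  add' := by
    intro a b c d h k
    rw [add_sub_add_comm]
    exact J.hadd _ h _ k
  mul' := by
    intro a b c d h k
    have e : a * c - b * d = (a - b) * c + b * (c - d) := by
      rw [sub_mul, mul_sub]
      abel
    rw [e]
    exact J.hadd _ (J.hr c _ h) _ (J.hl b _ k)

/-- the quotient -/
def Qt (J : QIdeal R) : Type u := (qcon J).Quotient

variable (J) in
@[reducible] noncomputable def qtRing : Ring (Qt J) := inferInstanceAs (Ring (qcon J).Quotient)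

attribute [local instance] qtRing

variable (J) in
@[reducible] noncomputable def qtAlgebra : Algebra ℂ (Qt J) :=
  inferInstanceAs (Algebra ℂ (qcon J).Quotient)

attribute [local instance] qtAlgebra

/-- the class of an element -/
noncomputable def qtMk (a : R) : Qt J := ((a : (qcon J).Quotient))

theorem qtMk_surj (x : Qt J) : ∃ a : R, (qtMk a : Qt J) = x := by
  induction x using Quotient.inductionOn with
  | h a => exact ⟨a, rfl⟩

theorem qtMk_eq {a b : R} : (qtMk a : Qt J) = qtMk b ↔ a - b ∈ J.I := RingCon.eq _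

theorem qtMk_add (a b : R) : (qtMk (a + b) : Qt J) = qtMk a + qtMk b := rfl

theorem qtMk_mul (a b : R) : (qtMk (a * b) : Qt J) = qtMk a * qtMk b := rfl

theorem qtMk_neg (a : R) : (qtMk (-a) : Qt J) = -qtMk a := rfl

theorem qtMk_sub (a b : R) : (qtMk (a - b) : Qt J) = qtMk a - qtMk b := rfl

theorem qtMk_zero : (qtMk (0 : R) : Qt J) = 0 := rfl

theorem qtMk_smul (c : ℂ) (a : R) : (qtMk (c • a) : Qt J) = c • qtMk a := rfl

theorem qt_dist_le {a b : R} (h : a - b ∈ J.I) : Metric.infDist a J.I ≤ Metric.infDist b J.I := by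
  refine le_of_forall_gt_imp_ge_of_dense fun r hr => ?_
  obtain ⟨j, hj, hjr⟩ := (Metric.infDist_lt_iff ⟨0, J.h0⟩).1 hr
  have h1 := Metric.infDist_le_dist_of_mem (x := a) (J.hadd _ h _ hj)
  refine h1.trans ?_
  rw [dist_eq_norm] at hjr ⊢
  have e : a - (a - b + j) = b - j := by abel
  rw [e]
  exact hjr.le

/-- the quotient norm -/
@[reducible] noncomputable def qtNorm : Norm (Qt J) where
  norm := Quotient.lift (fun a : R => Metric.infDist a J.I) fun a b (h : a - b ∈ J.I) =>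
    le_antisymm (qt_dist_le h) (qt_dist_le (by rw [← neg_sub]; exact J.neg h))

attribute [local instance] qtNorm

theorem qtMk_norm (a : R) : ‖(qtMk a : Qt J)‖ = Metric.infDist a J.I := rfl

theorem qtMk_norm_le (a : R) : ‖(qtMk a : Qt J)‖ ≤ ‖a‖ := by
  have := Metric.infDist_le_dist_of_mem (x := a) J.h0
  rwa [dist_zero_right] at this

theorem qt_norm_nonneg (x : Qt J) : 0 ≤ ‖x‖ := by
  obtain ⟨a, rfl⟩ := qtMk_surj x
  exact Metric.infDist_nonneg

/-- every class has a representative with almost the same norm -/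
theorem qt_lift (x : Qt J) (r : ℝ) (h : ‖x‖ < r) : ∃ a : R, (qtMk a : Qt J) = x ∧ ‖a‖ ≤ r := by
  obtain ⟨a, rfl⟩ := qtMk_surj x
  obtain ⟨j, hj, hjr⟩ := (Metric.infDist_lt_iff ⟨0, J.h0⟩).1 h
  rw [dist_eq_norm] at hjr
  refine ⟨a - j, ?_, hjr.le⟩
  rw [qtMk_eq]
  have e : a - j - a = -j := by abel
  rw [e]
  exact J.neg hj

/-- the star -/
@[reducible] noncomputable def qtStar : Star (Qt J) where
  star := Quotient.map (fun a : R => star a) fun a b (h : a - b ∈ J.I) => by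
    change star a - star b ∈ J.I
    rw [← star_sub]
    exact J.hs _ h

attribute [local instance] qtStar

theorem qtMk_star (a : R) : (qtMk (star a) : Qt J) = star (qtMk a) := rfl

theorem qt_norm_add_le (x y : Qt J) : ‖x + y‖ ≤ ‖x‖ + ‖y‖ := by
  refine le_of_forall_pos_le_add fun ε hε => ?_
  obtain ⟨a, rfl, ha⟩ := qt_lift x (‖x‖ + ε / 2) (by linarith)
  obtain ⟨b, rfl, hb⟩ := qt_lift y (‖y‖ + ε / 2) (by linarith)
  rw [← qtMk_add]
  have h1 := qtMk_norm_le (J := J) (a + b)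
  have h2 := norm_add_le a b
  linarith

theorem qt_aux {a b c : ℝ} (hb : 0 ≤ b) (h : ∀ r, a < r → c ≤ b * r) : c ≤ b * a := by
  rcases hb.eq_or_lt with hb0 | hb0
  · have := h (a + 1) (by linarith)
    rw [← hb0, zero_mul] at this ⊢
    exact this
  · have h1 : c / b ≤ a := le_of_forall_gt_imp_ge_of_dense fun r hr => by
      rw [div_le_iff₀ hb0]
      have := h r hr
      linarith
    rw [div_le_iff₀ hb0] at h1
    linarith

theorem qt_norm_mul_le (x y : Qt J) : ‖x * y‖ ≤ ‖x‖ * ‖y‖ := by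
  refine qt_aux (qt_norm_nonneg x) fun s hs => ?_
  have hs0 : 0 ≤ s := (qt_norm_nonneg y).trans hs.le
  rw [mul_comm]
  refine qt_aux hs0 fun r hr => ?_
  obtain ⟨a, rfl, ha⟩ := qt_lift x r hr
  obtain ⟨b, rfl, hb⟩ := qt_lift y s hs
  rw [← qtMk_mul]
  have h1 := qtMk_norm_le (J := J) (a * b)
  have h2 := norm_mul_le a b
  have h3 : ‖a‖ * ‖b‖ ≤ r * s := mul_le_mul ha hb (norm_nonneg _) ((norm_nonneg _).trans ha)
  linarith

theorem qt_norm_neg_le (x : Qt J) : ‖-x‖ ≤ ‖x‖ := by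
  refine le_of_forall_gt_imp_ge_of_dense fun r hr => ?_
  obtain ⟨a, rfl, ha⟩ := qt_lift x r hr
  rw [← qtMk_neg]
  have h1 := qtMk_norm_le (J := J) (-a)
  rw [norm_neg] at h1
  exact h1.trans ha

theorem qt_norm_neg (x : Qt J) : ‖-x‖ = ‖x‖ := by
  refine le_antisymm (qt_norm_neg_le x) ?_
  have := qt_norm_neg_le (-x)
  rwa [neg_neg] at this

theorem qt_norm_smul_le (c : ℂ) (x : Qt J) : ‖c • x‖ ≤ ‖c‖ * ‖x‖ := by
  refine qt_aux (norm_nonneg c) fun r hr => ?_
  obtain ⟨a, rfl, ha⟩ := qt_lift x r hr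
  rw [← qtMk_smul]
  have h1 := qtMk_norm_le (J := J) (c • a)
  rw [norm_smul] at h1
  exact h1.trans (mul_le_mul_of_nonneg_left ha (norm_nonneg c))

theorem qt_norm_zero : ‖(0 : Qt J)‖ = 0 := by
  refine le_antisymm ?_ (qt_norm_nonneg _)
  have := qtMk_norm_le (J := J) (0 : R)
  rwa [norm_zero, qtMk_zero] at this

theorem qt_eq_zero (x : Qt J) (h : ‖x‖ = 0) : x = 0 := by
  obtain ⟨a, rfl⟩ := qtMk_surj x
  rw [← qtMk_zero, qtMk_eq, sub_zero]
  exact (J.hc.mem_iff_infDist_zero ⟨0, J.h0⟩).2 h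

theorem qt_cstar (x : Qt J) : ‖x‖ * ‖x‖ ≤ ‖star x * x‖ := by
  refine le_of_forall_pos_le_add fun ε hε => ?_
  obtain ⟨a, rfl⟩ := qtMk_surj x
  have h : ‖star (qtMk a : Qt J) * qtMk a‖ < ‖star (qtMk a : Qt J) * qtMk a‖ + ε / 2 := by linarith
  have h' : Metric.infDist (star a * a) J.I < ‖star (qtMk a : Qt J) * qtMk a‖ + ε / 2 := h
  obtain ⟨i, hi, hir⟩ := (Metric.infDist_lt_iff ⟨0, J.h0⟩).1 h'
  rw [dist_eq_norm] at hir
  obtain ⟨v, hv, hvs, hv1, hvi⟩ := quot_unit J.I J.hr J.hl i hi (ε / 2) (by linarith)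
  have e1 : (qtMk a : Qt J) = qtMk (a * (1 - v)) := by
    rw [qtMk_eq]
    have e : a - a * (1 - v) = a * v := by
      rw [mul_sub, mul_one]
      abel
    rw [e]
    exact J.hl a v hv
  have h1 : ‖(qtMk a : Qt J)‖ ≤ ‖a * (1 - v)‖ := by
    rw [e1]
    exact qtMk_norm_le _
  have h2 : ‖a * (1 - v)‖ * ‖a * (1 - v)‖ = ‖(1 - v) * (star a * a) * (1 - v)‖ := by
    rw [← CStarRing.norm_star_mul_self]
    congr 1
    rw [star_mul, star_sub, star_one, hvs]
    noncomm_ring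
  have h3 : (1 - v) * (star a * a) * (1 - v) =
      (1 - v) * (star a * a - i) * (1 - v) + (1 - v) * (i * (1 - v)) := by
    noncomm_ring
  have h4 : ‖(1 - v) * (star a * a - i) * (1 - v)‖ ≤ ‖star a * a - i‖ := by
    calc ‖(1 - v) * (star a * a - i) * (1 - v)‖
        ≤ ‖1 - v‖ * ‖star a * a - i‖ * ‖1 - v‖ :=
          (norm_mul_le _ _).trans (mul_le_mul_of_nonneg_right (norm_mul_le _ _) (norm_nonneg _))
      _ ≤ 1 * ‖star a * a - i‖ * 1 := by gcongr
      _ = ‖star a * a - i‖ := by ring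
  have h5 : ‖(1 - v) * (i * (1 - v))‖ ≤ ε / 2 := by
    calc ‖(1 - v) * (i * (1 - v))‖ ≤ ‖1 - v‖ * ‖i * (1 - v)‖ := norm_mul_le _ _
      _ ≤ 1 * (ε / 2) := by gcongr
      _ = ε / 2 := by ring
  have h6 : ‖(qtMk a : Qt J)‖ * ‖(qtMk a : Qt J)‖ ≤ ‖a * (1 - v)‖ * ‖a * (1 - v)‖ :=
    mul_le_mul h1 h1 (qt_norm_nonneg _) (norm_nonneg _)
  rw [h2, h3] at h6
  have h7 := norm_add_le ((1 - v) * (star a * a - i) * (1 - v)) ((1 - v) * (i * (1 - v)))
  linarith

@[reducible] noncomputable def qtStarRing : StarRing (Qt J) where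
  star_involutive x := by
    obtain ⟨a, rfl⟩ := qtMk_surj x
    rw [← qtMk_star, ← qtMk_star, star_star]
  star_mul x y := by
    obtain ⟨a, rfl⟩ := qtMk_surj x
    obtain ⟨b, rfl⟩ := qtMk_surj y
    rw [← qtMk_mul, ← qtMk_star, star_mul]
    rfl
  star_add x y := by
    obtain ⟨a, rfl⟩ := qtMk_surj x
    obtain ⟨b, rfl⟩ := qtMk_surj y
    rw [← qtMk_add, ← qtMk_star, star_add]
    rfl

attribute [local instance] qtStarRing

@[reducible] noncomputable def qtNormedAddCommGroup : NormedAddCommGroup (Qt J) :=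
  AddGroupNorm.toNormedAddCommGroup
    { toFun := fun x : Qt J => ‖x‖
      map_zero' := qt_norm_zero
      add_le' := qt_norm_add_le
      neg' := qt_norm_neg
      eq_zero_of_map_eq_zero' := qt_eq_zero }

attribute [local instance] qtNormedAddCommGroup

@[reducible] noncomputable def qtNormedRing : NormedRing (Qt J) where
  __ := qtNormedAddCommGroup
  __ := qtRing J
  norm_mul_le := qt_norm_mul_le

attribute [local instance] qtNormedRing

@[reducible] noncomputable def qtNormedAlgebra : NormedAlgebra ℂ (Qt J) where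
  __ := qtAlgebra J
  norm_smul_le := qt_norm_smul_le

attribute [local instance] qtNormedAlgebra

theorem qtComplete : CompleteSpace (Qt J) := by
  refine NormedAddCommGroup.completeSpace_of_summable_imp_tendsto fun u hu => ?_
  have h1 : ∀ i, ∃ a : R, (qtMk a : Qt J) = u i ∧ ‖a‖ ≤ ‖u i‖ + (1 / 2) ^ i := fun i =>
    qt_lift (u i) _ (lt_add_of_pos_right _ (by positivity))
  choose a ha1 ha2 using h1
  have hs : Summable fun i => ‖a i‖ :=
    Summable.of_nonneg_of_le (fun i => norm_nonneg _) ha2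
      (hu.add (summable_geometric_of_lt_one (by norm_num) (by norm_num)))
  obtain ⟨b, hb⟩ := NormedAddCommGroup.summable_imp_tendsto_of_complete a hs
  refine ⟨qtMk b, ?_⟩
  have h2 : ∀ n, ∑ i ∈ Finset.range n, u i = qtMk (∑ i ∈ Finset.range n, a i) := by
    intro n
    induction n with
    | zero => rw [Finset.sum_range_zero, Finset.sum_range_zero, qtMk_zero]
    | succ n ih => rw [Finset.sum_range_succ, Finset.sum_range_succ, qtMk_add, ih, ha1]
  simp only [h2]
  rw [tendsto_iff_norm_sub_tendsto_zero]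
  refine squeeze_zero (fun n => norm_nonneg _) (fun n => ?_)
    (tendsto_iff_norm_sub_tendsto_zero.1 hb)
  rw [← qtMk_sub]
  exact qtMk_norm_le _

attribute [local instance] qtComplete

theorem qtCStarRing : CStarRing (Qt J) where
  norm_mul_self_le := qt_cstar

attribute [local instance] qtCStarRing

theorem qtStarModule : StarModule ℂ (Qt J) where
  star_smul c x := by
    obtain ⟨a, rfl⟩ := qtMk_surj x
    rw [← qtMk_smul, ← qtMk_star, star_smul]
    rfl

attribute [local instance] qtStarModule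

variable (J) in
/-- the quotient C*-algebra -/
@[reducible] noncomputable def qtCStar : CStarAlgebra (Qt J) where

end Quot

/-- QUOT.  Quotients of C*-algebras by closed two-sided *-ideals.  Ring congruence
`x ~ y ↔ x - y ∈ I` (`RingCon`, as in P101K/Aomega.lean), norm `‖[x]‖ = inf {‖x + i‖ : i ∈ I}`
(quotient norm, complete: Mathlib's quotients of normed groups), C*-identity: for `i ∈ I`, `ε > 0`
choose `δ > 0` and `u = cfc (t/(t+δ)) (i*i) ∈ I`, `‖1 - u‖ ≤ 1`, `‖i (1 - u)‖ ≤ ε`;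
`‖[x]‖² ≤ ‖x(1-u)‖² = ‖(1-u)x*x(1-u)‖ ≤ ‖x*x + i‖ + ε`. -/
theorem exists_quot {R : Type u} [CStarAlgebra R] (I : Set R) (h0 : (0 : R) ∈ I)
    (hadd : ∀ x ∈ I, ∀ y ∈ I, x + y ∈ I) (hl : ∀ r : R, ∀ x ∈ I, r * x ∈ I)
    (hr : ∀ r : R, ∀ x ∈ I, x * r ∈ I) (hs : ∀ x ∈ I, star x ∈ I) (hc : IsClosed I) :
    ∃ (F : Type u) (_ : CStarAlgebra F) (q : R →⋆ₐ[ℂ] F), (∀ x, q x = 0 ↔ x ∈ I) ∧
      ∀ (y : F) (r : ℝ), ‖y‖ < r → ∃ x, q x = y ∧ ‖x‖ ≤ r := by
  let J : QIdeal R := ⟨I, h0, hadd, hl, hr, hs, hc⟩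
  let _ : CStarAlgebra (Qt J) := qtCStar J
  refine ⟨Qt J, qtCStar J, {
    toFun := fun a => qtMk a
    map_one' := rfl
    map_mul' := fun _ _ => rfl
    map_zero' := rfl
    map_add' := fun _ _ => rfl
    commutes' := fun _ => rfl
    map_star' := fun _ => rfl }, fun x => ?_, fun y r h => qt_lift y r h⟩
  show (qtMk x : Qt J) = qtMk 0 ↔ x ∈ I
  rw [qtMk_eq, sub_zero]

end Vale.Agent.P095
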