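import Vale.Agent.P095.Act
import Vale.Agent.P095.Quot

open scoped ENNReal Topology
open Filter

namespace Vale.Agent.P095

open Vale.Agent.P101K

universe u v w

/-- the unitization of `A` -/
abbrev UA (A : Type u) [NonUnitalCStarAlgebra A] : Type u := Unitization ℂ A

section

variable (A : Type u) [NonUnitalCStarAlgebra A] (ω : Ultrafilter ℕ)

/-- the bounded sequences in the unitization which commute asymptotically with `A` -/
noncomputable def CS : StarSubalgebra ℂ (Bdd (UA A)) where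
  carrier := {x | ∀ a : A, Tendsto (fun n => ‖x n * (a : UA A) - (a : UA A) * x n‖) ω (𝓝 0)}
  mul_mem' := by
    intro x y hx hy a
    have h1 := ((hy a).const_mul ‖x‖).add ((hx a).mul_const ‖y‖)
    rw [mul_zero, zero_mul, add_zero] at h1
    refine squeeze_zero (fun n => norm_nonneg _) (fun n => ?_) h1
    rw [aom_mul_apply]
    have e : x n * y n * (a : UA A) - (a : UA A) * (x n * y n)
        = x n * (y n * (a : UA A) - (a : UA A) * y n)
          + (x n * (a : UA A) - (a : UA A) * x n) * y n := by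
      noncomm_ring
    rw [e]
    refine (norm_add_le _ _).trans (add_le_add ?_ ?_)
    · exact (norm_mul_le _ _).trans
        (mul_le_mul_of_nonneg_right (aom_apply_le x n) (norm_nonneg _))
    · exact (norm_mul_le _ _).trans
        (mul_le_mul_of_nonneg_left (aom_apply_le y n) (norm_nonneg _))
  add_mem' := by
    intro x y hx hy a
    have h1 := (hx a).add (hy a)
    rw [add_zero] at h1
    refine squeeze_zero (fun n => norm_nonneg _) (fun n => ?_) h1
    rw [aom_add_apply]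
    have e : (x n + y n) * (a : UA A) - (a : UA A) * (x n + y n)
        = (x n * (a : UA A) - (a : UA A) * x n) + (y n * (a : UA A) - (a : UA A) * y n) := by
      noncomm_ring
    rw [e]
    exact norm_add_le _ _
  algebraMap_mem' := by
    intro r a
    have : (fun n => ‖(algebraMap ℂ (Bdd (UA A)) r) n * (a : UA A)
        - (a : UA A) * (algebraMap ℂ (Bdd (UA A)) r) n‖) = fun _ => (0 : ℝ) := by
      funext n
      have h1 : (algebraMap ℂ (Bdd (UA A)) r) n = algebraMap ℂ (UA A) r := rfl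
      rw [h1, Algebra.commutes, sub_self, norm_zero]
    rw [this]
    exact tendsto_const_nhds
  star_mem' := by
    intro x hx a
    refine (hx (star a)).congr fun n => ?_
    rw [aom_star_apply, ← norm_star, star_sub, star_mul, star_mul, Unitization.inr_star, star_star,
      norm_sub_rev]

/-- CSC. -/
theorem cs_closed : IsClosed (CS A ω : Set (Bdd (UA A))) := by
  refine isClosed_of_closure_subset fun x hx => ?_
  rw [Metric.mem_closure_iff] at hx
  intro a
  rw [Metric.tendsto_nhds]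
  intro ε hε
  have hpos : (0 : ℝ) < 4 * (‖(a : UA A)‖ + 1) := by positivity
  obtain ⟨y, hy, hxy⟩ := hx (ε / (4 * (‖(a : UA A)‖ + 1))) (div_pos hε hpos)
  rw [dist_eq_norm] at hxy
  have h2 := (Metric.tendsto_nhds.1 (hy a)) (ε / 2) (half_pos hε)
  filter_upwards [h2] with n hn
  rw [Real.dist_eq, sub_zero, abs_of_nonneg (norm_nonneg _)] at hn ⊢
  have hd : ‖x n - y n‖ ≤ ε / (4 * (‖(a : UA A)‖ + 1)) :=
    (aom_apply_le (x - y) n).trans hxy.le
  have e : x n * (a : UA A) - (a : UA A) * x n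
      = (x n - y n) * (a : UA A) - (a : UA A) * (x n - y n)
        + (y n * (a : UA A) - (a : UA A) * y n) := by
    noncomm_ring
  have h3 : ‖(x n - y n) * (a : UA A)‖ ≤ ε / (4 * (‖(a : UA A)‖ + 1)) * ‖(a : UA A)‖ :=
    (norm_mul_le _ _).trans (mul_le_mul_of_nonneg_right hd (norm_nonneg _))
  have h4 : ‖(a : UA A) * (x n - y n)‖ ≤ ε / (4 * (‖(a : UA A)‖ + 1)) * ‖(a : UA A)‖ := by
    refine (norm_mul_le _ _).trans ?_
    rw [mul_comm]
    exact mul_le_mul_of_nonneg_right hd (norm_nonneg _)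
  have h5 : ε / (4 * (‖(a : UA A)‖ + 1)) * ‖(a : UA A)‖ ≤ ε / 4 := by
    rw [div_mul_eq_mul_div, div_le_iff₀ hpos]
    nlinarith [norm_nonneg (a : UA A)]
  calc ‖x n * (a : UA A) - (a : UA A) * x n‖
      = ‖(x n - y n) * (a : UA A) - (a : UA A) * (x n - y n)
        + (y n * (a : UA A) - (a : UA A) * y n)‖ := by rw [e]
    _ ≤ ‖(x n - y n) * (a : UA A)‖ + ‖(a : UA A) * (x n - y n)‖
        + ‖y n * (a : UA A) - (a : UA A) * y n‖ :=
      (norm_add_le _ _).trans (add_le_add (norm_sub_le _ _) le_rfl)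
    _ < ε := by linarith

noncomputable instance csCStar : CStarAlgebra (CS A ω) :=
  haveI : IsClosed (CS A ω : Set (Bdd (UA A))) := cs_closed A ω
  StarSubalgebra.cstarAlgebra (CS A ω)

/-- `F` is a model of `F_ω(A) = (A_ω ∩ A') / Ann(A)` -/
structure FMod (F : Type u) [CStarAlgebra F] where
  q : CS A ω →⋆ₐ[ℂ] F
  ker : ∀ x : CS A ω, q x = 0 ↔
    ∀ a : A, Tendsto (fun n => ‖(x : Bdd (UA A)) n * (a : UA A)‖) ω (𝓝 0)
  lift : ∀ (y : F) (r : ℝ), ‖y‖ < r → ∃ x : CS A ω, q x = y ∧ ‖(x : Bdd (UA A))‖ ≤ r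

private theorem FEX_tendsto_of_le {f : ℕ → ℝ} (hf : ∀ n, 0 ≤ f n)
    (h : ∀ ε : ℝ, 0 < ε → ∃ g : ℕ → ℝ, Tendsto g ω (𝓝 0) ∧ ∀ n, f n ≤ ε + g n) :
    Tendsto f ω (𝓝 0) := by
  rw [Metric.tendsto_nhds]
  intro ε hε
  obtain ⟨g, hg, hfg⟩ := h (ε / 2) (half_pos hε)
  filter_upwards [(Metric.tendsto_nhds.1 hg) (ε / 2) (half_pos hε)] with n hn
  rw [Real.dist_eq, sub_zero, abs_lt] at hn
  rw [Real.dist_eq, sub_zero, abs_of_nonneg (hf n)]
  have := hfg n
  linarith [hn.2]

private theorem FEX_closed : IsClosed {x : CS A ω | ∀ a : A,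
    Tendsto (fun n => ‖(x : Bdd (UA A)) n * (a : UA A)‖) ω (𝓝 0)} := by
  refine isClosed_of_closure_subset fun x hx a => ?_
  refine FEX_tendsto_of_le ω (fun n => norm_nonneg _) fun ε hε => ?_
  have hpos : 0 < ‖(a : UA A)‖ + 1 := by positivity
  obtain ⟨y, hy, hxy⟩ := Metric.mem_closure_iff.1 hx (ε / (‖(a : UA A)‖ + 1)) (div_pos hε hpos)
  refine ⟨fun n => ‖(y : Bdd (UA A)) n * (a : UA A)‖, hy a, fun n => ?_⟩
  have e : (x : Bdd (UA A)) n * (a : UA A)
      = ((x : Bdd (UA A)) - (y : Bdd (UA A))) n * (a : UA A) + (y : Bdd (UA A)) n * (a : UA A) := by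
    rw [aom_sub_apply, sub_mul, sub_add_cancel]
  have h1 : ‖((x : Bdd (UA A)) - (y : Bdd (UA A))) n * (a : UA A)‖ ≤ ε := by
    refine (norm_mul_le _ _).trans ?_
    have h2 : ‖((x : Bdd (UA A)) - (y : Bdd (UA A))) n‖ ≤ ε / (‖(a : UA A)‖ + 1) := by
      refine (aom_apply_le _ n).trans ?_
      have h3 : ‖(x : Bdd (UA A)) - (y : Bdd (UA A))‖ = dist x y := by
        rw [dist_eq_norm]
        rfl
      rw [h3]
      exact hxy.le
    calc ‖((x : Bdd (UA A)) - (y : Bdd (UA A))) n‖ * ‖(a : UA A)‖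
        ≤ ε / (‖(a : UA A)‖ + 1) * (‖(a : UA A)‖ + 1) :=
          mul_le_mul h2 (by linarith) (norm_nonneg _) (by positivity)
      _ = ε := div_mul_cancel₀ _ hpos.ne'
  calc ‖(x : Bdd (UA A)) n * (a : UA A)‖
      = ‖((x : Bdd (UA A)) - (y : Bdd (UA A))) n * (a : UA A)
        + (y : Bdd (UA A)) n * (a : UA A)‖ := by rw [← e]
    _ ≤ _ := (norm_add_le _ _).trans (add_le_add h1 le_rfl)

/-- FEX. -/
theorem exists_fmod : ∃ (F : Type u) (_ : CStarAlgebra F), Nonempty (FMod A ω F) := by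
  suffices h : ∃ (F : Type u) (_ : CStarAlgebra F) (q : CS A ω →⋆ₐ[ℂ] F),
      (∀ x, q x = 0 ↔ x ∈ {x : CS A ω | ∀ a : A,
        Tendsto (fun n => ‖(x : Bdd (UA A)) n * (a : UA A)‖) ω (𝓝 0)}) ∧
      ∀ (y : F) (r : ℝ), ‖y‖ < r → ∃ x, q x = y ∧ ‖x‖ ≤ r by
    obtain ⟨F, inst, q, hq, hl⟩ := h
    exact ⟨F, inst, ⟨⟨q, fun x => hq x, fun y r hy => hl y r hy⟩⟩⟩
  refine exists_quot {x : CS A ω | ∀ a : A,
    Tendsto (fun n => ‖(x : Bdd (UA A)) n * (a : UA A)‖) ω (𝓝 0)} ?_ ?_ ?_ ?_ ?_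
    (FEX_closed A ω)
  · intro a
    refine tendsto_const_nhds.congr fun n => ?_
    have h1 : ((0 : CS A ω) : Bdd (UA A)) n = 0 := rfl
    rw [h1, zero_mul, norm_zero]
  · intro x hx y hy a
    have h1 := (hx a).add (hy a)
    rw [add_zero] at h1
    refine squeeze_zero (fun n => norm_nonneg _) (fun n => ?_) h1
    have e : ((x + y : CS A ω) : Bdd (UA A)) n * (a : UA A)
        = (x : Bdd (UA A)) n * (a : UA A) + (y : Bdd (UA A)) n * (a : UA A) := by
      rw [← add_mul]
      rfl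
    rw [e]
    exact norm_add_le _ _
  · intro r x hx a
    have h1 := (hx a).const_mul ‖(r : Bdd (UA A))‖
    rw [mul_zero] at h1
    refine squeeze_zero (fun n => norm_nonneg _) (fun n => ?_) h1
    have e : ((r * x : CS A ω) : Bdd (UA A)) n * (a : UA A)
        = (r : Bdd (UA A)) n * ((x : Bdd (UA A)) n * (a : UA A)) := by
      rw [← mul_assoc]
      rfl
    rw [e]
    exact (norm_mul_le _ _).trans (mul_le_mul_of_nonneg_right (aom_apply_le _ n) (norm_nonneg _))
  · intro r x hx a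
    have h1 := ((r.2 a).const_mul ‖(x : Bdd (UA A))‖).add ((hx a).mul_const ‖(r : Bdd (UA A))‖)
    rw [mul_zero, zero_mul, add_zero] at h1
    refine squeeze_zero (fun n => norm_nonneg _) (fun n => ?_) h1
    have e : ((x * r : CS A ω) : Bdd (UA A)) n * (a : UA A)
        = (x : Bdd (UA A)) n * ((r : Bdd (UA A)) n * (a : UA A) - (a : UA A) * (r : Bdd (UA A)) n)
          + ((x : Bdd (UA A)) n * (a : UA A)) * (r : Bdd (UA A)) n := by
      have e1 : ((x * r : CS A ω) : Bdd (UA A)) n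
          = (x : Bdd (UA A)) n * (r : Bdd (UA A)) n := rfl
      rw [e1, mul_sub]
      simp only [mul_assoc]
      rw [sub_add_cancel]
    rw [e]
    refine (norm_add_le _ _).trans (add_le_add ?_ ?_)
    · exact (norm_mul_le _ _).trans
        (mul_le_mul_of_nonneg_right (aom_apply_le _ n) (norm_nonneg _))
    · exact (norm_mul_le _ _).trans
        (mul_le_mul_of_nonneg_left (aom_apply_le _ n) (norm_nonneg _))
  · intro x hx a
    have h1 := ((star x).2 a).add (hx (star a))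
    rw [add_zero] at h1
    refine squeeze_zero (fun n => norm_nonneg _) (fun n => ?_) h1
    have e : ((star x : CS A ω) : Bdd (UA A)) n * (a : UA A)
        = (((star x : CS A ω) : Bdd (UA A)) n * (a : UA A)
            - (a : UA A) * ((star x : CS A ω) : Bdd (UA A)) n)
          + star ((x : Bdd (UA A)) n * ((star a : A) : UA A)) := by
      have e1 : ((star x : CS A ω) : Bdd (UA A)) n = star ((x : Bdd (UA A)) n) := rfl
      rw [e1, star_mul, Unitization.inr_star, star_star, sub_add_cancel]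
    refine (le_of_eq (congrArg norm e)).trans ((norm_add_le _ _).trans (add_le_add le_rfl ?_))
    rw [norm_star]

end

section

variable {A : Type u} [NonUnitalCStarAlgebra A] {ω : Ultrafilter ℕ} {F : Type u} [CStarAlgebra F]

theorem FMod.surj (M : FMod A ω F) : Function.Surjective M.q := by
  intro y
  obtain ⟨x, hx, -⟩ := M.lift y (‖y‖ + 1) (lt_add_one _)
  exact ⟨x, hx⟩

variable {G : Type v} [Group G]

/-- the action on the unitization -/
noncomputable def extA (α : G →* (A ≃⋆ₐ[ℂ] A)) (g : G) : UA A →⋆ₐ[ℂ] UA A :=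
  Unitization.starMap ((α g : A ≃⋆ₐ[ℂ] A) : A →⋆ₙₐ[ℂ] A)

theorem extA_inr (α : G →* (A ≃⋆ₐ[ℂ] A)) (g : G) (a : A) :
    extA α g (a : UA A) = ((α g a : A) : UA A) := Unitization.starMap_inr _ _

theorem extA_isAct (α : G →* (A ≃⋆ₐ[ℂ] A)) : IsAct (extA α) := by
  refine ⟨fun x => ?_, fun g h x => ?_⟩
  · induction x using Unitization.ind with
    | inl_add_inr r a =>
      rw [map_add, extA_inr, map_one]
      congr 1
      exact Unitization.starMap_inl _ _
  · induction x using Unitization.ind with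
    | inl_add_inr r a =>
      have h1 : ∀ g, extA α g (Unitization.inl r) = Unitization.inl r :=
        fun g => Unitization.starMap_inl _ _
      rw [map_add, map_add, map_add, extA_inr, extA_inr, extA_inr, map_mul, h1, h1, h1]
      rfl

theorem bmap_mem_CS (α : G →* (A ≃⋆ₐ[ℂ] A)) (g : G) (x : Bdd (UA A)) (hx : x ∈ CS A ω) :
    bmap (extA α g) x ∈ CS A ω := by
  intro a
  have h1 := hx (α g⁻¹ a)
  refine squeeze_zero (fun n => norm_nonneg _) (fun n => ?_) h1
  have e : extA α g ((α g⁻¹ a : A) : UA A) = (a : UA A) := by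
    rw [extA_inr]
    congr 1
    have : (α g * α g⁻¹) a = a := by rw [← map_mul, mul_inv_cancel, map_one]; rfl
    exact this
  rw [bmap_apply]
  nth_rewrite 1 [← e]
  nth_rewrite 1 [← e]
  rw [← map_mul, ← map_mul, ← map_sub]
  exact NonUnitalStarAlgHom.norm_apply_le _ _

/-- the action on the central sequences -/
noncomputable def csMap (ω : Ultrafilter ℕ) (α : G →* (A ≃⋆ₐ[ℂ] A)) (g : G) :
    CS A ω →⋆ₐ[ℂ] CS A ω where
  toFun x := ⟨bmap (extA α g) x, bmap_mem_CS α g x x.2⟩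
  map_one' := Subtype.ext (map_one (bmap (extA α g)))
  map_mul' _ _ := Subtype.ext (map_mul (bmap (extA α g)) _ _)
  map_zero' := Subtype.ext (map_zero (bmap (extA α g)))
  map_add' _ _ := Subtype.ext (map_add (bmap (extA α g)) _ _)
  commutes' r := Subtype.ext (AlgHomClass.commutes (bmap (extA α g)) r)
  map_star' _ := Subtype.ext (map_star (bmap (extA α g)) _)

theorem csMap_apply (α : G →* (A ≃⋆ₐ[ℂ] A)) (g : G) (x : CS A ω) (n : ℕ) :
    (csMap ω α g x : Bdd (UA A)) n = extA α g ((x : Bdd (UA A)) n) := rfl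

theorem exists_fAct (M : FMod A ω F) (α : G →* (A ≃⋆ₐ[ℂ] A)) (g : G) :
    ∃ f : F →⋆ₐ[ℂ] F, ∀ x, f (M.q x) = M.q (csMap ω α g x) := by
  refine star_factor M.q M.surj (M.q.comp (csMap ω α g)) fun s hs => ?_
  show M.q (csMap ω α g s) = 0
  rw [M.ker] at hs ⊢
  intro a
  refine squeeze_zero (fun n => norm_nonneg _) (fun n => ?_) (hs (α g⁻¹ a))
  have e : extA α g ((α g⁻¹ a : A) : UA A) = (a : UA A) := by
    rw [extA_inr]
    congr 1
    have : (α g * α g⁻¹) a = a := by rw [← map_mul, mul_inv_cancel, map_one]; rfl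
    exact this
  rw [csMap_apply]
  nth_rewrite 1 [← e]
  rw [← map_mul]
  exact NonUnitalStarAlgHom.norm_apply_le _ _

/-- the action on `F_ω(A)` -/
noncomputable def fAct (M : FMod A ω F) (α : G →* (A ≃⋆ₐ[ℂ] A)) (g : G) : F →⋆ₐ[ℂ] F :=
  (exists_fAct M α g).choose

theorem fAct_q (M : FMod A ω F) (α : G →* (A ≃⋆ₐ[ℂ] A)) (g : G) (x : CS A ω) :
    fAct M α g (M.q x) = M.q (csMap ω α g x) := (exists_fAct M α g).choose_spec x

theorem fAct_isAct (M : FMod A ω F) (α : G →* (A ≃⋆ₐ[ℂ] A)) : IsAct (fAct M α) := by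
  refine ⟨fun x => ?_, fun g h x => ?_⟩
  · obtain ⟨x, rfl⟩ := M.surj x
    rw [fAct_q]
    congr 1
    exact Subtype.ext (lp.ext (funext fun n => (extA_isAct α).one _))
  · obtain ⟨x, rfl⟩ := M.surj x
    rw [fAct_q, fAct_q, fAct_q]
    congr 1
    exact Subtype.ext (lp.ext (funext fun n => (extA_isAct α).mul _ _ _))

end

end Vale.Agent.P095
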