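import Vale.Agent.P095.NAct

/-! P095, module NSIG (helper49): the choice of the reindexing functions, nonunital case. -/

open scoped ENNReal Topology
open Filter

namespace Vale.Agent.P095

open Vale.Agent.P101K

universe u v w

/-- uniformly Lipschitz maps which tend to zero on a dense sequence tend to zero everywhere -/
theorem NSIG_approx {A : Type*} [NonUnitalCStarAlgebra A] {E : Type*} [SeminormedAddCommGroup E]
    {ω : Ultrafilter ℕ} (L : ℕ → A → E) (C : ℝ) (hC0 : 0 ≤ C)
    (hC : ∀ n a b, ‖L n a - L n b‖ ≤ C * ‖a - b‖) (d : ℕ → A) (hd : DenseRange d)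
    (h : ∀ r, Tendsto (fun n => ‖L n (d r)‖) ω (𝓝 0)) (a : A) :
    Tendsto (fun n => ‖L n a‖) ω (𝓝 0) := by
  rw [Metric.tendsto_nhds]
  intro ε hε
  obtain ⟨z, hz, r, rfl⟩ := Metric.dense_iff.mp hd a (ε / (2 * (C + 1))) (by positivity)
  have hz' : ‖a - d r‖ < ε / (2 * (C + 1)) := by
    rw [← dist_eq_norm, dist_comm]; exact Metric.mem_ball.mp hz
  filter_upwards [(h r).eventually_lt_const (half_pos hε)] with n hn
  have h1 := hC n a (d r)
  have h2 : C * ‖a - d r‖ ≤ ε / 2 := by
    have h3 : (C + 1) * ‖a - d r‖ ≤ (C + 1) * (ε / (2 * (C + 1))) :=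
      mul_le_mul_of_nonneg_left hz'.le (by positivity)
    have e2 : (C + 1) * (ε / (2 * (C + 1))) = ε / 2 := by
      field_simp
    nlinarith [norm_nonneg (a - d r)]
  have h4 : ‖L n a‖ ≤ ‖L n a - L n (d r)‖ + ‖L n (d r)‖ := by
    have := norm_add_le (L n a - L n (d r)) (L n (d r))
    rwa [sub_add_cancel] at this
  rw [Real.dist_0_eq_abs, abs_norm]
  linarith

theorem NSIG_comm {A : Type u} [NonUnitalCStarAlgebra A] (ω : Ultrafilter ℕ)
    (x : Bdd (UA A)) (hx : x ∈ CS A ω) (w : UA A) (a : A) :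
    Tendsto (fun n => ‖(x n * w - w * x n) * (a : UA A)‖) ω (𝓝 0) := by
  obtain ⟨c, hc⟩ : ∃ c : A, (c : UA A) = w * (a : UA A) := by
    refine ⟨(w * (a : UA A)).snd, ?_⟩
    refine Unitization.ext ?_ ?_
    · rw [Unitization.fst_inr, Unitization.fst_mul, Unitization.fst_inr, mul_zero]
    · rw [Unitization.snd_inr]
  have h1 := (hx c).add ((hx a).const_mul ‖w‖)
  rw [mul_zero, add_zero] at h1
  refine squeeze_zero (fun n => norm_nonneg _) (fun n => ?_) h1
  have e : (x n * w - w * x n) * (a : UA A)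
      = (x n * (c : UA A) - (c : UA A) * x n) - w * (x n * (a : UA A) - (a : UA A) * x n) := by
    rw [hc]
    noncomm_ring
  rw [e]
  exact (norm_sub_le _ _).trans (add_le_add le_rfl (norm_mul_le _ _))

theorem NSIG_main (A : Type u) [NonUnitalCStarAlgebra A]
    [TopologicalSpace.SeparableSpace A] (ω : Ultrafilter ℕ) (hω : (ω : Filter ℕ) ≤ atTop)
    (x y : ℕ → Bdd (UA A)) (hx : ∀ k, x k ∈ CS A ω)
    (hy : ∀ k (a : A), Tendsto (fun n => ‖y k n * (a : UA A)‖) ω (𝓝 0)) :
    ∃ σ : ℕ → ℕ → ℕ,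
      (∀ i k (a : A), Tendsto (fun n => ‖y k (σ i n) * (a : UA A)‖) ω (𝓝 0)) ∧
      (∀ i k (a : A), Tendsto (fun n => ‖x k (σ i n) * (a : UA A) - (a : UA A) * x k (σ i n)‖)
        ω (𝓝 0)) ∧
      ∀ i j k l, i ≠ j → ∀ a : A,
        Tendsto (fun n => ‖(x k (σ i n) * x l (σ j n) - x l (σ j n) * x k (σ i n)) * (a : UA A)‖)
          ω (𝓝 0) := by
  obtain ⟨d, hd⟩ := TopologicalSpace.exists_dense_seq A
  have hpos : ∀ n : ℕ, (0 : ℝ) < 1 / ((n : ℝ) + 1) := fun n => by positivity
  have hsel : ∀ n : ℕ, ∃ τ : ℕ → ℕ,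
      (∀ i < n, (∀ k ∈ Finset.range n, ∀ r ∈ Finset.range n,
          ‖y k (τ i) * (d r : UA A)‖ < 1 / ((n : ℝ) + 1)) ∧
        ∀ k ∈ Finset.range n, ∀ r ∈ Finset.range n,
          ‖x k (τ i) * (d r : UA A) - (d r : UA A) * x k (τ i)‖ < 1 / ((n : ℝ) + 1)) ∧
      ∀ i j, i < j → j < n → ∀ k ∈ Finset.range n, ∀ l ∈ Finset.range n, ∀ r ∈ Finset.range n,
        ‖(x k (τ j) * x l (τ i) - x l (τ i) * x k (τ j)) * (d r : UA A)‖
          < 1 / ((n : ℝ) + 1) := by
    intro n
    have hQ : ∀ᶠ m in (ω : Filter ℕ), (∀ k ∈ Finset.range n, ∀ r ∈ Finset.range n,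
          ‖y k m * (d r : UA A)‖ < 1 / ((n : ℝ) + 1)) ∧
        ∀ k ∈ Finset.range n, ∀ r ∈ Finset.range n,
          ‖x k m * (d r : UA A) - (d r : UA A) * x k m‖ < 1 / ((n : ℝ) + 1) := by
      refine Filter.Eventually.and ?_ ?_
      · rw [Finset.eventually_all]
        intro k _
        rw [Finset.eventually_all]
        intro r _
        exact (hy k (d r)).eventually_lt_const (hpos n)
      · rw [Finset.eventually_all]
        intro k _
        rw [Finset.eventually_all]
        intro r _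
        exact (hx k (d r)).eventually_lt_const (hpos n)
    have hR : ∀ a : ℕ, ∀ᶠ b in (ω : Filter ℕ), ∀ k ∈ Finset.range n, ∀ l ∈ Finset.range n,
        ∀ r ∈ Finset.range n,
        ‖(x k b * x l a - x l a * x k b) * (d r : UA A)‖ < 1 / ((n : ℝ) + 1) := by
      intro a
      rw [Finset.eventually_all]
      intro k _
      rw [Finset.eventually_all]
      intro l _
      rw [Finset.eventually_all]
      intro r _
      exact (NSIG_comm ω (x k) (hx k) (x l a) (d r)).eventually_lt_const (hpos n)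
    obtain ⟨τ, h1, h2⟩ := select ω _ hQ (fun a b => ∀ k ∈ Finset.range n, ∀ l ∈ Finset.range n,
        ∀ r ∈ Finset.range n,
        ‖(x k b * x l a - x l a * x k b) * (d r : UA A)‖ < 1 / ((n : ℝ) + 1)) hR n
    exact ⟨τ, h1, h2⟩
  choose τ hτ1 hτ2 using hsel
  have hlim : Tendsto (fun n : ℕ => 1 / ((n : ℝ) + 1)) (ω : Filter ℕ) (𝓝 0) :=
    tendsto_one_div_add_atTop_nhds_zero_nat.mono_left hω
  have hevt : ∀ N : ℕ, ∀ᶠ n in (ω : Filter ℕ), N < n := fun N =>
    hω (eventually_gt_atTop N)
  have hxn : ∀ k m, ‖x k m‖ ≤ ‖x k‖ := fun k m =>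
    lp.norm_apply_le_norm ENNReal.top_ne_zero (x k) m
  have hyn : ∀ k m, ‖y k m‖ ≤ ‖y k‖ := fun k m =>
    lp.norm_apply_le_norm ENNReal.top_ne_zero (y k) m
  have hinr : ∀ a b : A, (a : UA A) - (b : UA A) = ((a - b : A) : UA A) := fun a b => by
    rw [Unitization.inr_sub]
  have hnorm : ∀ a : A, ‖(a : UA A)‖ = ‖a‖ := fun a => Unitization.norm_inr (𝕜 := ℂ) a
  refine ⟨fun i n => τ n i, ?_, ?_, ?_⟩
  · intro i k a
    refine NSIG_approx (fun n (a : A) => y k (τ n i) * (a : UA A)) ‖y k‖ (norm_nonneg _) ?_ d hd ?_ a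
    · intro n a b
      rw [← mul_sub, hinr]
      refine (norm_mul_le _ _).trans ?_
      rw [hnorm]
      exact mul_le_mul_of_nonneg_right (hyn k _) (norm_nonneg _)
    · intro r
      refine squeeze_zero' (Filter.Eventually.of_forall fun n => norm_nonneg _) ?_ hlim
      filter_upwards [hevt (max i (max k r))] with n hn
      have hi : i < n := lt_of_le_of_lt (le_max_left _ _) hn
      have hk : k < n := lt_of_le_of_lt ((le_max_left _ _).trans (le_max_right _ _)) hn
      have hr : r < n := lt_of_le_of_lt ((le_max_right _ _).trans (le_max_right _ _)) hn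
      exact ((hτ1 n i hi).1 k (Finset.mem_range.mpr hk) r (Finset.mem_range.mpr hr)).le
  · intro i k a
    refine NSIG_approx (fun n (a : A) => x k (τ n i) * (a : UA A) - (a : UA A) * x k (τ n i))
      (2 * ‖x k‖) (by positivity) ?_ d hd ?_ a
    · intro n a b
      have e : x k (τ n i) * (a : UA A) - (a : UA A) * x k (τ n i)
          - (x k (τ n i) * (b : UA A) - (b : UA A) * x k (τ n i))
          = x k (τ n i) * ((a : UA A) - (b : UA A)) - ((a : UA A) - (b : UA A)) * x k (τ n i) := by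
        noncomm_ring
      rw [e, hinr]
      refine (norm_sub_le _ _).trans ?_
      have h1 : ‖x k (τ n i) * ((a - b : A) : UA A)‖ ≤ ‖x k‖ * ‖a - b‖ := by
        refine (norm_mul_le _ _).trans ?_
        rw [hnorm]
        exact mul_le_mul_of_nonneg_right (hxn k _) (norm_nonneg _)
      have h2 : ‖((a - b : A) : UA A) * x k (τ n i)‖ ≤ ‖x k‖ * ‖a - b‖ := by
        refine (norm_mul_le _ _).trans ?_
        rw [hnorm, mul_comm]
        exact mul_le_mul_of_nonneg_right (hxn k _) (norm_nonneg _)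
      linarith
    · intro r
      refine squeeze_zero' (Filter.Eventually.of_forall fun n => norm_nonneg _) ?_ hlim
      filter_upwards [hevt (max i (max k r))] with n hn
      have hi : i < n := lt_of_le_of_lt (le_max_left _ _) hn
      have hk : k < n := lt_of_le_of_lt ((le_max_left _ _).trans (le_max_right _ _)) hn
      have hr : r < n := lt_of_le_of_lt ((le_max_right _ _).trans (le_max_right _ _)) hn
      exact ((hτ1 n i hi).2 k (Finset.mem_range.mpr hk) r (Finset.mem_range.mpr hr)).le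
  · intro i j k l hij a
    refine NSIG_approx (fun n (a : A) =>
      (x k (τ n i) * x l (τ n j) - x l (τ n j) * x k (τ n i)) * (a : UA A))
      (2 * (‖x k‖ * ‖x l‖)) (by positivity) ?_ d hd ?_ a
    · intro n a b
      rw [← mul_sub, hinr]
      refine (norm_mul_le _ _).trans ?_
      rw [hnorm]
      refine mul_le_mul_of_nonneg_right ?_ (norm_nonneg _)
      refine (norm_sub_le _ _).trans ?_
      have h1 : ‖x k (τ n i) * x l (τ n j)‖ ≤ ‖x k‖ * ‖x l‖ :=
        (norm_mul_le _ _).trans (mul_le_mul (hxn k _) (hxn l _) (norm_nonneg _) (norm_nonneg _))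
      have h2 : ‖x l (τ n j) * x k (τ n i)‖ ≤ ‖x k‖ * ‖x l‖ := by
        refine (norm_mul_le _ _).trans ?_
        rw [mul_comm]
        exact mul_le_mul (hxn k _) (hxn l _) (norm_nonneg _) (norm_nonneg _)
      linarith
    · intro r
      refine squeeze_zero' (Filter.Eventually.of_forall fun n => norm_nonneg _) ?_ hlim
      filter_upwards [hevt (max (max i j) (max r (max k l)))] with n hn
      have hi : i < n := lt_of_le_of_lt ((le_max_left _ _).trans (le_max_left _ _)) hn
      have hj : j < n := lt_of_le_of_lt ((le_max_right _ _).trans (le_max_left _ _)) hn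
      have hr : r < n := lt_of_le_of_lt ((le_max_left _ _).trans (le_max_right _ _)) hn
      have hk : k < n := lt_of_le_of_lt
        (((le_max_left _ _).trans (le_max_right _ _)).trans (le_max_right _ _)) hn
      have hl : l < n := lt_of_le_of_lt
        (((le_max_right _ _).trans (le_max_right _ _)).trans (le_max_right _ _)) hn
      rcases lt_or_gt_of_ne hij with h | h
      · have := hτ2 n i j h hj l (Finset.mem_range.mpr hl) k (Finset.mem_range.mpr hk)
          r (Finset.mem_range.mpr hr)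
        rw [← norm_neg, ← neg_mul, neg_sub] at this
        exact this.le
      · exact (hτ2 n j i h hi k (Finset.mem_range.mpr hk) l (Finset.mem_range.mpr hl)
          r (Finset.mem_range.mpr hr)).le

end Vale.Agent.P095
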