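import Vale.Agent.P095.NAct
import Vale.Agent.P095.NSig

open scoped ENNReal Topology
open Filter

namespace Vale.Agent.P095

open Vale.Agent.P101K

universe u v w

/-- NSIG.  As `exists_sigma` (P101K/Cop.lean) with everything multiplied by elements of `A`.  For the
commutation: `[x k b, x l a'] d = [x k b, x l a' * d] - x l a' * [x k b, d]` and `x l a' * d ∈ A`. -/
theorem exists_sigmaN (A : Type u) [NonUnitalCStarAlgebra A]
    [TopologicalSpace.SeparableSpace A] (ω : Ultrafilter ℕ) (hω : (ω : Filter ℕ) ≤ atTop)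
    (x y : ℕ → Bdd (UA A)) (hx : ∀ k, x k ∈ CS A ω)
    (hy : ∀ k (a : A), Tendsto (fun n => ‖y k n * (a : UA A)‖) ω (𝓝 0)) :
    ∃ σ : ℕ → ℕ → ℕ,
      (∀ i k (a : A), Tendsto (fun n => ‖y k (σ i n) * (a : UA A)‖) ω (𝓝 0)) ∧
      (∀ i k (a : A), Tendsto (fun n => ‖x k (σ i n) * (a : UA A) - (a : UA A) * x k (σ i n)‖)
        ω (𝓝 0)) ∧
      ∀ i j k l, i ≠ j → ∀ a : A,
        Tendsto (fun n => ‖(x k (σ i n) * x l (σ j n) - x l (σ j n) * x k (σ i n)) * (a : UA A)‖)
          ω (𝓝 0) := by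
  exact NSIG_main A ω hω x y hx hy

theorem NCOP_comm {B F : Type*} [Ring B] [Algebra ℂ B] [StarRing B] [StarModule ℂ B] [Ring F]
    [Algebra ℂ F] [StarRing F] (L : Set B) (φ : StarAlgebra.adjoin ℂ L →⋆ₐ[ℂ] F) (u : F)
    (h : ∀ z (hz : z ∈ L), Commute (φ ⟨z, StarAlgebra.subset_adjoin ℂ L hz⟩) u ∧
      Commute (φ ⟨z, StarAlgebra.subset_adjoin ℂ L hz⟩) (star u)) (s : StarAlgebra.adjoin ℂ L) :
    Commute (φ s) u ∧ Commute (φ s) (star u) := by
  induction s using StarAlgebra.adjoin_induction_subtype with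
  | mem x hx => exact h x hx
  | algebraMap r =>
    rw [AlgHomClass.commutes]
    exact ⟨Algebra.commute_algebraMap_left r u, Algebra.commute_algebraMap_left r _⟩
  | add x y hx hy =>
    rw [map_add]
    exact ⟨hx.1.add_left hy.1, hx.2.add_left hy.2⟩
  | mul x y hx hy =>
    rw [map_mul]
    exact ⟨hx.1.mul_left hy.1, hx.2.mul_left hy.2⟩
  | star x hx =>
    rw [map_star]
    refine ⟨?_, hx.1.star_star⟩
    have := hx.2.star_star
    rwa [star_star] at this

/-- NCOP.  Equivariant commuting copies in the model `F` of `F_ω(A)`: adapt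
`fom_eqCopies` (FomCop.lean). -/
theorem f_eqCopies {A : Type u} [NonUnitalCStarAlgebra A]
    [TopologicalSpace.SeparableSpace A] {ω : Ultrafilter ℕ} (hω : (ω : Filter ℕ) ≤ atTop)
    {F : Type u} [CStarAlgebra F] (M : FMod A ω F)
    {G : Type v} [Group G] [Countable G] (α : G →* (A ≃⋆ₐ[ℂ] A)) : EqCopies (fAct M α) := by
  classical
  intro X hX
  have hlift : ∀ d : F, ∃ x : CS A ω, M.q x = d := M.surj
  choose lift hlift using hlift
  set L : Set (CS A ω) := ⋃ g : G, (fun d => csMap ω α g (lift d)) '' X with hL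
  have hLc : L.Countable := Set.countable_iUnion fun g => hX.image _
  have hmulG : ∀ g h (x : CS A ω), csMap ω α (g * h) x = csMap ω α g (csMap ω α h x) :=
    fun g h x => Subtype.ext (lp.ext (funext fun n => (extA_isAct α).mul _ _ _))
  have honeG : ∀ (x : CS A ω), csMap ω α 1 x = x :=
    fun x => Subtype.ext (lp.ext (funext fun n => (extA_isAct α).one _))
  -- invariance
  have hLinv : ∀ g, ∀ z ∈ L, csMap ω α g z ∈ L := by
    intro g z hz
    obtain ⟨h, d, hd, rfl⟩ := Set.mem_iUnion.1 hz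
    exact Set.mem_iUnion.2 ⟨g * h, d, hd, hmulG g h _⟩
  set L' : Set (CS A ω) := insert 0 (L ∪ (fun z => star z) '' L) with hL'
  have hL'c : L'.Countable := (hLc.union (hLc.image _)).insert 0
  obtain ⟨x, hx⟩ := hL'c.exists_eq_range ⟨0, Set.mem_insert _ _⟩
  -- the kernel
  let S : StarSubalgebra ℂ (CS A ω) := StarAlgebra.adjoin ℂ L
  let N : Submodule ℂ (CS A ω) :=
    { carrier := {s | s ∈ S ∧ M.q s = 0}
      add_mem' := fun {a b} ha hb => ⟨add_mem ha.1 hb.1, by rw [map_add, ha.2, hb.2, add_zero]⟩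
      zero_mem' := ⟨zero_mem _, map_zero _⟩
      smul_mem' := fun c a ha => ⟨S.smul_mem ha.1 c, by rw [map_smul, ha.2, smul_zero]⟩ }
  obtain ⟨y, hyN, hyspan⟩ := countable_span L hLc N (fun z hz => hz.1)
  obtain ⟨σ, hσ1, hσ2, hσ3⟩ := exists_sigmaN A ω hω (fun k => (x k : Bdd (UA A)))
    (fun k => (y k : Bdd (UA A))) (fun k => (x k).2) (fun k => (M.ker (y k)).1 (hyN k).2)
  have hf : ∀ i, ∃ f : Bdd (UA A) →⋆ₐ[ℂ] Bdd (UA A), ∀ a n, (f a) n = a (σ i n) :=
    fun i => exists_reidx (UA A) (σ i)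
  choose f hf using hf
  -- membership
  have hmemL' : ∀ i, ∀ z ∈ L', f i (z : Bdd (UA A)) ∈ CS A ω := by
    intro i z hz
    rw [hx] at hz
    obtain ⟨k, rfl⟩ := hz
    intro a
    have := hσ2 i k a
    simpa only [hf] using this
  have hmem : ∀ i, ∀ s ∈ S, f i (s : Bdd (UA A)) ∈ CS A ω := by
    intro i
    have h1 : S ≤ (CS A ω).comap ((f i).comp (CS A ω).subtype) := by
      refine StarAlgebra.adjoin_le fun z hz => ?_
      exact hmemL' i z (Set.mem_insert_of_mem _ (Set.mem_union_left _ hz))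
    exact fun s hs => h1 hs
  let ψ : ℕ → (S →⋆ₐ[ℂ] CS A ω) := fun i =>
    StarAlgHom.codRestrict (((f i).comp (CS A ω).subtype).comp S.subtype) (CS A ω)
      (fun s => hmem i s s.2)
  have hψ : ∀ i (s : S) (n : ℕ), (ψ i s : Bdd (UA A)) n = ((s : CS A ω) : Bdd (UA A)) (σ i n) := by
    intro i s n
    exact hf i _ n
  let φ : ℕ → (S →⋆ₐ[ℂ] F) := fun i => M.q.comp (ψ i)
  have hφ : ∀ i s, φ i s = M.q (ψ i s) := fun i s => rfl
  -- kernel
  have hker : ∀ i, ∀ s : S, M.q (s : CS A ω) = 0 → φ i s = 0 := by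
    intro i s h0
    rw [hφ, M.ker]
    intro a
    have h1 : (s : CS A ω) ∈ Submodule.span ℂ (Set.range y) := hyspan ⟨s.2, h0⟩
    have h2 : ∀ z ∈ Submodule.span ℂ (Set.range y),
        Tendsto (fun n => ‖((z : CS A ω) : Bdd (UA A)) (σ i n) * (a : UA A)‖) ω (𝓝 0) := by
      intro z hz
      induction hz using Submodule.span_induction with
      | mem z hz =>
        obtain ⟨k, rfl⟩ := hz
        exact hσ1 i k a
      | zero =>
        have e : (fun n => ‖((((0 : CS A ω) : Bdd (UA A))) (σ i n)) * (a : UA A)‖)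
            = fun _ => (0 : ℝ) := by
          funext n
          have : (((0 : CS A ω) : Bdd (UA A))) (σ i n) = 0 := rfl
          rw [this, zero_mul, norm_zero]
        rw [e]
        exact tendsto_const_nhds
      | add z w _ _ hz hw =>
        have h3 := hz.add hw
        rw [add_zero] at h3
        refine squeeze_zero (fun n => norm_nonneg _) (fun n => ?_) h3
        have e : ((z + w : CS A ω) : Bdd (UA A)) (σ i n)
            = (z : Bdd (UA A)) (σ i n) + (w : Bdd (UA A)) (σ i n) := rfl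
        rw [e, add_mul]
        exact norm_add_le _ _
      | smul c z _ hz =>
        have h3 := hz.const_mul ‖c‖
        rw [mul_zero] at h3
        refine squeeze_zero (fun n => norm_nonneg _) (fun n => ?_) h3
        have e : ((c • z : CS A ω) : Bdd (UA A)) (σ i n) = c • (z : Bdd (UA A)) (σ i n) := rfl
        rw [e, smul_mul_assoc, norm_smul]
    refine (h2 _ h1).congr fun n => ?_
    rw [hψ]
  -- commutation
  have hLS : ∀ z ∈ L, z ∈ S := fun z hz => StarAlgebra.subset_adjoin ℂ L hz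
  have hcL : ∀ i j, i ≠ j → ∀ (z w : S), (z : CS A ω) ∈ L' → (w : CS A ω) ∈ L' →
      Commute (φ i z) (φ j w) := by
    intro i j hij z w hz hw
    rw [hx] at hz hw
    obtain ⟨k, hk⟩ := hz
    obtain ⟨l, hl⟩ := hw
    have h1 : M.q (ψ i z * ψ j w - ψ j w * ψ i z) = 0 := by
      rw [M.ker]
      intro a
      refine (hσ3 i j k l hij a).congr fun n => ?_
      have e : ((ψ i z * ψ j w - ψ j w * ψ i z : CS A ω) : Bdd (UA A)) n
          = (ψ i z : Bdd (UA A)) n * (ψ j w : Bdd (UA A)) n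
            - (ψ j w : Bdd (UA A)) n * (ψ i z : Bdd (UA A)) n := rfl
      rw [e, hψ, hψ, ← hk, ← hl]
    rw [map_sub, map_mul, map_mul, sub_eq_zero] at h1
    exact h1
  have hLL' : ∀ z ∈ L, z ∈ L' := fun z hz => Set.mem_insert_of_mem _ (Set.mem_union_left _ hz)
  have hsLL' : ∀ z ∈ L, star z ∈ L' := fun z hz =>
    Set.mem_insert_of_mem _ (Set.mem_union_right _ ⟨z, hz, rfl⟩)
  have hc1 : ∀ i j, i ≠ j → ∀ (s : S) (w : CS A ω) (hw : w ∈ L),
      Commute (φ i s) (φ j ⟨w, hLS w hw⟩) ∧ Commute (φ i s) (star (φ j ⟨w, hLS w hw⟩)) := by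
    intro i j hij s w hw
    refine NCOP_comm L (φ i) _ (fun z hz => ⟨?_, ?_⟩) s
    · exact hcL i j hij _ _ (hLL' z hz) (hLL' w hw)
    · rw [← map_star]
      exact hcL i j hij _ _ (hLL' z hz) (hsLL' w hw)
  have hc2 : ∀ i j, i ≠ j → ∀ s t : S, Commute (φ i s) (φ j t) := by
    intro i j hij s t
    have h1 := NCOP_comm L (φ j) (φ i s) (fun z hz => ⟨?_, ?_⟩) t
    · exact h1.1.symm
    · exact (hc1 i j hij s z hz).1.symm
    · have h2 := (hc1 i j hij s z hz).2.star_star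
      rw [star_star] at h2
      exact h2.symm
  -- the algebra
  let C : StarSubalgebra ℂ F := S.map M.q
  have hρmem : ∀ s : S, M.q (s : CS A ω) ∈ C := fun s => ⟨s, s.2, rfl⟩
  let ρ : S →⋆ₐ[ℂ] C := StarAlgHom.codRestrict (M.q.comp S.subtype) C hρmem
  have hρ : ∀ s : S, ((ρ s : C) : F) = M.q (s : CS A ω) := fun s => rfl
  have hρs : Function.Surjective ρ := by
    rintro ⟨_, s, hs, rfl⟩
    exact ⟨⟨s, hs⟩, rfl⟩
  have hSinv : ∀ g, ∀ s ∈ S, csMap ω α g s ∈ S := by
    intro g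
    have h1 : S ≤ S.comap (csMap ω α g) :=
      StarAlgebra.adjoin_le fun d hd => StarAlgebra.subset_adjoin ℂ L (hLinv g d hd)
    exact fun d hd => h1 hd
  have hCinv : ∀ g, ∀ d ∈ C, fAct M α g d ∈ C := by
    rintro g _ ⟨s, hs, rfl⟩
    refine ⟨csMap ω α g s, hSinv g s hs, ?_⟩
    exact (fAct_q M α g s).symm
  have hθ : ∀ i, ∃ θ' : C →⋆ₐ[ℂ] F, ∀ s, θ' (ρ s) = φ i s := fun i =>
    star_factor ρ hρs (φ i) fun s hs => hker i s (by
      have := congrArg (fun c : C => (c : F)) hs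
      exact this)
  choose θ hθ using hθ
  refine ⟨C, hCinv, fun d hd => ?_, θ, fun i j hij s t => ?_, fun b => ?_, fun i h s => ?_⟩
  · have hd' : lift d ∈ L := Set.mem_iUnion.2 ⟨1, d, hd, honeG _⟩
    exact ⟨lift d, hLS _ hd', hlift d⟩
  · obtain ⟨s, rfl⟩ := hρs s
    obtain ⟨t, rfl⟩ := hρs t
    rw [hθ, hθ]
    exact hc2 i j hij s t
  · obtain ⟨s, rfl⟩ := hρs b
    refine ⟨‖((s : CS A ω) : Bdd (UA A))‖, fun i => ?_⟩
    rw [hθ, hφ]
    exact (NonUnitalStarAlgHom.norm_apply_le M.q (ψ i s)).trans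
      (NonUnitalStarAlgHom.norm_apply_le (f i) ((s : CS A ω) : Bdd (UA A)))
  · obtain ⟨s, rfl⟩ := hρs s
    have e1 : (⟨fAct M α h (ρ s : C), hCinv h _ (ρ s).2⟩ : C)
        = ρ ⟨csMap ω α h s, hSinv h s s.2⟩ := by
      refine Subtype.ext ?_
      exact fAct_q M α h s
    rw [hθ, e1, hθ, hφ, hφ, fAct_q]
    congr 1
    refine Subtype.ext (lp.ext (funext fun n => ?_))
    rw [csMap_apply, hψ, hψ, csMap_apply]

end Vale.Agent.P095
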