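import Vale.Agent.P101K.DimDrop

open Filter Topology

namespace Vale.Agent.P095

open Vale.Agent.P101K

universe u v w

/-- `x` is a bounded `ω`-central sequence in `A` whose class in `F_ω(A) = (A_ω ∩ A') / Ann(A)` is
fixed by `α h`, `h ∈ H` -/
def FixSeq (A : Type u) [NonUnitalCStarAlgebra A] (ω : Ultrafilter ℕ) {G : Type v} [Group G]
    (α : G →* (A ≃⋆ₐ[ℂ] A)) (H : Subgroup G) (x : ℕ → A) : Prop :=
  (∃ C : ℝ, ∀ n, ‖x n‖ ≤ C) ∧ (∀ a : A, Tendsto (fun n => ‖x n * a - a * x n‖) ω (𝓝 0)) ∧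
    ∀ h ∈ H, ∀ a : A, Tendsto (fun n => ‖(α h (x n) - x n) * a‖) ω (𝓝 0)

/-- the sequences `x` and `y` have the same class in `F_ω(A)` -/
def SeqEq (A : Type u) [NonUnitalCStarAlgebra A] (ω : Ultrafilter ℕ) (x y : ℕ → A) : Prop :=
  ∀ a : A, Tendsto (fun n => ‖(x n - y n) * a‖) ω (𝓝 0)

/-- `e` represents the unit of `F_ω(A)` -/
def SeqOne (A : Type u) [NonUnitalCStarAlgebra A] (ω : Ultrafilter ℕ) (e : ℕ → A) : Prop :=
  ∀ a : A, Tendsto (fun n => ‖e n * a - a‖) ω (𝓝 0)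

/-- `φ` is (a lift of) a unital *-homomorphism from `B` to the fixed point algebra
`F_ω(A)^(α|_H)`. -/
structure FixHom (A : Type u) [NonUnitalCStarAlgebra A] (ω : Ultrafilter ℕ) {G : Type v} [Group G]
    (α : G →* (A ≃⋆ₐ[ℂ] A)) (H : Subgroup G) {B : Type w} [Ring B]
    [StarRing B] [Algebra ℂ B] (φ : B → ℕ → A) : Prop where
  mem : ∀ b, FixSeq A ω α H (φ b)
  one : SeqOne A ω (φ 1)
  add : ∀ b c, SeqEq A ω (φ (b + c)) (fun n => φ b n + φ c n)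
  mul : ∀ b c, SeqEq A ω (φ (b * c)) (fun n => φ b n * φ c n)
  smul : ∀ (z : ℂ) b, SeqEq A ω (φ (z • b)) (fun n => z • φ b n)
  star : ∀ b, SeqEq A ω (φ (star b)) (fun n => Star.star (φ b n))

/-- `χ` is (a lift of) a character of the fixed point algebra `F_ω(A)^(α|_H)` -/
structure FixChar (A : Type u) [NonUnitalCStarAlgebra A] (ω : Ultrafilter ℕ) {G : Type v} [Group G]
    (α : G →* (A ≃⋆ₐ[ℂ] A)) (H : Subgroup G) (χ : (ℕ → A) → ℂ) : Prop where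
  congr : ∀ x y, FixSeq A ω α H x → FixSeq A ω α H y → SeqEq A ω x y → χ x = χ y
  one : ∀ e, FixSeq A ω α H e → SeqOne A ω e → χ e = 1
  add : ∀ x y, FixSeq A ω α H x → FixSeq A ω α H y → χ (fun n => x n + y n) = χ x + χ y
  mul : ∀ x y, FixSeq A ω α H x → FixSeq A ω α H y → χ (fun n => x n * y n) = χ x * χ y
  smul : ∀ (z : ℂ) x, FixSeq A ω α H x → χ (fun n => z • x n) = z * χ x
  star : ∀ x, FixSeq A ω α H x → χ (fun n => Star.star (x n)) = Star.star (χ x)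

/-- `α|_H` is equivariantly `𝒵`-stable: for all `k ≥ 2` there is a unital *-homomorphism
`Z_(k,k+1) → F_ω(A)^(α|_H)`.  (`H = ⊥`: `A` is `𝒵`-stable.) -/
def EqZ (A : Type u) [NonUnitalCStarAlgebra A] (ω : Ultrafilter ℕ) {G : Type v} [Group G]
    (α : G →* (A ≃⋆ₐ[ℂ] A)) (H : Subgroup G) : Prop :=
  ∀ k : ℕ, ∃ φ : DimDrop (Fin (k + 2)) (Fin (k + 3)) → ℕ → A, FixHom A ω α H φ

end Vale.Agent.P095
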