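import Vale.Agent.P095.NAct
import Vale.Agent.P095.Sat

open scoped ENNReal Topology
open Filter

namespace Vale.Agent.P095

open Vale.Agent.P101K

universe u v w

/-- the six relations -/
def nsatR {D : Type u} [Ring D] [StarRing D] (j : Fin 6) (z : Fin 5 → D) : D :=
  ![z 2 * z 2, z 2 * z 3 - (z 0 + z 1) * z 0, z 3 * z 2 - (z 0 + z 1) * z 1,
    z 0 * z 0 - (z 0 + z 1) * z 0, star (z 4) * z 4 - (1 - (z 0 + z 1)),
    z 0 * z 4 - z 4] j

theorem nsat_rel {D : Type u} [Ring D] [StarRing D] (z : Fin 5 → D) :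
    Rel z ↔ ∀ j, nsatR j z = 0 := by
  unfold Rel
  constructor
  · rintro ⟨h0, h1, h2, h3, h4, h5⟩ j
    fin_cases j
    · exact h0
    · exact sub_eq_zero.2 h1
    · exact sub_eq_zero.2 h2
    · exact sub_eq_zero.2 h3
    · exact sub_eq_zero.2 h4
    · exact sub_eq_zero.2 h5
  · intro h
    exact ⟨h 0, sub_eq_zero.1 (h 1), sub_eq_zero.1 (h 2), sub_eq_zero.1 (h 3),
      sub_eq_zero.1 (h 4), sub_eq_zero.1 (h 5)⟩

theorem nsat_map {D E : Type u} [Ring D] [StarRing D] [Algebra ℂ D] [Ring E] [StarRing E]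
    [Algebra ℂ E] (f : D →⋆ₐ[ℂ] E) (j : Fin 6) (z : Fin 5 → D) :
    f (nsatR j z) = nsatR j (fun i => f (z i)) := by
  fin_cases j
  · exact map_mul f _ _
  · show f (z 2 * z 3 - (z 0 + z 1) * z 0) = f (z 2) * f (z 3) - (f (z 0) + f (z 1)) * f (z 0)
    simp only [map_sub, map_mul, map_add]
  · show f (z 3 * z 2 - (z 0 + z 1) * z 1) = f (z 3) * f (z 2) - (f (z 0) + f (z 1)) * f (z 1)
    simp only [map_sub, map_mul, map_add]
  · show f (z 0 * z 0 - (z 0 + z 1) * z 0) = f (z 0) * f (z 0) - (f (z 0) + f (z 1)) * f (z 0)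
    simp only [map_sub, map_mul, map_add]
  · show f (star (z 4) * z 4 - (1 - (z 0 + z 1))) =
      star (f (z 4)) * f (z 4) - (1 - (f (z 0) + f (z 1)))
    simp only [map_sub, map_mul, map_add, map_star, map_one]
  · show f (z 0 * z 4 - z 4) = f (z 0) * f (z 4) - f (z 4)
    simp only [map_sub, map_mul]

section

variable {A : Type u} [NonUnitalCStarAlgebra A] {ω : Ultrafilter ℕ}

theorem nsat_apply (j : Fin 6) (x : Fin 5 → CS A ω) (n : ℕ) :
    ((nsatR j x : CS A ω) : Bdd (UA A)) n = nsatR j (fun i => (x i : Bdd (UA A)) n) := by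
  fin_cases j <;> rfl

theorem nsat_dense (a : ℕ → A) (ha : DenseRange a) (X : Bdd (UA A))
    (h : ∀ l, Tendsto (fun n => ‖X n * (a l : UA A)‖) ω (𝓝 0)) (b : A) :
    Tendsto (fun n => ‖X n * (b : UA A)‖) ω (𝓝 0) := by
  rw [Metric.tendsto_nhds]
  intro ε hε
  obtain ⟨k, hk⟩ := ha.exists_dist_lt b (show 0 < ε / (2 * (‖X‖ + 1)) by positivity)
  rw [dist_eq_norm] at hk
  have h1 := Metric.tendsto_nhds.1 (h k) (ε / 2) (by positivity)
  filter_upwards [h1] with n hn
  rw [Real.dist_eq, sub_zero, abs_of_nonneg (norm_nonneg _)] at hn ⊢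
  have e : X n * (b : UA A) = X n * (a k : UA A) + X n * ((b - a k : A) : UA A) := by
    rw [Unitization.inr_sub]
    noncomm_ring
  rw [e]
  have h2 : ‖X n * ((b - a k : A) : UA A)‖ ≤ ‖X‖ * (ε / (2 * (‖X‖ + 1))) := by
    refine (norm_mul_le _ _).trans ?_
    rw [Unitization.norm_inr]
    exact mul_le_mul (aom_apply_le X n) hk.le (norm_nonneg _) (norm_nonneg _)
  have h3 : ‖X‖ * (ε / (2 * (‖X‖ + 1))) ≤ ε / 2 := by
    rw [mul_div_assoc', div_le_div_iff₀ (by positivity) (by positivity)]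
    nlinarith [norm_nonneg X]
  have h4 := norm_add_le (X n * (a k : UA A)) (X n * ((b - a k : A) : UA A))
  linarith

theorem nsat_dense' (a : ℕ → A) (ha : DenseRange a) (X : Bdd (UA A))
    (h : ∀ l, Tendsto (fun n => ‖X n * (a l : UA A) - (a l : UA A) * X n‖) ω (𝓝 0)) (b : A) :
    Tendsto (fun n => ‖X n * (b : UA A) - (b : UA A) * X n‖) ω (𝓝 0) := by
  rw [Metric.tendsto_nhds]
  intro ε hε
  obtain ⟨k, hk⟩ := ha.exists_dist_lt b (show 0 < ε / (4 * (‖X‖ + 1)) by positivity)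
  rw [dist_eq_norm] at hk
  have h1 := Metric.tendsto_nhds.1 (h k) (ε / 2) (by positivity)
  filter_upwards [h1] with n hn
  rw [Real.dist_eq, sub_zero, abs_of_nonneg (norm_nonneg _)] at hn ⊢
  have e : X n * (b : UA A) - (b : UA A) * X n = (X n * (a k : UA A) - (a k : UA A) * X n)
      + (X n * ((b - a k : A) : UA A) - ((b - a k : A) : UA A) * X n) := by
    rw [Unitization.inr_sub]
    noncomm_ring
  rw [e]
  have h2 : ‖X n * ((b - a k : A) : UA A)‖ ≤ ‖X‖ * (ε / (4 * (‖X‖ + 1))) := by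
    refine (norm_mul_le _ _).trans ?_
    rw [Unitization.norm_inr]
    exact mul_le_mul (aom_apply_le X n) hk.le (norm_nonneg _) (norm_nonneg _)
  have h2' : ‖((b - a k : A) : UA A) * X n‖ ≤ ‖X‖ * (ε / (4 * (‖X‖ + 1))) := by
    refine (norm_mul_le _ _).trans ?_
    rw [Unitization.norm_inr, mul_comm]
    exact mul_le_mul (aom_apply_le X n) hk.le (norm_nonneg _) (norm_nonneg _)
  have h3 : ‖X‖ * (ε / (4 * (‖X‖ + 1))) ≤ ε / 4 := by
    rw [mul_div_assoc', div_le_div_iff₀ (by positivity) (by positivity)]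
    nlinarith [norm_nonneg X]
  have h4 := norm_add_le (X n * (a k : UA A) - (a k : UA A) * X n)
    (X n * ((b - a k : A) : UA A) - ((b - a k : A) : UA A) * X n)
  have h5 := norm_sub_le (X n * ((b - a k : A) : UA A)) (((b - a k : A) : UA A) * X n)
  linarith

/-- the countable index set of the conditions -/
abbrev NIx : Type := (Fin 6 × ℕ) ⊕ (Fin 5 × ℕ) ⊕ (Fin 5 × ℕ × ℕ)

noncomputable def nsatF {G : Type v} [Group G] (α : G →* (A ≃⋆ₐ[ℂ] A))
    (a : ℕ → A) (γ : ℕ → G) : NIx → (Fin 5 → UA A) → ℝ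
  | Sum.inl (j, l), z => ‖nsatR j z * (a l : UA A)‖
  | Sum.inr (Sum.inl (i, l)), z => ‖z i * (a l : UA A) - (a l : UA A) * z i‖
  | Sum.inr (Sum.inr (i, k, l)), z => ‖(extA α (γ k) (z i) - z i) * (a l : UA A)‖

theorem nsat_coe {D : Type u} [Ring D] [StarRing D] [Algebra ℂ D] [StarModule ℂ D]
    (S : StarSubalgebra ℂ D) (z : Fin 5 → S) : Rel z ↔ Rel (fun i => (z i : D)) := by
  unfold Rel
  simp only [← Subtype.coe_inj]
  rfl

end

/-- NSAT.  As `sat` (Sat.lean): `exists_rel`, lifts of norm `≤ 2` (`M.lift`), conditions multiplied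
by the elements of a dense sequence of `A`, `sat_seq` in the unitization, `rel_no_char`. -/
theorem satN {A : Type u} [NonUnitalCStarAlgebra A] [TopologicalSpace.SeparableSpace A]
    {ω : Ultrafilter ℕ} (hω : (ω : Filter ℕ) ≤ atTop) {F : Type u} [CStarAlgebra F] [Nontrivial F]
    (M : FMod A ω F) {G : Type v} [Group G] [Countable G]
    (α : G →* (A ≃⋆ₐ[ℂ] A)) (hC : ∀ K : Set G, HasCopies (fixAlg (fAct M α) K))
    (h : ∀ S : Finset G, ∃ K : Set G, (S : Set G) ⊆ K ∧
      IsEmpty (fixAlg (fAct M α) K →⋆ₐ[ℂ] ℂ)) :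
    IsEmpty (fixAlg (fAct M α) Set.univ →⋆ₐ[ℂ] ℂ) := by
  classical
  set a : ℕ → A := TopologicalSpace.denseSeq A with ha
  have had : DenseRange a := TopologicalSpace.denseRange_denseSeq A
  obtain ⟨γ, hγ⟩ := exists_surjective_nat G
  set f : ℕ → (Fin 5 → UA A) → ℝ := fun j z =>
    (Encodable.decode (α := NIx) j).elim 0 (fun i => nsatF α a γ i z) with hf
  have hfe : ∀ i z, f (Encodable.encode i) z = nsatF α a γ i z := by
    intro i z
    rw [hf]
    simp only [Encodable.encodek, Option.elim]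
  have key : ∀ N : ℕ, ∃ z : ℕ → Fin 5 → UA A, (∀ n i, ‖z n i‖ ≤ 2) ∧
      ∀ j ≤ N, Tendsto (fun n => f j (z n)) ω (𝓝 0) := by
    intro N
    set S : Finset G := (Finset.range (N + 1)).image (fun j =>
      (Encodable.decode (α := NIx) j).elim 1
        (fun i => match i with
          | Sum.inr (Sum.inr (_, k, _)) => γ k
          | _ => 1)) with hS
    obtain ⟨K, hSK, hK⟩ := h S
    obtain ⟨w, hw, hw1⟩ := exists_rel (hC K) hK
    have hl : ∀ i, ∃ y : CS A ω, M.q y = (w i : F) ∧ ‖(y : Bdd (UA A))‖ ≤ 2 :=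
      fun i => M.lift _ 2 (lt_of_le_of_lt (hw1 i) one_lt_two)
    choose y hy hy2 using hl
    refine ⟨fun n i => (y i : Bdd (UA A)) n, fun n i => (aom_apply_le _ n).trans (hy2 i),
      fun j hj => ?_⟩
    have hrel : Rel (fun i => M.q (y i)) := by
      simp only [hy]
      exact (nsat_coe _ _).1 hw
    rw [nsat_rel] at hrel
    simp only [hf]
    cases hd : (Encodable.decode (α := NIx) j) with
    | none => exact tendsto_const_nhds
    | some i =>
      simp only [Option.elim]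
      rcases i with ⟨i, l⟩ | ⟨i, l⟩ | ⟨i, k, l⟩
      · have h1 := hrel i
        rw [← nsat_map M.q, M.ker] at h1
        refine (h1 (a l)).congr fun n => ?_
        rw [nsat_apply]
        rfl
      · exact (y i).2 (a l)
      · have hk : γ k ∈ K := by
          apply hSK
          rw [hS, Finset.coe_image]
          refine ⟨j, Finset.mem_coe.2 (Finset.mem_range.2 (Nat.lt_succ_of_le hj)), ?_⟩
          simp only [hd, Option.elim]
        have h1 := (w i).2
        rw [mem_fixAlg] at h1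
        have h2 := h1 (γ k) hk
        rw [← hy, fAct_q, ← sub_eq_zero, ← map_sub, M.ker] at h2
        exact h2 (a l)
  obtain ⟨z, hz, hzf⟩ := sat_seq ω hω f 2 key
  have hb : ∀ i, Memℓp (fun n => z n i) ∞ := fun i =>
    memℓp_infty ⟨2, by rintro _ ⟨n, rfl⟩; exact hz n i⟩
  set x0 : Fin 5 → Bdd (UA A) := fun i => ⟨fun n => z n i, hb i⟩ with hx0
  have hcs : ∀ i, x0 i ∈ CS A ω := by
    intro i
    refine nsat_dense' a had (x0 i) fun l => ?_
    have := hzf (Encodable.encode (Sum.inr (Sum.inl (i, l)) : NIx))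
    simp only [hfe] at this
    exact this
  set x : Fin 5 → CS A ω := fun i => ⟨x0 i, hcs i⟩ with hx
  have hrel : Rel (fun i => M.q (x i)) := by
    rw [nsat_rel]
    intro j
    rw [← nsat_map M.q, M.ker]
    refine nsat_dense a had _ fun l => ?_
    have := hzf (Encodable.encode (Sum.inl (j, l) : NIx))
    simp only [hfe] at this
    refine this.congr fun n => ?_
    rw [nsat_apply]
    rfl
  have hfix : ∀ i, M.q (x i) ∈ fixAlg (fAct M α) Set.univ := by
    intro i g _
    obtain ⟨k, rfl⟩ := hγ g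
    rw [fAct_q, ← sub_eq_zero, ← map_sub, M.ker]
    refine nsat_dense a had _ fun l => ?_
    have := hzf (Encodable.encode (Sum.inr (Sum.inr (i, k, l)) : NIx))
    simp only [hfe] at this
    exact this
  exact rel_no_char (fun i => (⟨M.q (x i), hfix i⟩ : fixAlg (fAct M α) Set.univ))
    ((nsat_coe _ _).2 hrel)

end Vale.Agent.P095
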