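import Vale.Agent.P095.NRep

open scoped ENNReal Topology
open Filter

namespace Vale.Agent.P095

open Vale.Agent.P101K

universe u v w

section

variable {A : Type u} [NonUnitalCStarAlgebra A] {ω : Ultrafilter ℕ} {F : Type u} [CStarAlgebra F]
  {G : Type v} [Group G]

theorem nta_q_eq (M : FMod A ω F) (u v : CS A ω)
    (h : ∀ a : A, Tendsto (fun n => ‖((u : Bdd (UA A)) n - (v : Bdd (UA A)) n) * (a : UA A)‖) ω
      (𝓝 0)) : M.q u = M.q v := by
  rw [← sub_eq_zero, ← map_sub, M.ker]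
  exact h

/-- NTA. -/
theorem fixHom_to (M : FMod A ω F) (α : G →* (A ≃⋆ₐ[ℂ] A)) (H : Subgroup G)
    {B : Type w} [Ring B] [StarRing B] [Algebra ℂ B] (φ : B → ℕ → A) (hφ : FixHom A ω α H φ) :
    Nonempty (B →⋆ₐ[ℂ] fixAlg (fAct M α) (H : Set G)) := by
  have hn : ∀ (x : A) (y : UA A) (a : A), y = (x : UA A) →
      ‖y * (a : UA A)‖ = ‖x * a‖ := by
    rintro x y a rfl
    rw [← Unitization.inr_mul, Unitization.norm_inr]
  let cs : B → CS A ω := fun b => csOf (φ b) (hφ.mem b).cenS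
  have hcs : ∀ b n, ((cs b : CS A ω) : Bdd (UA A)) n = (φ b n : UA A) := fun b n => rfl
  have hadd : ∀ b c, M.q (cs (b + c)) = M.q (cs b) + M.q (cs c) := by
    intro b c
    rw [← map_add]
    refine nta_q_eq M _ _ fun a => (hφ.add b c a).congr fun n => (hn _ _ a ?_).symm
    have h1 : ((cs b + cs c : CS A ω) : Bdd (UA A)) n = (φ b n : UA A) + (φ c n : UA A) := rfl
    rw [h1, hcs, Unitization.inr_sub, Unitization.inr_add]
  have hmul : ∀ b c, M.q (cs (b * c)) = M.q (cs b) * M.q (cs c) := by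
    intro b c
    rw [← map_mul]
    refine nta_q_eq M _ _ fun a => (hφ.mul b c a).congr fun n => (hn _ _ a ?_).symm
    have h1 : ((cs b * cs c : CS A ω) : Bdd (UA A)) n = (φ b n : UA A) * (φ c n : UA A) := rfl
    rw [h1, hcs, Unitization.inr_sub, Unitization.inr_mul]
  have hsmul : ∀ (z : ℂ) b, M.q (cs (z • b)) = z • M.q (cs b) := by
    intro z b
    rw [← map_smul]
    refine nta_q_eq M _ _ fun a => (hφ.smul z b a).congr fun n => (hn _ _ a ?_).symm
    have h1 : ((z • cs b : CS A ω) : Bdd (UA A)) n = z • (φ b n : UA A) := rfl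
    rw [h1, hcs, Unitization.inr_sub, Unitization.inr_smul]
  have hstar : ∀ b, M.q (cs (star b)) = star (M.q (cs b)) := by
    intro b
    rw [← map_star]
    refine nta_q_eq M _ _ fun a => (hφ.star b a).congr fun n => (hn _ _ a ?_).symm
    have h1 : ((star (cs b) : CS A ω) : Bdd (UA A)) n = star (φ b n : UA A) := rfl
    rw [h1, hcs, Unitization.inr_sub, Unitization.inr_star]
  have hone : M.q (cs 1) = 1 := (q_csOf_one M _ _).2 hφ.one
  have hmem : ∀ b, M.q (cs b) ∈ fixAlg (fAct M α) (H : Set G) :=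
    fun b => (q_csOf_mem M α H _ _).2 (hφ.mem b)
  have hzero : M.q (cs 0) = 0 := by
    have := hsmul 0 0
    rwa [zero_smul, zero_smul] at this
  exact ⟨{ toFun := fun b => ⟨M.q (cs b), hmem b⟩
           map_one' := Subtype.ext hone
           map_mul' := fun b c => Subtype.ext (hmul b c)
           map_zero' := Subtype.ext hzero
           map_add' := fun b c => Subtype.ext (hadd b c)
           commutes' := fun r => Subtype.ext (by
             show M.q (cs (algebraMap ℂ B r)) = algebraMap ℂ F r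
             rw [Algebra.algebraMap_eq_smul_one, Algebra.algebraMap_eq_smul_one, hsmul, hone])
           map_star' := fun b => Subtype.ext (hstar b) }⟩

theorem NTB_of (z : CS A ω) (w : ℕ → A) (h : ∀ n, (z : Bdd (UA A)) n = (w n : UA A)) :
    ∃ hw : CenS A ω w, csOf w hw = z := by
  have hw : CenS A ω w := by
    refine ⟨⟨‖(z : Bdd (UA A))‖, fun n => ?_⟩, fun a => ?_⟩
    · rw [← Unitization.norm_inr (𝕜 := ℂ) (w n), ← h n]
      exact aom_apply_le (z : Bdd (UA A)) n
    · refine (z.2 a).congr fun n => ?_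
      rw [h n, ← Unitization.inr_mul, ← Unitization.inr_mul, ← Unitization.inr_sub,
        Unitization.norm_inr]
  refine ⟨hw, Subtype.ext (lp.ext (funext fun n => ?_))⟩
  rw [csOf_apply, h n]

theorem NTB_add {x y : ℕ → A} (hx : CenS A ω x) (hy : CenS A ω y) :
    ∃ hw : CenS A ω (fun n => x n + y n), csOf _ hw = csOf x hx + csOf y hy := by
  refine NTB_of _ _ fun n => ?_
  rw [Unitization.inr_add]
  rfl

theorem NTB_mul {x y : ℕ → A} (hx : CenS A ω x) (hy : CenS A ω y) :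
    ∃ hw : CenS A ω (fun n => x n * y n), csOf _ hw = csOf x hx * csOf y hy := by
  refine NTB_of _ _ fun n => ?_
  rw [Unitization.inr_mul]
  rfl

theorem NTB_smul (z : ℂ) {x : ℕ → A} (hx : CenS A ω x) :
    ∃ hw : CenS A ω (fun n => z • x n), csOf _ hw = z • csOf x hx := by
  refine NTB_of _ _ fun n => ?_
  rw [Unitization.inr_smul]
  rfl

theorem NTB_star {x : ℕ → A} (hx : CenS A ω x) :
    ∃ hw : CenS A ω (fun n => star (x n)), csOf _ hw = star (csOf x hx) := by
  refine NTB_of _ _ fun n => ?_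
  rw [Unitization.inr_star]
  rfl

/-- NTB. -/
theorem to_fixHom [TopologicalSpace.SeparableSpace A] (hω : (ω : Filter ℕ) ≤ atTop)
    (M : FMod A ω F) (α : G →* (A ≃⋆ₐ[ℂ] A)) (H : Subgroup G)
    {B : Type w} [Ring B] [StarRing B] [Algebra ℂ B]
    (Θ : B →⋆ₐ[ℂ] fixAlg (fAct M α) (H : Set G)) : ∃ φ : B → ℕ → A, FixHom A ω α H φ := by
  choose x hx hq using fun b : B => exists_rep hω M ((Θ b : fixAlg (fAct M α) (H : Set G)) : F)
  refine ⟨x, fun b => ?_, ?_, fun b c => ?_, fun b c => ?_, fun z b => ?_, fun b => ?_⟩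
  · rw [← q_csOf_mem M α H _ (hx b), hq]
    exact (Θ b).2
  · rw [← q_csOf_one M _ (hx 1), hq, map_one]
    rfl
  · obtain ⟨hw, e⟩ := NTB_add (hx b) (hx c)
    rw [← q_csOf_eq M _ _ (hx (b + c)) hw, e, map_add, hq, hq, hq, map_add]
    rfl
  · obtain ⟨hw, e⟩ := NTB_mul (hx b) (hx c)
    rw [← q_csOf_eq M _ _ (hx (b * c)) hw, e, map_mul, hq, hq, hq, map_mul]
    rfl
  · obtain ⟨hw, e⟩ := NTB_smul z (hx b)
    rw [← q_csOf_eq M _ _ (hx (z • b)) hw, e, map_smul, hq, hq, map_smul]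
    rfl
  · obtain ⟨hw, e⟩ := NTB_star (hx b)
    rw [← q_csOf_eq M _ _ (hx (star b)) hw, e, map_star, hq, hq, map_star]
    rfl

theorem NTB_mem (M : FMod A ω F) (α : G →* (A ≃⋆ₐ[ℂ] A)) (H : Subgroup G) {x : ℕ → A}
    (hx : FixSeq A ω α H x) : M.q (csOf x hx.cenS) ∈ fixAlg (fAct M α) (H : Set G) :=
  (q_csOf_mem M α H x hx.cenS).2 hx

/-- NCA. -/
theorem fixChar_to [TopologicalSpace.SeparableSpace A] (hω : (ω : Filter ℕ) ≤ atTop)
    (M : FMod A ω F) (α : G →* (A ≃⋆ₐ[ℂ] A)) (H : Subgroup G) (χ : (ℕ → A) → ℂ)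
    (hχ : FixChar A ω α H χ) : Nonempty (fixAlg (fAct M α) (H : Set G) →⋆ₐ[ℂ] ℂ) := by
  choose x hx hq using fun b : fixAlg (fAct M α) (H : Set G) => exists_rep hω M (b : F)
  have hfix : ∀ b, FixSeq A ω α H (x b) := fun b => by
    rw [← q_csOf_mem M α H _ (hx b), hq]
    exact b.2
  have key : ∀ (b : fixAlg (fAct M α) (H : Set G)) (w : ℕ → A) (hw : CenS A ω w),
      M.q (csOf w hw) = (b : F) → χ (x b) = χ w := by
    intro b w hw e
    refine hχ.congr _ _ (hfix b) ?_ ?_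
    · rw [← q_csOf_mem M α H _ hw, e]
      exact b.2
    · rw [← q_csOf_eq M _ _ (hx b) hw, hq, e]
  have hone : χ (x 1) = 1 := by
    refine hχ.one _ (hfix 1) ?_
    rw [← q_csOf_one M _ (hx 1), hq]
    rfl
  have hadd : ∀ b c, χ (x (b + c)) = χ (x b) + χ (x c) := by
    intro b c
    obtain ⟨hw, e⟩ := NTB_add (hx b) (hx c)
    rw [key (b + c) _ hw (by rw [e, map_add, hq, hq]; rfl)]
    exact hχ.add _ _ (hfix b) (hfix c)
  have hmul : ∀ b c, χ (x (b * c)) = χ (x b) * χ (x c) := by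
    intro b c
    obtain ⟨hw, e⟩ := NTB_mul (hx b) (hx c)
    rw [key (b * c) _ hw (by rw [e, map_mul, hq, hq]; rfl)]
    exact hχ.mul _ _ (hfix b) (hfix c)
  have hsmul : ∀ (z : ℂ) b, χ (x (z • b)) = z * χ (x b) := by
    intro z b
    obtain ⟨hw, e⟩ := NTB_smul z (hx b)
    rw [key (z • b) _ hw (by rw [e, map_smul, hq]; rfl)]
    exact hχ.smul _ _ (hfix b)
  have hstar : ∀ b, χ (x (star b)) = star (χ (x b)) := by
    intro b
    obtain ⟨hw, e⟩ := NTB_star (hx b)
    rw [key (star b) _ hw (by rw [e, map_star, hq]; rfl)]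
    exact hχ.star _ (hfix b)
  refine ⟨{ toFun := fun b => χ (x b)
            map_one' := hone
            map_mul' := hmul
            map_zero' := ?_
            map_add' := hadd
            commutes' := fun r => ?_
            map_star' := hstar }⟩
  · have := hsmul 0 0
    rwa [zero_smul, zero_mul] at this
  · show χ (x (algebraMap ℂ _ r)) = _
    rw [Algebra.algebraMap_eq_smul_one, hsmul, hone, mul_one]
    rfl

/-- NCB. -/
theorem to_fixChar (M : FMod A ω F) (α : G →* (A ≃⋆ₐ[ℂ] A)) (H : Subgroup G)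
    (Θ : fixAlg (fAct M α) (H : Set G) →⋆ₐ[ℂ] ℂ) : ∃ χ : (ℕ → A) → ℂ, FixChar A ω α H χ := by
  classical
  let χ : (ℕ → A) → ℂ := fun x =>
    if h : FixSeq A ω α H x then Θ ⟨M.q (csOf x h.cenS), NTB_mem M α H h⟩ else 0
  have hval : ∀ {x : ℕ → A} (h : FixSeq A ω α H x) (b : fixAlg (fAct M α) (H : Set G)),
      M.q (csOf x h.cenS) = (b : F) → χ x = Θ b := by
    intro x h b e
    show (if h : FixSeq A ω α H x then Θ ⟨M.q (csOf x h.cenS), NTB_mem M α H h⟩ else 0) = _
    rw [dif_pos h]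
    exact congrArg Θ (Subtype.ext e)
  refine ⟨χ, fun x y hx hy e => ?_, fun e he h1 => ?_, fun x y hx hy => ?_, fun x y hx hy => ?_,
    fun z x hx => ?_, fun x hx => ?_⟩
  · rw [hval hx ⟨_, NTB_mem M α H hy⟩ ((q_csOf_eq M _ _ hx.cenS hy.cenS).2 e),
      hval hy ⟨_, NTB_mem M α H hy⟩ rfl]
  · rw [hval he 1 ((q_csOf_one M _ he.cenS).2 h1), map_one]
  · obtain ⟨hw, e⟩ := NTB_add hx.cenS hy.cenS
    have hmem : FixSeq A ω α H (fun n => x n + y n) := by
      rw [← q_csOf_mem M α H _ hw, e, map_add]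
      exact add_mem (NTB_mem M α H hx) (NTB_mem M α H hy)
    rw [hval hx ⟨_, NTB_mem M α H hx⟩ rfl, hval hy ⟨_, NTB_mem M α H hy⟩ rfl, ← map_add]
    exact hval hmem _ ((congrArg M.q e).trans (map_add M.q _ _))
  · obtain ⟨hw, e⟩ := NTB_mul hx.cenS hy.cenS
    have hmem : FixSeq A ω α H (fun n => x n * y n) := by
      rw [← q_csOf_mem M α H _ hw, e, map_mul]
      exact mul_mem (NTB_mem M α H hx) (NTB_mem M α H hy)
    rw [hval hx ⟨_, NTB_mem M α H hx⟩ rfl, hval hy ⟨_, NTB_mem M α H hy⟩ rfl, ← map_mul]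
    exact hval hmem _ ((congrArg M.q e).trans (map_mul M.q _ _))
  · obtain ⟨hw, e⟩ := NTB_smul z hx.cenS
    have hmem : FixSeq A ω α H (fun n => z • x n) := by
      rw [← q_csOf_mem M α H _ hw, e, map_smul]
      exact SMulMemClass.smul_mem z (NTB_mem M α H hx)
    rw [hval hx ⟨_, NTB_mem M α H hx⟩ rfl, ← smul_eq_mul, ← map_smul]
    exact hval hmem _ ((congrArg M.q e).trans (map_smul M.q _ _))
  · obtain ⟨hw, e⟩ := NTB_star hx.cenS
    have hmem : FixSeq A ω α H (fun n => star (x n)) := by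
      rw [← q_csOf_mem M α H _ hw, e, map_star]
      exact star_mem (NTB_mem M α H hx)
    rw [hval hx ⟨_, NTB_mem M α H hx⟩ rfl, ← map_star]
    exact hval hmem _ ((congrArg M.q e).trans (map_star M.q _))

end

end Vale.Agent.P095
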