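import Vale.Agent.P095.Step
import Vale.Agent.P095.NCop
import Vale.Agent.P095.NSat
import Vale.Agent.P095.NTr
import Vale.Agent.P101K.Final
import Vale.Agent.P101K.NoChar

open scoped ENNReal Topology
open Filter

namespace Vale.Agent.P095

open Vale.Agent.P101K

universe u v w

section

variable {A : Type u} [NonUnitalCStarAlgebra A] [Nontrivial A] [TopologicalSpace.SeparableSpace A]
  {ω : Ultrafilter ℕ} (hω : (ω : Filter ℕ) ≤ atTop) {F : Type u} [CStarAlgebra F]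
  (M : FMod A ω F) {G : Type v} [Group G] [Countable G] (α : G →* (A ≃⋆ₐ[ℂ] A))

omit [TopologicalSpace.SeparableSpace A] in
include M in
theorem fmod_nontrivial : Nontrivial F := by
  refine ⟨⟨1, 0, fun h => ?_⟩⟩
  rw [← map_one M.q, M.ker] at h
  obtain ⟨a, ha⟩ := exists_ne (0 : A)
  have h1 := h a
  have h2 : (fun n : ℕ => ‖((1 : CS A ω) : Bdd (UA A)) n * (a : UA A)‖) = fun _ => ‖a‖ := by
    funext n
    have h3 : ((1 : CS A ω) : Bdd (UA A)) n = 1 := rfl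
    rw [h3, one_mul, Unitization.norm_inr]
  rw [h2] at h1
  exact ha (norm_eq_zero.1 (tendsto_nhds_unique tendsto_const_nhds h1))

include hω M

theorem eqZN_iff (H : Subgroup G) :
    EqZ A ω α H ↔ IsEmpty (fixAlg (fAct M α) (H : Set G) →⋆ₐ[ℂ] ℂ) := by
  have := fmod_nontrivial M
  constructor
  · intro h
    obtain ⟨φ, h1⟩ := h 0
    obtain ⟨Θ⟩ := fixHom_to M α H φ h1
    exact ⟨fun χ => (dimdrop_no_char (Fin 2) (Fin 3)).false (χ.comp Θ)⟩
  · intro h k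
    obtain ⟨Θ⟩ := dimdrop_of_no_char (hasCopies_fix _ (f_eqCopies hω M α) _) h k
    exact to_fixHom hω M α H Θ

theorem eqZN_char (H : Subgroup G) :
    EqZ A ω α H ↔ ¬ ∃ χ : (ℕ → A) → ℂ, FixChar A ω α H χ := by
  rw [eqZN_iff hω M α H]
  constructor
  · rintro h ⟨χ, hχ⟩
    obtain ⟨Θ⟩ := fixChar_to hω M α H χ hχ
    exact h.false Θ
  · intro h
    exact ⟨fun Θ => h (to_fixChar M α H Θ)⟩

theorem mainN_red (h : ∀ S : Finset G, ∃ K H : Subgroup G, (S : Set G) ⊆ K ∧ H ≤ K ∧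
      H.relIndex K ≠ 0 ∧ EqZ A ω α H) : EqZ A ω α ⊤ := by
  have := fmod_nontrivial M
  rw [eqZN_iff hω M]
  have hE := f_eqCopies hω M α
  have h2 := satN hω M α (fun K => hasCopies_fix _ hE K) (fun S => by
    obtain ⟨K, H, h1, h2, h3, h4⟩ := h S
    refine ⟨K, h1, ?_⟩
    exact fin_step (fAct_isAct M α) hE H K h2 h3 ((eqZN_iff hω M α H).1 h4))
  simpa using h2

theorem mainN_lf (hG : ∀ S : Finset G, (Subgroup.closure (S : Set G) : Set G).Finite)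
    (h : EqZ A ω α ⊥) : EqZ A ω α ⊤ := by
  refine mainN_red hω M α fun S => ⟨Subgroup.closure (S : Set G), ⊥, Subgroup.subset_closure,
    bot_le, ?_, h⟩
  have : Finite (Subgroup.closure (S : Set G)) := (hG S).to_subtype
  rw [Subgroup.relIndex_bot_left]
  exact Nat.card_pos.ne'

omit [Nontrivial A] [TopologicalSpace.SeparableSpace A] [Countable G] hω M in
theorem eqZ_trivial (H : Subgroup G)
    (hH : ∀ h ∈ H, ∀ x : ℕ → A, FixSeq A ω α ⊥ x → ∀ a : A,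
      Tendsto (fun n => ‖(α h (x n) - x n) * a‖) ω (𝓝 0))
    (h : EqZ A ω α ⊥) : EqZ A ω α H := by
  intro k
  obtain ⟨φ, hφ⟩ := h k
  exact ⟨φ, ⟨fun b => ⟨(hφ.mem b).1, (hφ.mem b).2.1, fun h hh a => hH h hh _ (hφ.mem b) a⟩,
    hφ.one, hφ.add, hφ.mul, hφ.smul, hφ.star⟩⟩

theorem mainN_triv (h : EqZ A ω α ⊥)
    (hG : ∀ S : Finset G, ∃ K H : Subgroup G, (S : Set G) ⊆ K ∧ H ≤ K ∧ H.relIndex K ≠ 0 ∧
      ∀ h ∈ H, ∀ x : ℕ → A, FixSeq A ω α ⊥ x → ∀ a : A,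
        Tendsto (fun n => ‖(α h (x n) - x n) * a‖) ω (𝓝 0)) : EqZ A ω α ⊤ := by
  refine mainN_red hω M α fun S => ?_
  obtain ⟨K, H, h1, h2, h3, h4⟩ := hG S
  exact ⟨K, H, h1, h2, h3, eqZ_trivial α H h4 h⟩

end

end Vale.Agent.P095
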