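import Vale.Agent.P095.NDefs
import Vale.Agent.P095.NAct
import Vale.Agent.P095.Apu

open scoped ENNReal Topology
open Filter

namespace Vale.Agent.P095

open Vale.Agent.P101K

universe u v w

section

variable {A : Type u} [NonUnitalCStarAlgebra A] {ω : Ultrafilter ℕ} {F : Type u} [CStarAlgebra F]
  {G : Type v} [Group G]

/-- bounded `ω`-central sequence in `A` -/
def CenS (A : Type u) [NonUnitalCStarAlgebra A] (ω : Ultrafilter ℕ) (x : ℕ → A) : Prop :=
  (∃ C : ℝ, ∀ n, ‖x n‖ ≤ C) ∧ ∀ a : A, Tendsto (fun n => ‖x n * a - a * x n‖) ω (𝓝 0)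

theorem FixSeq.cenS {α : G →* (A ≃⋆ₐ[ℂ] A)} {H : Subgroup G} {x : ℕ → A}
    (h : FixSeq A ω α H x) : CenS A ω x := ⟨h.1, h.2.1⟩

/-- the element of `CS A ω` given by a central sequence in `A` -/
noncomputable def csOf (x : ℕ → A) (h : CenS A ω x) : CS A ω :=
  ⟨⟨fun n => (x n : UA A), memℓp_infty (by
    obtain ⟨C, hC⟩ := h.1
    exact ⟨C, by rintro _ ⟨n, rfl⟩; exact (Unitization.norm_inr (x n)).trans_le (hC n)⟩)⟩, by
    intro a
    refine (h.2 a).congr fun n => ?_
    show ‖x n * a - a * x n‖ = ‖(x n : UA A) * (a : UA A) - (a : UA A) * (x n : UA A)‖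
    rw [← Unitization.inr_mul, ← Unitization.inr_mul, ← Unitization.inr_sub,
      Unitization.norm_inr]⟩

theorem csOf_apply (x : ℕ → A) (h : CenS A ω x) (n : ℕ) :
    (csOf x h : Bdd (UA A)) n = (x n : UA A) := rfl

/-- NR1. -/
theorem q_csOf_eq (M : FMod A ω F) (x y : ℕ → A) (hx : CenS A ω x) (hy : CenS A ω y) :
    M.q (csOf x hx) = M.q (csOf y hy) ↔ SeqEq A ω x y := by
  rw [← sub_eq_zero, ← map_sub, M.ker]
  refine forall_congr' fun a => tendsto_congr fun n => ?_
  have h1 : ((csOf x hx - csOf y hy : CS A ω) : Bdd (UA A)) n = ((x n - y n : A) : UA A) := by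
    rw [Unitization.inr_sub]
    rfl
  rw [h1, ← Unitization.inr_mul, Unitization.norm_inr]

/-- NR2. -/
theorem q_csOf_one (M : FMod A ω F) (x : ℕ → A) (hx : CenS A ω x) :
    M.q (csOf x hx) = 1 ↔ SeqOne A ω x := by
  rw [← map_one M.q, ← sub_eq_zero, ← map_sub, M.ker]
  refine forall_congr' fun a => tendsto_congr fun n => ?_
  have h1 : ((csOf x hx - 1 : CS A ω) : Bdd (UA A)) n = (x n : UA A) - 1 := rfl
  rw [h1, sub_mul, one_mul, ← Unitization.inr_mul, ← Unitization.inr_sub, Unitization.norm_inr]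

/-- NR3. -/
theorem q_csOf_mem (M : FMod A ω F) (α : G →* (A ≃⋆ₐ[ℂ] A)) (H : Subgroup G) (x : ℕ → A)
    (hx : CenS A ω x) :
    M.q (csOf x hx) ∈ fixAlg (fAct M α) (H : Set G) ↔ FixSeq A ω α H x := by
  have key : ∀ h : G, fAct M α h (M.q (csOf x hx)) = M.q (csOf x hx) ↔
      ∀ a : A, Tendsto (fun n => ‖(α h (x n) - x n) * a‖) ω (𝓝 0) := by
    intro h
    rw [fAct_q, ← sub_eq_zero, ← map_sub, M.ker]
    refine forall_congr' fun a => tendsto_congr fun n => ?_
    have h1 : ((csMap ω α h (csOf x hx) - csOf x hx : CS A ω) : Bdd (UA A)) n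
        = ((α h (x n) - x n : A) : UA A) := by
      rw [Unitization.inr_sub, ← extA_inr]
      rfl
    rw [h1, ← Unitization.inr_mul, Unitization.norm_inr]
  rw [mem_fixAlg]
  constructor
  · intro h
    exact ⟨hx.1, hx.2, fun g hg => (key g).1 (h g hg)⟩
  · intro h g hg
    exact (key g).2 (h.2.2 g hg)

/-- NR4.  Every element of `F_ω(A)` is represented by a sequence in `A`: multiply a sequence in the
unitization by the approximate unit (`exists_apu`; `x n * e n` lies in the ideal `A`). -/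
theorem exists_rep [TopologicalSpace.SeparableSpace A] (hω : (ω : Filter ℕ) ≤ atTop)
    (M : FMod A ω F) (y : F) : ∃ (x : ℕ → A) (hx : CenS A ω x), M.q (csOf x hx) = y := by
  obtain ⟨e, he1, hes, hea⟩ := exists_apu A
  obtain ⟨X, rfl⟩ := M.surj y
  have hmul : ∀ (z : UA A) (b : A),
      z * (b : UA A) = ((z.fst • b + z.snd * b : A) : UA A) := by
    intro z b
    induction z using Unitization.ind with
    | inl_add_inr r a =>
      rw [add_mul, ← Unitization.inr_mul, Unitization.inl_mul_inr]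
      simp
  have hbd : ∀ n, ‖(X : Bdd (UA A)) n‖ ≤ ‖(X : Bdd (UA A))‖ := fun n => aom_apply_le _ n
  have hin : ∀ b : A, ‖(b : UA A)‖ = ‖b‖ := Unitization.norm_inr
  have hea' : ∀ a : A, Tendsto (fun n => ‖e n * a - a‖) ω (𝓝 0) := fun a => (hea a).mono_left hω
  have hea2 : ∀ a : A, Tendsto (fun n => ‖a - a * e n‖) ω (𝓝 0) := by
    intro a
    refine (hea' (star a)).congr fun n => ?_
    rw [← norm_star, star_sub, star_mul, star_star, hes, norm_sub_rev]
  obtain ⟨x, hxdef⟩ : ∃ x : ℕ → A, ∀ n, (x n : UA A) = (X : Bdd (UA A)) n * (e n : UA A) :=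
    ⟨fun n => ((X : Bdd (UA A)) n).fst • e n + ((X : Bdd (UA A)) n).snd * e n,
      fun n => (hmul _ _).symm⟩
  have hxn : ∀ n, ‖x n‖ ≤ ‖(X : Bdd (UA A))‖ := by
    intro n
    rw [← hin, hxdef]
    refine (norm_mul_le _ _).trans ?_
    rw [hin]
    exact (mul_le_mul (hbd n) (he1 n) (norm_nonneg _) (norm_nonneg _)).trans (mul_one _).le
  have hxc : CenS A ω x := by
    refine ⟨⟨_, hxn⟩, fun a => ?_⟩
    have h1 := ((hea' a).const_mul ‖(X : Bdd (UA A))‖).add
      (((hea2 a).const_mul ‖(X : Bdd (UA A))‖).add (X.2 a))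
    rw [mul_zero, add_zero, add_zero] at h1
    refine squeeze_zero (fun n => norm_nonneg _) (fun n => ?_) h1
    have e1 : ((x n * a - a * x n : A) : UA A)
        = (X : Bdd (UA A)) n * ((e n * a - a : A) : UA A)
          + ((X : Bdd (UA A)) n * ((a - a * e n : A) : UA A)
            + ((X : Bdd (UA A)) n * (a : UA A) - (a : UA A) * (X : Bdd (UA A)) n) * (e n : UA A)) := by
      rw [Unitization.inr_sub, Unitization.inr_mul, Unitization.inr_mul, hxdef,
        Unitization.inr_sub, Unitization.inr_mul, Unitization.inr_sub, Unitization.inr_mul]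
      noncomm_ring
    rw [← hin, e1]
    refine (norm_add_le _ _).trans (add_le_add ?_ ((norm_add_le _ _).trans (add_le_add ?_ ?_)))
    · refine (norm_mul_le _ _).trans ?_
      rw [hin]
      exact mul_le_mul_of_nonneg_right (hbd n) (norm_nonneg _)
    · refine (norm_mul_le _ _).trans ?_
      rw [hin]
      exact mul_le_mul_of_nonneg_right (hbd n) (norm_nonneg _)
    · refine (norm_mul_le _ _).trans ?_
      rw [hin (e n)]
      exact (mul_le_mul_of_nonneg_left (he1 n) (norm_nonneg _)).trans (mul_one _).le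
  refine ⟨x, hxc, ?_⟩
  rw [← sub_eq_zero, ← map_sub, M.ker]
  intro a
  have h1 := (hea' a).const_mul ‖(X : Bdd (UA A))‖
  rw [mul_zero] at h1
  refine squeeze_zero (fun n => norm_nonneg _) (fun n => ?_) h1
  have e1 : ((csOf x hxc - X : CS A ω) : Bdd (UA A)) n * (a : UA A)
      = (X : Bdd (UA A)) n * ((e n * a - a : A) : UA A) := by
    have e2 : ((csOf x hxc - X : CS A ω) : Bdd (UA A)) n
        = (x n : UA A) - (X : Bdd (UA A)) n := rfl
    rw [e2, hxdef, Unitization.inr_sub, Unitization.inr_mul]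
    noncomm_ring
  rw [e1]
  refine (norm_mul_le _ _).trans ?_
  rw [hin]
  exact mul_le_mul_of_nonneg_right (hbd n) (norm_nonneg _)

end

end Vale.Agent.P095
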