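import Vale.Agent.P095.Act

open scoped ENNReal Topology
open Filter

namespace Vale.Agent.P095

open Vale.Agent.P101K

universe u v w

/-- the average over the group -/
private noncomputable def psiE {D : Type u} [CStarAlgebra D] {G : Type v} [Group G] [Fintype G]
    (α : G → (D →⋆ₐ[ℂ] D)) (x : D) : D := ((Fintype.card G : ℂ)⁻¹) • ∑ g, α g x

private theorem psiE_fix {D : Type u} [CStarAlgebra D] {G : Type v} [Group G] [Fintype G]
    {α : G → (D →⋆ₐ[ℂ] D)} (hα : IsAct α) (x : D) : psiE α x ∈ fixAlg α Set.univ := by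
  rw [mem_fixAlg]
  intro h _
  unfold psiE
  rw [map_smul, map_sum]
  congr 1
  simp only [← hα.mul]
  exact Fintype.sum_equiv (Equiv.mulLeft h) _ _ fun g => rfl

private theorem psiE_card {G : Type v} [Group G] [Fintype G] : (Fintype.card G : ℂ) ≠ 0 :=
  Nat.cast_ne_zero.2 Fintype.card_ne_zero

private theorem psiE_mul {D : Type u} [CStarAlgebra D] {G : Type v} [Group G] [Fintype G]
    {α : G → (D →⋆ₐ[ℂ] D)} {a : D} (ha : a ∈ fixAlg α Set.univ) (x : D) :
    psiE α (a * x) = a * psiE α x := by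
  unfold psiE
  rw [mul_smul_comm, Finset.mul_sum]
  congr 1
  refine Finset.sum_congr rfl fun g _ => ?_
  rw [map_mul, ha g (Set.mem_univ g)]

private theorem psiE_one {D : Type u} [CStarAlgebra D] {G : Type v} [Group G] [Fintype G]
    (α : G → (D →⋆ₐ[ℂ] D)) : psiE α 1 = 1 := by
  unfold psiE
  simp only [map_one, Finset.sum_const, Finset.card_univ]
  rw [← Nat.cast_smul_eq_nsmul ℂ, smul_smul, inv_mul_cancel₀ psiE_card, one_smul]

private theorem psiE_of_fix {D : Type u} [CStarAlgebra D] {G : Type v} [Group G] [Fintype G]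
    {α : G → (D →⋆ₐ[ℂ] D)} {a : D} (ha : a ∈ fixAlg α Set.univ) : psiE α a = a := by
  have h := psiE_mul ha 1
  rwa [mul_one, psiE_one, mul_one] at h

private theorem psiE_act {D : Type u} [CStarAlgebra D] {G : Type v} [Group G] [Fintype G]
    {α : G → (D →⋆ₐ[ℂ] D)} (hα : IsAct α) (g : G) (x : D) : psiE α (α g x) = psiE α x := by
  unfold psiE
  congr 1
  simp only [← hα.mul]
  exact Fintype.sum_equiv (Equiv.mulRight g) _ _ fun h => rfl

private theorem psiE_norm {D : Type u} [CStarAlgebra D] {G : Type v} [Group G] [Fintype G]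
    (α : G → (D →⋆ₐ[ℂ] D)) (x : D) : ‖psiE α x‖ ≤ ‖x‖ := by
  unfold psiE
  have hc : (0 : ℝ) < Fintype.card G := Nat.cast_pos.2 Fintype.card_pos
  have h1 : ‖∑ g, α g x‖ ≤ Fintype.card G * ‖x‖ := by
    refine (norm_sum_le _ _).trans ?_
    refine (Finset.sum_le_sum fun g _ => NonUnitalStarAlgHom.norm_apply_le (α g) x).trans ?_
    rw [Finset.sum_const, Finset.card_univ, nsmul_eq_mul]
  rw [norm_smul, norm_inv, Complex.norm_natCast]
  calc (Fintype.card G : ℝ)⁻¹ * ‖∑ g, α g x‖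
      ≤ (Fintype.card G : ℝ)⁻¹ * (Fintype.card G * ‖x‖) :=
        mul_le_mul_of_nonneg_left h1 (inv_nonneg.2 hc.le)
    _ = ‖x‖ := by rw [← mul_assoc, inv_mul_cancel₀ hc.ne', one_mul]

/-- PSI.  `ψ x = χ (|G|⁻¹ ∑_g α_g x)`. -/
theorem exists_psi {D : Type u} [CStarAlgebra D] [Nontrivial D] {G : Type v} [Group G] [Fintype G]
    {α : G → (D →⋆ₐ[ℂ] D)} (hα : IsAct α) (χ : fixAlg α Set.univ →⋆ₐ[ℂ] ℂ) :
    ∃ ψ : D →ₗ[ℂ] ℂ, ψ 1 = 1 ∧ (∀ x, ‖ψ x‖ ≤ ‖x‖) ∧ (∀ g x, ψ (α g x) = ψ x) ∧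
      ∀ a ∈ fixAlg α Set.univ, ∀ x, ψ (a * x) = ψ a * ψ x := by
  have key : ∀ {x y : D} (hx : x ∈ fixAlg α Set.univ) (hy : y ∈ fixAlg α Set.univ), x = y →
      χ ⟨x, hx⟩ = χ ⟨y, hy⟩ := fun hx hy h => by subst h; rfl
  let ψ : D →ₗ[ℂ] ℂ :=
    { toFun := fun x => χ ⟨psiE α x, psiE_fix hα x⟩
      map_add' := fun x y => by
        rw [← map_add]
        refine congrArg χ (Subtype.ext ?_)
        show psiE α (x + y) = psiE α x + psiE α y
        simp only [psiE, map_add, Finset.sum_add_distrib, smul_add]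
      map_smul' := fun r x => by
        rw [RingHom.id_apply, ← map_smul]
        refine congrArg χ (Subtype.ext ?_)
        show psiE α (r • x) = r • psiE α x
        simp only [psiE, map_smul, ← Finset.smul_sum]
        rw [smul_comm] }
  have hψ : ∀ x, ψ x = χ ⟨psiE α x, psiE_fix hα x⟩ := fun x => rfl
  refine ⟨ψ, ?_, ?_, ?_, ?_⟩
  · rw [hψ, key _ (one_mem _) (psiE_one α)]
    exact map_one χ
  · intro x
    rw [hψ]
    exact (NonUnitalStarAlgHom.norm_apply_le χ _).trans (psiE_norm α x)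
  · intro g x
    rw [hψ, hψ]
    exact key _ _ (psiE_act hα g x)
  · intro a ha x
    rw [hψ, hψ, hψ, key _ ha (psiE_of_fix ha), ← map_mul]
    exact key _ _ (psiE_mul ha x)

private theorem ulim_seq {D : Type u} [CStarAlgebra D] [Nontrivial D] (ω : Ultrafilter ℕ)
    (ψ : D →ₗ[ℂ] ℂ) (K : ℝ) (hK : ∀ x, ‖ψ x‖ ≤ K * ‖x‖) (x : Bdd D) :
    ∃ l : ℂ, Tendsto (fun n => ψ (x n)) ω (𝓝 l) := by
  have hK0 : 0 ≤ K := by
    have h := (norm_nonneg _).trans (hK 1)
    rwa [norm_one, mul_one] at h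
  have hc : IsCompact (Metric.closedBall (0 : ℂ) (K * ‖x‖)) := isCompact_closedBall 0 _
  have h1 : Metric.closedBall (0 : ℂ) (K * ‖x‖) ∈
      (Ultrafilter.map (fun n => ψ (x n)) ω : Filter ℂ) := by
    rw [Ultrafilter.coe_map, Filter.mem_map]
    refine Filter.univ_mem' fun n => ?_
    show ψ (x n) ∈ Metric.closedBall (0 : ℂ) (K * ‖x‖)
    rw [mem_closedBall_zero_iff]
    exact (hK _).trans (mul_le_mul_of_nonneg_left (aom_apply_le x n) hK0)
  obtain ⟨l, _, hl⟩ := hc.ultrafilter_le_nhds' _ h1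
  exact ⟨l, hl⟩

/-- ULIM.  The ultralimit of a bounded functional. -/
theorem exists_ulim {D : Type u} [CStarAlgebra D] [Nontrivial D] (ω : Ultrafilter ℕ)
    (ψ : D →ₗ[ℂ] ℂ) (K : ℝ) (hK : ∀ x, ‖ψ x‖ ≤ K * ‖x‖) :
    ∃ Ψ : Aom D ω →ₗ[ℂ] ℂ, ∀ x : Bdd D,
      Tendsto (fun n => ψ (x n)) ω (𝓝 (Ψ (omk D ω x))) := by
  choose g hg using ulim_seq ω ψ K hK
  have hwd : ∀ x y : Bdd D, omk D ω x = omk D ω y → g x = g y := by
    intro x y h
    rw [omk_eq_iff] at h
    have h1 : Tendsto (fun n => ψ (x n) - ψ (y n)) ω (𝓝 0) := by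
      refine squeeze_zero_norm (fun n => ?_) (by simpa using h.const_mul K)
      rw [← map_sub]
      exact hK _
    have h2 := (hg x).sub (hg y)
    exact sub_eq_zero.1 (tendsto_nhds_unique h2 h1)
  choose rep hrep using omk_surjective D ω
  have key : ∀ x : Bdd D, g (rep (omk D ω x)) = g x := fun x => hwd _ _ (hrep _)
  refine ⟨{ toFun := fun z => g (rep z), map_add' := fun y z => ?_, map_smul' := fun c z => ?_ },
    fun x => ?_⟩
  · obtain ⟨y, rfl⟩ := omk_surjective D ω y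
    obtain ⟨z, rfl⟩ := omk_surjective D ω z
    show g (rep (omk D ω y + omk D ω z)) = g (rep (omk D ω y)) + g (rep (omk D ω z))
    rw [← map_add, key, key, key]
    refine tendsto_nhds_unique (hg (y + z)) (((hg y).add (hg z)).congr fun n => ?_)
    rw [aom_add_apply, map_add]
  · obtain ⟨z, rfl⟩ := omk_surjective D ω z
    show g (rep (c • omk D ω z)) = c • g (rep (omk D ω z))
    rw [← map_smul, key, key]
    refine tendsto_nhds_unique (hg (c • z)) (((hg z).const_smul c).congr fun n => ?_)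
    rw [aom_smul_apply, map_smul]
  · show Tendsto (fun n => ψ (x n)) ω (𝓝 (g (rep (omk D ω x))))
    rw [key]
    exact hg x

end Vale.Agent.P095
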