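import Mathlib

open scoped ENNReal Topology
open Filter

namespace Vale.Agent.P095

universe u v w

theorem orth_norm_proved {D : Type u} [CStarAlgebra D] {ι : Type v} (T : Finset ι) (c v : ι → D)
    (ε : ℝ)
    (hε : 0 ≤ ε) (hs : ∀ g ∈ T, star (c g) = c g)
    (ho : ∀ g ∈ T, ∀ h ∈ T, g ≠ h → c g * c h = 0)
    (hcv : ∀ g ∈ T, ∀ h ∈ T, Commute (c g) (v h)) (hc : ∀ g ∈ T, ‖c g‖ ≤ ε)
    (hv : ∀ g ∈ T, ‖v g‖ ≤ 1) : ‖∑ g ∈ T, c g * v g‖ ≤ ε := by
  let _ : PartialOrder D := CStarAlgebra.spectralOrder _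
  have _ : StarOrderedRing D := CStarAlgebra.spectralOrderedRing _
  set P : D := ∑ g ∈ T, c g * c g with hP
  have hsq : ∀ g ∈ T, 0 ≤ c g * c g := by
    intro g hg
    have := star_mul_self_nonneg (c g)
    rwa [hs g hg] at this
  have hP0 : 0 ≤ P := Finset.sum_nonneg hsq
  -- star X * X = ∑ star (v g) * (c g * c g) * v g
  have e1 : star (∑ g ∈ T, c g * v g) * (∑ g ∈ T, c g * v g)
      = ∑ g ∈ T, c g * (star (v g) * v g) * c g := by
    rw [star_sum, Finset.sum_mul]
    refine Finset.sum_congr rfl fun g hg => ?_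
    rw [Finset.mul_sum, Finset.sum_eq_single g]
    · have h1 : Commute (c g) (star (v g)) := by
        have := (hcv g hg g hg).star_star
        rwa [hs g hg] at this
      have h2 := hcv g hg g hg
      rw [star_mul, hs g hg]
      calc star (v g) * c g * (c g * v g) = (star (v g) * c g) * (c g * v g) := by rw [mul_assoc]
        _ = (c g * star (v g)) * (v g * c g) := by rw [h1.eq, h2.eq]
        _ = c g * (star (v g) * v g) * c g := by simp only [mul_assoc]
    · intro h hh hgh
      rw [star_mul, hs g hg]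
      calc star (v g) * c g * (c h * v h) = star (v g) * (c g * c h) * v h := by
            simp only [mul_assoc]
        _ = 0 := by rw [ho g hg h hh (Ne.symm hgh)]; simp
    · intro h
      exact absurd hg h
  have hle1 : ∀ g ∈ T, c g * (star (v g) * v g) * c g ≤ c g * c g := by
    intro g hg
    have h0 : star (v g) * v g ≤ 1 := by
      have h1 : ‖star (v g) * v g‖ ≤ 1 := by
        rw [CStarRing.norm_star_mul_self]
        have := hv g hg
        nlinarith [norm_nonneg (v g)]
      exact (CStarAlgebra.norm_le_one_iff_of_nonneg _ (star_mul_self_nonneg _)).1 h1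
    have h2 := star_left_conjugate_le_conjugate h0 (c g)
    rw [hs g hg, mul_one] at h2
    exact h2
  have hX : star (∑ g ∈ T, c g * v g) * (∑ g ∈ T, c g * v g) ≤ P := by
    rw [e1]
    exact Finset.sum_le_sum hle1
  -- P * P ≤ ε² P
  have e2 : P * P = ∑ g ∈ T, c g * (c g * c g) * c g := by
    rw [hP, Finset.sum_mul]
    refine Finset.sum_congr rfl fun g hg => ?_
    rw [Finset.mul_sum, Finset.sum_eq_single g]
    · simp only [mul_assoc]
    · intro h hh hgh
      calc c g * c g * (c h * c h) = c g * (c g * c h) * c h := by simp only [mul_assoc]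
        _ = 0 := by rw [ho g hg h hh (Ne.symm hgh)]; simp
    · intro h
      exact absurd hg h
  have hPP : P * P ≤ algebraMap ℝ D (ε ^ 2) * P := by
    rw [e2, hP, Finset.mul_sum]
    refine Finset.sum_le_sum fun g hg => ?_
    have h0 : c g * c g ≤ algebraMap ℝ D (ε ^ 2) := by
      have h1 : ‖c g * c g‖ ≤ ε ^ 2 := by
        refine (norm_mul_le _ _).trans ?_
        have := hc g hg
        nlinarith [norm_nonneg (c g)]
      have h2 : c g * c g ≤ algebraMap ℝ D ‖c g * c g‖ :=
        IsSelfAdjoint.le_algebraMap_norm_self (a := c g * c g)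
          (by rw [IsSelfAdjoint, star_mul, hs g hg])
      exact h2.trans (algebraMap_mono D h1)
    have h2 := star_left_conjugate_le_conjugate h0 (c g)
    rw [hs g hg] at h2
    refine h2.trans (le_of_eq ?_)
    rw [← Algebra.commutes, mul_assoc]
  have hPn : ‖P‖ ≤ ε ^ 2 := by
    have hsa : star P = P := (IsSelfAdjoint.of_nonneg hP0).star_eq
    have h1 : ‖P * P‖ = ‖P‖ * ‖P‖ := by
      have := CStarRing.norm_star_mul_self (x := P)
      rwa [hsa] at this
    have h3 : 0 ≤ P * P := by
      have := star_mul_self_nonneg P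
      rwa [hsa] at this
    have h2 : ‖P * P‖ ≤ ‖algebraMap ℝ D (ε ^ 2) * P‖ :=
      CStarAlgebra.norm_le_norm_of_nonneg_of_le h3 hPP
    have h4 : ‖algebraMap ℝ D (ε ^ 2) * P‖ ≤ ε ^ 2 * ‖P‖ := by
      rw [← Algebra.smul_def, norm_smul, Real.norm_of_nonneg (by positivity)]
    rw [h1] at h2
    by_contra hcon
    push Not at hcon
    have h5 : 0 < ‖P‖ := lt_of_le_of_lt (by positivity) hcon
    nlinarith
  have hfin : ‖∑ g ∈ T, c g * v g‖ * ‖∑ g ∈ T, c g * v g‖ ≤ ε ^ 2 := by
    rw [← CStarRing.norm_star_mul_self]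
    exact (CStarAlgebra.norm_le_norm_of_nonneg_of_le (star_mul_self_nonneg _) hX).trans hPn
  nlinarith [norm_nonneg (∑ g ∈ T, c g * v g)]

end Vale.Agent.P095
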