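import Mathlib

/-! P095, module RS1 (helper70): diagonal sequence with errors. -/

open scoped ENNReal Topology
open Filter

namespace Vale.Agent.P095

universe u v w

/-- RS1.  As `sat_seq` with errors. -/
theorem sat_seq'_proved {A : Type u} [CStarAlgebra A] (ω : Ultrafilter ℕ)
    (hω : (ω : Filter ℕ) ≤ atTop)
    {m : ℕ} (f : ℕ → (Fin m → A) → ℝ) (R : ℝ) (K : ℕ → ℝ)
    (h : ∀ N : ℕ, ∃ z : ℕ → Fin m → A, (∀ n i, ‖z n i‖ ≤ R) ∧
      ∀ j ≤ N, ∀ᶠ n in (ω : Filter ℕ), |f j (z n)| ≤ K j / ((N : ℝ) + 1)) :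
    ∃ z : ℕ → Fin m → A, (∀ n i, ‖z n i‖ ≤ R) ∧ ∀ j, Tendsto (fun n => f j (z n)) ω (𝓝 0) := by
  classical
  choose z hz1 hz2 using h
  let U : ℕ → ℕ → Prop := fun N n => N ≤ n ∧
    ∀ j ∈ Finset.range (N + 1), |f j (z N n)| ≤ K j / ((N : ℝ) + 1)
  have hU : ∀ N, ∀ᶠ n in (ω : Filter ℕ), U N n := by
    intro N
    have h0 : ∀ᶠ n in (ω : Filter ℕ), N ≤ n := hω (eventually_ge_atTop N)
    refine h0.and ?_
    rw [Finset.eventually_all]
    intro j hj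
    exact hz2 N j (Nat.lt_succ_iff.1 (Finset.mem_range.1 hj))
  let s : ℕ → ℕ := fun n => Nat.findGreatest (fun N => U N n) n
  refine ⟨fun n => z (s n) n, fun n i => hz1 _ _ _, fun j => ?_⟩
  rw [Metric.tendsto_nhds]
  intro ε hε
  obtain ⟨N, hN⟩ := exists_nat_gt (|K j| / ε)
  filter_upwards [hU (max j N)] with n hn
  have h1 : max j N ≤ s n := Nat.le_findGreatest hn.1 hn
  have h2 : U (s n) n := Nat.findGreatest_spec (P := fun N => U N n) hn.1 hn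
  have h3 := h2.2 j (Finset.mem_range.2 (Nat.lt_succ_of_le ((le_max_left _ _).trans h1)))
  rw [Real.dist_0_eq_abs]
  have h4 : (N : ℝ) ≤ (s n : ℝ) := by exact_mod_cast (le_max_right _ _).trans h1
  have h5 : (0 : ℝ) < (s n : ℝ) + 1 := by positivity
  refine h3.trans_lt ((div_lt_iff₀ h5).2 ?_)
  rw [div_lt_iff₀ hε] at hN
  have h6 := le_abs_self (K j)
  have h7 : (N : ℝ) * ε ≤ (s n : ℝ) * ε := mul_le_mul_of_nonneg_right h4 hε.le
  nlinarith

end Vale.Agent.P095
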