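import Vale.Agent.P095.NSat
import Vale.Agent.P095.NRep
import Vale.Agent.P095.R_RA
import Vale.Agent.P095.R_RS1

open scoped ENNReal Topology
open Filter

namespace Vale.Agent.P095

open Vale.Agent.P101K

universe u v w

/-- towers of colour number `d + 1` for an action on `D` -/
def Towers {G : Type v} [Group G] {D : Type u} [CStarAlgebra D] (α : G → (D →⋆ₐ[ℂ] D))
    (d : ℕ) : Prop :=
  ∀ (S : Finset G) (ε : ℝ), 0 < ε → ∃ (T : Finset G) (c : Fin (d + 1) → G → D),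
    (∀ l g, g ∉ T → c l g = 0) ∧
    (∀ l g h, g ≠ h → (star (c l g) * c l g) * (star (c l h) * c l h) = 0) ∧
    (∀ l, ∀ s ∈ S, ∀ g h, h ≠ s * g →
      α s (star (c l g) * c l g) * (star (c l h) * c l h) = 0) ∧
    (∀ l, ∀ s ∈ S, ∀ g, ‖α s (star (c l g) * c l g) - star (c l (s * g)) * c l (s * g)‖ ≤ ε) ∧
    ∑ l, ∑ g ∈ T, star (c l g) * c l g = 1

/-- homogeneous version of `Rel`: `y 6` plays the role of the unit, `y 5` of `star (y 4)` -/
def HRel {D : Type u} [Ring D] (y : Fin 7 → D) : Prop :=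
  y 2 * y 2 = 0 ∧ y 2 * y 3 = (y 0 + y 1) * y 0 ∧ y 3 * y 2 = (y 0 + y 1) * y 1 ∧
  y 0 * y 0 = (y 0 + y 1) * y 0 ∧ y 5 * y 4 = y 6 * (y 6 - (y 0 + y 1)) ∧ y 0 * y 4 = y 6 * y 4

/-- RHC.  `χ (y l 6) = 0` for all `l` from `HRel` (`χ(y2) = 0`, `(χ y0 + χ y1)² = 0`, `χ(y0) = 0`,
`χ(y6) χ(y4) = 0`, `χ(y6)² = χ(y5) χ(y4)`), contradiction with the sum. -/
theorem hrel_no_char {D : Type u} [Ring D] [StarRing D] [Algebra ℂ D] {d : ℕ}
    (y : Fin (d + 1) → Fin 7 → D) (h : ∀ l, HRel (y l)) (h1 : ∑ l, y l 6 = 1) :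
    IsEmpty (D →⋆ₐ[ℂ] ℂ) := by
  refine ⟨fun χ => ?_⟩
  have h6 : ∀ l, χ (y l 6) = 0 := by
    intro l
    obtain ⟨r1, r2, r3, r4, r5, r6⟩ := h l
    have e1 := congrArg χ r1
    have e2 := congrArg χ r2
    have e3 := congrArg χ r3
    have e4 := congrArg χ r4
    have e5 := congrArg χ r5
    have e6 := congrArg χ r6
    simp only [map_mul, map_add, map_sub, map_zero] at e1 e2 e3 e4 e5 e6
    have hc : χ (y l 2) = 0 := mul_self_eq_zero.1 e1
    rw [hc, zero_mul] at e2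
    rw [hc, mul_zero] at e3
    have hs : (χ (y l 0) + χ (y l 1)) * (χ (y l 0) + χ (y l 1)) = 0 := by
      rw [mul_add, ← e2, ← e3, add_zero]
    have hs0 : χ (y l 0) + χ (y l 1) = 0 := mul_self_eq_zero.1 hs
    rw [hs0, zero_mul] at e4
    have ha : χ (y l 0) = 0 := mul_self_eq_zero.1 e4
    rw [hs0, sub_zero] at e5
    rw [ha, zero_mul] at e6
    have hu : χ (y l 6) * χ (y l 6) * χ (y l 6) = 0 := by
      rw [← e5, mul_assoc, mul_comm (χ (y l 4)), ← e6, mul_zero]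
    rcases mul_eq_zero.1 hu with h' | h'
    · exact mul_self_eq_zero.1 h'
    · exact h'
  have h2 := congrArg χ h1
  rw [map_sum, map_one] at h2
  simp [h6] at h2

/-- RA.  `X = ∑ c_g v_g`, `X*X = ∑ c_g² v_g* v_g ≤ ∑ c_g² =: P`, `P² = ∑ c_g⁴ ≤ ε² P`, so
`‖P‖ ≤ ε²`. -/
theorem orth_norm {D : Type u} [CStarAlgebra D] {ι : Type v} (T : Finset ι) (c v : ι → D) (ε : ℝ)
    (hε : 0 ≤ ε) (hs : ∀ g ∈ T, star (c g) = c g)
    (ho : ∀ g ∈ T, ∀ h ∈ T, g ≠ h → c g * c h = 0)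
    (hcv : ∀ g ∈ T, ∀ h ∈ T, Commute (c g) (v h)) (hc : ∀ g ∈ T, ‖c g‖ ≤ ε)
    (hv : ∀ g ∈ T, ‖v g‖ ≤ 1) : ‖∑ g ∈ T, c g * v g‖ ≤ ε :=
  orth_norm_proved T c v ε hε hs ho hcv hc hv

/-- RB.  Copies with norm control on a countable set: add `r = sqrt (‖b‖² - b*b)` to `X` for every
`b ∈ X`; `θ(b)*θ(b) = ‖b‖² - θ(r)*θ(r) ≤ ‖b‖²`. -/
theorem eqCopies_norm {G : Type v} {D : Type u} [CStarAlgebra D] [Nontrivial D]
    {α : G → (D →⋆ₐ[ℂ] D)} (hE : EqCopies α) (X : Set D) (hX : X.Countable) :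
    ∃ (C : StarSubalgebra ℂ D) (hC : ∀ g, ∀ x ∈ C, α g x ∈ C) (hXC : X ⊆ C)
      (θ : ℕ → (C →⋆ₐ[ℂ] D)), (∀ i j, i ≠ j → ∀ s t, Commute (θ i s) (θ j t)) ∧
      (∀ i g (s : C), α g (θ i s) = θ i ⟨α g s, hC g s s.2⟩) ∧
      ∀ b (hb : b ∈ X) i, ‖θ i ⟨b, hXC hb⟩‖ ≤ ‖b‖ := by
  letI : PartialOrder D := CStarAlgebra.spectralOrder D
  haveI : StarOrderedRing D := CStarAlgebra.spectralOrderedRing D
  have hr : ∀ b : D, ∃ r : D, star b * b + star r * r = algebraMap ℝ D (‖b‖ ^ 2) := by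
    intro b
    have h1 : star b * b ≤ algebraMap ℝ D (‖b‖ ^ 2) := CStarAlgebra.star_mul_le_algebraMap_norm_sq
    obtain ⟨r, hr⟩ := CStarAlgebra.nonneg_iff_eq_star_mul_self.1 (sub_nonneg.2 h1)
    exact ⟨r, by rw [← hr]; abel⟩
  choose r hr using hr
  obtain ⟨C, hC, hXC, θ, h1, _, h3⟩ := hE (X ∪ r '' X) (hX.union (hX.image r))
  have hX' : X ⊆ C := fun b hb => hXC (Or.inl hb)
  refine ⟨C, hC, hX', θ, h1, h3, fun b hb i => ?_⟩
  have hrb : r b ∈ C := hXC (Or.inr ⟨b, hb, rfl⟩)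
  set b' : C := ⟨b, hX' hb⟩ with hb'
  set r' : C := ⟨r b, hrb⟩ with hr'
  have e1 : star b' * b' + star r' * r' = algebraMap ℂ C ((‖b‖ ^ 2 : ℝ) : ℂ) := by
    apply Subtype.ext
    show star b * b + star (r b) * r b = algebraMap ℂ D ((‖b‖ ^ 2 : ℝ) : ℂ)
    rw [hr b]
    rfl
  have e2 : star (θ i b') * θ i b' + star (θ i r') * θ i r' =
      algebraMap ℂ D ((‖b‖ ^ 2 : ℝ) : ℂ) := by
    rw [← map_star, ← map_star, ← map_mul, ← map_mul, ← map_add, e1]
    exact AlgHomClass.commutes (θ i) _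
  have h4 : star (θ i b') * θ i b' ≤ algebraMap ℂ D ((‖b‖ ^ 2 : ℝ) : ℂ) := by
    rw [← e2]
    exact le_add_of_nonneg_right (star_mul_self_nonneg _)
  have h5 := CStarAlgebra.norm_le_norm_of_nonneg_of_le (star_mul_self_nonneg (θ i b')) h4
  rw [CStarRing.norm_star_mul_self, norm_algebraMap'] at h5
  have h6 : ‖((‖b‖ ^ 2 : ℝ) : ℂ)‖ = ‖b‖ ^ 2 := by
    rw [Complex.norm_real, Real.norm_of_nonneg (sq_nonneg _)]
  rw [h6, ← sq] at h5
  exact le_of_sq_le_sq h5 (norm_nonneg _)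

theorem rc_f_le {D : Type u} [CStarAlgebra D] {ι κ : Type*} [Fintype ι] (T : Finset κ)
    (c : ι → κ → D) (h1 : ∑ l, ∑ g ∈ T, star (c l g) * c l g = 1) (l : ι) (g : κ) (hg : g ∈ T) :
    ‖star (c l g) * c l g‖ ≤ 1 := by
  let _ : PartialOrder D := CStarAlgebra.spectralOrder _
  have _ : StarOrderedRing D := CStarAlgebra.spectralOrderedRing _
  have hp : ∀ l g, 0 ≤ star (c l g) * c l g := fun l g => star_mul_self_nonneg _
  refine (CStarAlgebra.norm_le_one_iff_of_nonneg _ (hp l g)).2 ?_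
  rw [← h1]
  calc star (c l g) * c l g ≤ ∑ g ∈ T, star (c l g) * c l g :=
        Finset.single_le_sum (f := fun g => star (c l g) * c l g) (fun g _ => hp l g) hg
    _ ≤ ∑ l, ∑ g ∈ T, star (c l g) * c l g :=
        Finset.single_le_sum (f := fun l => ∑ g ∈ T, star (c l g) * c l g)
          (fun l _ => Finset.sum_nonneg fun g _ => hp l g) (Finset.mem_univ l)

theorem rc_mul {D : Type u} [Ring D] {κ : Type*} (T : Finset κ) (f w w' : κ → D)
    (ho : ∀ g h, g ≠ h → f g * f h = 0) (hc : ∀ g h, Commute (f g) (w h)) :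
    (∑ g ∈ T, f g * w g) * (∑ g ∈ T, f g * w' g) = ∑ g ∈ T, f g * f g * (w g * w' g) := by
  rw [Finset.sum_mul]
  refine Finset.sum_congr rfl fun g hg => ?_
  rw [Finset.mul_sum, Finset.sum_eq_single g]
  · rw [mul_assoc, ← mul_assoc (w g), ← (hc g g).eq]
    simp only [mul_assoc]
  · intro h _ hne
    rw [mul_assoc, ← mul_assoc (w g), ← (hc h g).eq, ← mul_assoc, ← mul_assoc, ho g h hne.symm,
      zero_mul, zero_mul]
  · intro h
    exact absurd hg h

/-- RC.  `y l i = ∑_(g ∈ T) θ₀(f l g) θ₁(α_g z_i)`, `f = star c * c`, `z₅ = star z₄`, `z₆ = 1`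
(`eqCopies_norm` for the finite set of all `z_i`, `star z_4`, `c l g`, `f l g`,
`α s (f l g) - f l (s g)`); `orth_norm` for the norm and for the invariance. -/
theorem tower_data {D : Type u} [CStarAlgebra D] [Nontrivial D] {G : Type v} [Group G]
    {α : G → (D →⋆ₐ[ℂ] D)} (hα : IsAct α) (hE : EqCopies α) (z : Fin 5 → D) (hz : Rel z)
    (hz1 : ∀ i, ‖z i‖ ≤ 1) {d : ℕ} (hT : Towers α d) (S : Finset G) (ε : ℝ) (hε : 0 < ε) :
    ∃ y : Fin (d + 1) → Fin 7 → D, (∀ l i, ‖y l i‖ ≤ 1) ∧ (∀ l, HRel (y l)) ∧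
      ∑ l, y l 6 = 1 ∧ ∀ s ∈ S, ∀ l i, ‖α s (y l i) - y l i‖ ≤ ε := by
  classical
  obtain ⟨T, c, hc0, hco, hcs, hcε, hc1⟩ := hT S ε hε
  obtain ⟨f, hf⟩ : ∃ f : Fin (d + 1) → G → D, ∀ l g, f l g = star (c l g) * c l g :=
    ⟨_, fun _ _ => rfl⟩
  have hfT : ∀ l g, g ∉ T → f l g = 0 := fun l g hg => by rw [hf, hc0 l g hg, mul_zero]
  have hf1 : ∀ l g, ‖f l g‖ ≤ 1 := by
    intro l g
    by_cases hg : g ∈ T
    · rw [hf]
      exact rc_f_le T c hc1 l g hg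
    · rw [hfT l g hg, norm_zero]
      exact zero_le_one
  simp only [← hf] at hco hcs hcε hc1
  have hfs : ∀ l g, star (f l g) = f l g := fun l g => by rw [hf, star_mul, star_star]
  let zz : Fin 7 → D := ![z 0, z 1, z 2, z 3, z 4, star (z 4), 1]
  have hzz1 : ∀ i, ‖zz i‖ ≤ 1 := by
    intro i
    fin_cases i
    · exact hz1 0
    · exact hz1 1
    · exact hz1 2
    · exact hz1 3
    · exact hz1 4
    · show ‖star (z 4)‖ ≤ 1
      rw [norm_star]
      exact hz1 4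
    · show ‖(1 : D)‖ ≤ 1
      exact CStarRing.norm_one.le
  let e : Fin (d + 1) → G → G → D := fun l s g => α s (f l g) - f l (s * g)
  let U : Finset G := T ∪ S.biUnion (fun s => T.image (fun g => s⁻¹ * g))
  let X : Finset D := Finset.univ.image zz ∪
    (Finset.univ ×ˢ T).image (fun p : Fin (d + 1) × G => f p.1 p.2) ∪
    (Finset.univ ×ˢ (S ×ˢ U)).image (fun p : Fin (d + 1) × G × G => e p.1 p.2.1 p.2.2)
  have hX1 : ∀ i, zz i ∈ (X : Set D) := by
    intro i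
    refine Finset.mem_coe.2 (Finset.mem_union_left _ (Finset.mem_union_left _ ?_))
    exact Finset.mem_image_of_mem _ (Finset.mem_univ _)
  have hX2 : ∀ l, ∀ g ∈ T, f l g ∈ (X : Set D) := by
    intro l g hg
    refine Finset.mem_coe.2 (Finset.mem_union_left _ (Finset.mem_union_right _ ?_))
    exact Finset.mem_image.2 ⟨(l, g), Finset.mem_product.2 ⟨Finset.mem_univ _, hg⟩, rfl⟩
  have hX3 : ∀ l, ∀ s ∈ S, ∀ g ∈ U, e l s g ∈ (X : Set D) := by
    intro l s hs g hg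
    refine Finset.mem_coe.2 (Finset.mem_union_right _ ?_)
    exact Finset.mem_image.2 ⟨(l, s, g), Finset.mem_product.2 ⟨Finset.mem_univ _,
      Finset.mem_product.2 ⟨hs, hg⟩⟩, rfl⟩
  obtain ⟨C, hC, hXC, θ, hcomm, heq, hnorm⟩ := eqCopies_norm hE (X : Set D)
    (Finset.countable_toSet X)
  have hzC : ∀ i, zz i ∈ C := fun i => hXC (hX1 i)
  have hfC : ∀ l g, f l g ∈ C := by
    intro l g
    by_cases hg : g ∈ T
    · exact hXC (hX2 l g hg)
    · rw [hfT l g hg]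
      exact zero_mem _
  let f' : Fin (d + 1) → G → C := fun l g => ⟨f l g, hfC l g⟩
  let z' : Fin 7 → C := fun i => ⟨zz i, hzC i⟩
  obtain ⟨F0, hF0⟩ : ∃ F0 : Fin (d + 1) → G → D, ∀ l g, F0 l g = θ 0 (f' l g) :=
    ⟨_, fun _ _ => rfl⟩
  obtain ⟨W, hW⟩ : ∃ W : Fin 7 → G → D, ∀ i g, W i g = α g (θ 1 (z' i)) := ⟨_, fun _ _ => rfl⟩
  have hF0T : ∀ l g, g ∉ T → F0 l g = 0 := by
    intro l g hg
    rw [hF0]
    have : f' l g = 0 := Subtype.ext (hfT l g hg)
    rw [this, map_zero]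
  have hF0s : ∀ l g, star (F0 l g) = F0 l g := by
    intro l g
    rw [hF0, ← map_star]
    congr 1
    exact Subtype.ext (hfs l g)
  have hF0o : ∀ l g h, g ≠ h → F0 l g * F0 l h = 0 := by
    intro l g h hgh
    rw [hF0, hF0, ← map_mul]
    have : f' l g * f' l h = 0 := Subtype.ext (hco l g h hgh)
    rw [this, map_zero]
  have hF0n : ∀ l g, ‖F0 l g‖ ≤ 1 := by
    intro l g
    by_cases hg : g ∈ T
    · rw [hF0]
      exact (hnorm _ (hX2 l g hg) 0).trans (hf1 l g)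
    · rw [hF0T l g hg, norm_zero]
      exact zero_le_one
  have hWn : ∀ i g, ‖W i g‖ ≤ 1 := by
    intro i g
    rw [hW]
    refine (NonUnitalStarAlgHom.norm_apply_le (α g) _).trans ?_
    exact (hnorm _ (hX1 i) 1).trans (hzz1 i)
  have hFW : ∀ l g i h, Commute (F0 l g) (W i h) := by
    intro l g i h
    rw [hF0, hW, heq]
    exact hcomm 0 1 zero_ne_one _ _
  -- relations between the `W i g`
  have hWrel : ∀ g, (W 2 g * W 2 g = 0) ∧ (W 2 g * W 3 g = W 0 g * W 0 g + W 1 g * W 0 g) ∧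
      (W 3 g * W 2 g = W 0 g * W 1 g + W 1 g * W 1 g) ∧ (W 1 g * W 0 g = 0) ∧
      (W 5 g * W 4 g = W 6 g * W 6 g - (W 6 g * W 0 g + W 6 g * W 1 g)) ∧
      (W 0 g * W 4 g = W 6 g * W 4 g) := by
    intro g
    obtain ⟨r1, r2, r3, r4, r5, r6⟩ := hz
    have r4' : z 1 * z 0 = 0 := by
      rw [add_mul] at r4
      exact left_eq_add.1 r4
    have k : ∀ a b : C, α g (θ 1 a) * α g (θ 1 b) = α g (θ 1 (a * b)) := fun a b => by
      rw [← map_mul, ← map_mul]
    have ka : ∀ a b : C, α g (θ 1 a) + α g (θ 1 b) = α g (θ 1 (a + b)) := fun a b => by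
      rw [← map_add, ← map_add]
    have ks : ∀ a b : C, α g (θ 1 a) - α g (θ 1 b) = α g (θ 1 (a - b)) := fun a b => by
      rw [← map_sub, ← map_sub]
    have k0 : (0 : D) = α g (θ 1 0) := by rw [map_zero, map_zero]
    have c1 : z' 2 * z' 2 = 0 := Subtype.ext r1
    have c2 : z' 2 * z' 3 = z' 0 * z' 0 + z' 1 * z' 0 := Subtype.ext (by
      show z 2 * z 3 = z 0 * z 0 + z 1 * z 0
      rw [r2, add_mul])
    have c3 : z' 3 * z' 2 = z' 0 * z' 1 + z' 1 * z' 1 := Subtype.ext (by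
      show z 3 * z 2 = z 0 * z 1 + z 1 * z 1
      rw [r3, add_mul])
    have c4 : z' 1 * z' 0 = 0 := Subtype.ext r4'
    have c5 : z' 5 * z' 4 = z' 6 * z' 6 - (z' 6 * z' 0 + z' 6 * z' 1) := Subtype.ext (by
      show star (z 4) * z 4 = 1 * 1 - (1 * z 0 + 1 * z 1)
      rw [r5, one_mul, one_mul, one_mul])
    have c6 : z' 0 * z' 4 = z' 6 * z' 4 := Subtype.ext (by
      show z 0 * z 4 = 1 * z 4
      rw [r6, one_mul])
    simp only [hW, k, ka, ks]
    refine ⟨?_, ?_, ?_, ?_, ?_, ?_⟩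
    · rw [c1, ← k0]
    · rw [c2]
    · rw [c3]
    · rw [c4, ← k0]
    · rw [c5]
    · rw [c6]
  let y : Fin (d + 1) → Fin 7 → D := fun l i => ∑ g ∈ T, F0 l g * W i g
  have hy : ∀ l i j, y l i * y l j = ∑ g ∈ T, F0 l g * F0 l g * (W i g * W j g) := fun l i j =>
    rc_mul T (F0 l) (W i) (W j) (hF0o l) (fun g h => hFW l g i h)
  refine ⟨y, fun l i => ?_, fun l => ?_, ?_, fun s hs l i => ?_⟩
  · exact orth_norm T (F0 l) (W i) 1 zero_le_one (fun g _ => hF0s l g)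
      (fun g _ h _ hgh => hF0o l g h hgh) (fun g _ h _ => hFW l g i h) (fun g _ => hF0n l g)
      (fun g _ => hWn i g)
  · refine ⟨?_, ?_, ?_, ?_, ?_, ?_⟩
    · rw [hy]
      exact Finset.sum_eq_zero fun g _ => by rw [(hWrel g).1, mul_zero]
    · rw [add_mul, hy, hy, hy, ← Finset.sum_add_distrib]
      exact Finset.sum_congr rfl fun g _ => by rw [(hWrel g).2.1, mul_add]
    · rw [add_mul, hy, hy, hy, ← Finset.sum_add_distrib]
      exact Finset.sum_congr rfl fun g _ => by rw [(hWrel g).2.2.1, mul_add]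
    · rw [add_mul, hy, hy, ← Finset.sum_add_distrib]
      exact Finset.sum_congr rfl fun g _ => by rw [(hWrel g).2.2.2.1, mul_zero, add_zero]
    · rw [mul_sub, mul_add, hy, hy, hy, hy, ← Finset.sum_add_distrib, ← Finset.sum_sub_distrib]
      exact Finset.sum_congr rfl fun g _ => by
        rw [(hWrel g).2.2.2.2.1, mul_sub, mul_add]
    · rw [hy, hy]
      exact Finset.sum_congr rfl fun g _ => by rw [(hWrel g).2.2.2.2.2]
  · have hW6 : ∀ g, W 6 g = 1 := by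
      intro g
      rw [hW]
      have : z' 6 = 1 := Subtype.ext rfl
      rw [this, map_one, map_one]
    have h1 : ∑ l, ∑ g ∈ T, f' l g = 1 := by
      refine Subtype.ext ?_
      have h2 : ((∑ l, ∑ g ∈ T, f' l g : C) : D) = ∑ l, ∑ g ∈ T, f l g := by
        show C.subtype (∑ l, ∑ g ∈ T, f' l g) = _
        rw [map_sum]
        refine Finset.sum_congr rfl fun l _ => ?_
        rw [map_sum]
        rfl
      rw [h2, hc1]
      rfl
    have h2 := congrArg (θ 0) h1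
    rw [map_one, map_sum] at h2
    rw [← h2]
    refine Finset.sum_congr rfl fun l _ => ?_
    show ∑ g ∈ T, F0 l g * W 6 g = θ 0 (∑ g ∈ T, f' l g)
    rw [map_sum]
    refine Finset.sum_congr rfl fun g _ => ?_
    rw [hW6, mul_one, hF0]
  · -- invariance
    have hαW : ∀ g, α s (W i g) = W i (s * g) := by
      intro g
      rw [hW, hW, hα.mul]
    have hTU : T ⊆ U := Finset.subset_union_left
    have e1 : α s (y l i) = ∑ g ∈ U, α s (F0 l g) * W i (s * g) := by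
      show α s (∑ g ∈ T, F0 l g * W i g) = _
      rw [map_sum]
      have : ∀ g ∈ T, α s (F0 l g * W i g) = α s (F0 l g) * W i (s * g) := fun g _ => by
        rw [map_mul, hαW]
      rw [Finset.sum_congr rfl this]
      refine Finset.sum_subset hTU fun g _ hg => ?_
      rw [hF0T l g hg, map_zero, zero_mul]
    have e2 : y l i = ∑ g ∈ U, F0 l (s * g) * W i (s * g) := by
      have h1 : ∑ g ∈ U, F0 l (s * g) * W i (s * g) =
          ∑ h ∈ U.image (fun g => s * g), F0 l h * W i h := by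
        rw [Finset.sum_image fun a _ b _ hab => mul_left_cancel hab]
      rw [h1]
      refine Finset.sum_subset ?_ fun h _ hh => ?_
      · intro h hh
        refine Finset.mem_image.2 ⟨s⁻¹ * h, ?_, by group⟩
        refine Finset.mem_union_right _ (Finset.mem_biUnion.2 ⟨s, hs, ?_⟩)
        exact Finset.mem_image_of_mem _ hh
      · rw [hF0T l h hh, zero_mul]
    have hαF : ∀ g, α s (F0 l g) = θ 0 ⟨α s (f l g), hC s _ (hfC l g)⟩ := by
      intro g
      rw [hF0, heq]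
    have e3 : α s (y l i) - y l i =
        ∑ g ∈ U, (α s (F0 l g) - F0 l (s * g)) * W i (s * g) := by
      rw [e1, e2, ← Finset.sum_sub_distrib]
      exact Finset.sum_congr rfl fun g _ => by rw [sub_mul]
    have hαFo : ∀ g h, h ≠ s * g → α s (F0 l g) * F0 l h = 0 := by
      intro g h hgh
      rw [hαF, hF0, ← map_mul]
      have : (⟨α s (f l g), hC s _ (hfC l g)⟩ : C) * f' l h = 0 :=
        Subtype.ext (hcs l s hs g h hgh)
      rw [this, map_zero]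
    have hαFo' : ∀ g h, h ≠ s * g → F0 l h * α s (F0 l g) = 0 := by
      intro g h hgh
      have := congrArg star (hαFo g h hgh)
      rwa [star_mul, star_zero, hF0s, ← map_star, hF0s] at this
    rw [e3]
    refine orth_norm U (fun g => α s (F0 l g) - F0 l (s * g)) (fun g => W i (s * g)) ε hε.le
      ?_ ?_ ?_ ?_ ?_
    · intro g _
      rw [star_sub, ← map_star, hF0s, hF0s]
    · intro g _ h _ hgh
      have n1 : s * h ≠ s * g := fun hh => hgh (mul_left_cancel hh).symm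
      have n2 : s * g ≠ s * h := fun hh => hgh (mul_left_cancel hh)
      rw [sub_mul, mul_sub, mul_sub, ← map_mul, hF0o l g h hgh, map_zero, hαFo g (s * h) n1,
        hαFo' h (s * g) n2, hF0o l _ _ n2]
      simp
    · intro g _ h _
      refine Commute.sub_left ?_ (hFW _ _ _ _)
      rw [hαF, hW, heq]
      exact hcomm 0 1 zero_ne_one _ _
    · intro g hg
      have : α s (F0 l g) - F0 l (s * g) = θ 0 ⟨e l s g, hXC (hX3 l s hs g hg)⟩ := by
        rw [hαF, hF0, ← map_sub]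
        rfl
      rw [this]
      exact (hnorm _ (hX3 l s hs g hg) 0).trans (hcε l s hs g)
    · intro g _
      exact hWn _ _

/-- RS1.  As `sat_seq` with errors. -/
theorem sat_seq' {A : Type u} [CStarAlgebra A] (ω : Ultrafilter ℕ) (hω : (ω : Filter ℕ) ≤ atTop)
    {m : ℕ} (f : ℕ → (Fin m → A) → ℝ) (R : ℝ) (K : ℕ → ℝ)
    (h : ∀ N : ℕ, ∃ z : ℕ → Fin m → A, (∀ n i, ‖z n i‖ ≤ R) ∧
      ∀ j ≤ N, ∀ᶠ n in (ω : Filter ℕ), |f j (z n)| ≤ K j / ((N : ℝ) + 1)) :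
    ∃ z : ℕ → Fin m → A, (∀ n i, ‖z n i‖ ≤ R) ∧ ∀ j, Tendsto (fun n => f j (z n)) ω (𝓝 0) :=
  sat_seq'_proved ω hω f R K h

end Vale.Agent.P095
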