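import Vale.Agent.P095.NDefs

open Filter Topology

namespace Vale.Agent.P095

universe u v w

/-- finite tower dimension (Rokhlin dimension, the towers need not commute) `≤ d` of `α`, in terms of
positive contractions `f l g = (c l g)* (c l g)` of `F_ω(A)`, `l = 0, ..., d`, `g` in a finite subset
of `G`: for every finite `S ⊆ G` and `ε > 0` one can have `f l g ⟂ f l h` for `g ≠ h`,
`α_s (f l g) ⟂ f l h` for `h ≠ s g`, `‖α_s (f l g) - f l (s g)‖ ≤ ε` (`s ∈ S`), and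
`∑_l ∑_g f l g = 1`. -/
def TowerDim (A : Type u) [NonUnitalCStarAlgebra A] (ω : Ultrafilter ℕ) {G : Type v} [Group G]
    (α : G →* (A ≃⋆ₐ[ℂ] A)) (d : ℕ) : Prop :=
  ∀ (S : Finset G) (ε : ℝ), 0 < ε → ∃ (T : Finset G) (c : Fin (d + 1) → G → ℕ → A),
    (∀ l g, FixSeq A ω α ⊥ (c l g)) ∧
    (∀ l g n, g ∉ T → c l g n = 0) ∧
    (∀ l g h, g ≠ h → SeqEq A ω
      (fun n => (star (c l g n) * c l g n) * (star (c l h n) * c l h n)) (fun _ => 0)) ∧
    (∀ l, ∀ s ∈ S, ∀ g h, h ≠ s * g → SeqEq A ω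
      (fun n => α s (star (c l g n) * c l g n) * (star (c l h n) * c l h n)) (fun _ => 0)) ∧
    (∀ l, ∀ s ∈ S, ∀ g, ∀ᶠ n in (ω : Filter ℕ),
      ‖α s (star (c l g n) * c l g n) - star (c l (s * g) n) * c l (s * g) n‖ ≤ ε) ∧
    SeqOne A ω (fun n => ∑ l, ∑ g ∈ T, star (c l g n) * c l g n)

end Vale.Agent.P095
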