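import Vale.Agent.P095.RDefs
import Vale.Agent.P095.RNDefs
import Vale.Agent.P095.NTr

open scoped ENNReal Topology
open Filter

namespace Vale.Agent.P095

open Vale.Agent.P101K

universe u v w

section

variable {A : Type u} [NonUnitalCStarAlgebra A] {ω : Ultrafilter ℕ} {F : Type u} [CStarAlgebra F]
  {G : Type v} [Group G]

theorem RE_zero : ∃ hw : CenS A ω (fun _ => (0 : A)), csOf _ hw = 0 :=
  NTB_of _ _ fun n => by
    rw [Unitization.inr_zero]
    rfl

theorem RE_sub {x y : ℕ → A} (hx : CenS A ω x) (hy : CenS A ω y) :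
    ∃ hw : CenS A ω (fun n => x n - y n), csOf _ hw = csOf x hx - csOf y hy := by
  refine NTB_of _ _ fun n => ?_
  rw [Unitization.inr_sub]
  rfl

theorem RE_act (α : G →* (A ≃⋆ₐ[ℂ] A)) (s : G) {x : ℕ → A} (hx : CenS A ω x) :
    ∃ hw : CenS A ω (fun n => α s (x n)), csOf _ hw = csMap ω α s (csOf x hx) := by
  refine NTB_of _ _ fun n => ?_
  rw [csMap_apply, csOf_apply, extA_inr]

theorem RE_sum {ι : Type w} (s : Finset ι) (x : ι → ℕ → A) (hx : ∀ i, CenS A ω (x i)) :
    ∃ hw : CenS A ω (fun n => ∑ i ∈ s, x i n), csOf _ hw = ∑ i ∈ s, csOf (x i) (hx i) := by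
  classical
  induction s using Finset.induction_on with
  | empty =>
    obtain ⟨hw, e⟩ := RE_zero (A := A) (ω := ω)
    have h1 : (fun n => ∑ i ∈ (∅ : Finset ι), x i n) = fun _ : ℕ => (0 : A) := by
      funext n
      rw [Finset.sum_empty]
    refine ⟨h1 ▸ hw, ?_⟩
    rw [Finset.sum_empty, ← e]
    congr 1
  | insert a s ha ih =>
    obtain ⟨hw, e⟩ := ih
    obtain ⟨hw2, e2⟩ := NTB_add (hx a) hw
    have h1 : (fun n => ∑ i ∈ insert a s, x i n) = fun n => x a n + ∑ i ∈ s, x i n := by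
      funext n
      rw [Finset.sum_insert ha]
    refine ⟨h1 ▸ hw2, ?_⟩
    rw [Finset.sum_insert ha, ← e, ← e2]
    congr 1

theorem RE_norm (M : FMod A ω F) {x : ℕ → A} (hx : CenS A ω x) {ε : ℝ} (hε : 0 ≤ ε)
    (h : ∀ᶠ n in (ω : Filter ℕ), ‖x n‖ ≤ ε) : ‖M.q (csOf x hx)‖ ≤ ε := by
  classical
  let y : ℕ → A := fun n => if ‖x n‖ ≤ ε then x n else 0
  have hyn : ∀ n, ‖y n‖ ≤ ε := by
    intro n
    by_cases h1 : ‖x n‖ ≤ ε
    · simp only [y, if_pos h1]
      exact h1
    · simp only [y, if_neg h1, norm_zero]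
      exact hε
  have hy : CenS A ω y := by
    refine ⟨⟨ε, hyn⟩, fun a => squeeze_zero (fun n => norm_nonneg _) (fun n => ?_) (hx.2 a)⟩
    by_cases h1 : ‖x n‖ ≤ ε
    · simp only [y, if_pos h1]
      exact le_rfl
    · simp only [y, if_neg h1, zero_mul, mul_zero, sub_zero, norm_zero]
      exact norm_nonneg _
  have e : M.q (csOf x hx) = M.q (csOf y hy) := by
    rw [q_csOf_eq]
    intro a
    refine tendsto_const_nhds.congr' ?_
    filter_upwards [h] with n hn
    simp only [y, if_pos hn, sub_self, zero_mul, norm_zero]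
  rw [e]
  refine (NonUnitalStarAlgHom.norm_apply_le M.q (csOf y hy)).trans ?_
  show ‖(csOf y hy : Bdd (UA A))‖ ≤ ε
  refine lp.norm_le_of_forall_le hε fun n => ?_
  rw [csOf_apply, Unitization.norm_inr]
  exact hyn n

end

/-- RE.  `c' l g = M.q (csOf (c l g) _)`; the norm condition: replace the terms of norm `> ε` of
`α_s f_n - f'_n` by `0` (they form an `ω`-null set of indices) and use that `M.q` is contractive. -/
theorem towers_of {A : Type u} [NonUnitalCStarAlgebra A] {ω : Ultrafilter ℕ} {F : Type u}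
    [CStarAlgebra F] (M : FMod A ω F) {G : Type v} [Group G] (α : G →* (A ≃⋆ₐ[ℂ] A)) {d : ℕ}
    (h : TowerDim A ω α d) : Towers (fAct M α) d := by
  intro S ε hε
  obtain ⟨T, c, hfix, hT, ho, ho2, hn, h1⟩ := h S ε hε
  have hc : ∀ l g, CenS A ω (c l g) := fun l g => (hfix l g).cenS
  have hfe : ∀ l g, ∃ hw : CenS A ω (fun n => star (c l g n) * c l g n),
      csOf _ hw = star (csOf (c l g) (hc l g)) * csOf (c l g) (hc l g) := by
    intro l g
    obtain ⟨hw, e⟩ := NTB_star (hc l g)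
    obtain ⟨hw2, e2⟩ := NTB_mul hw (hc l g)
    exact ⟨hw2, by rw [e2, e]⟩
  choose hf ef using hfe
  have eF : ∀ l g, star (M.q (csOf (c l g) (hc l g))) * M.q (csOf (c l g) (hc l g)) =
      M.q (csOf _ (hf l g)) := by
    intro l g
    rw [ef, map_mul, map_star]
  obtain ⟨h0, e0⟩ := RE_zero (A := A) (ω := ω)
  have q0 : M.q (csOf _ h0) = 0 := by rw [e0, map_zero]
  refine ⟨T, fun l g => M.q (csOf (c l g) (hc l g)), ?_, ?_, ?_, ?_, ?_⟩
  · intro l g hg
    rw [← q0, q_csOf_eq]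
    intro a
    simp only [hT l g _ hg, sub_self, zero_mul, norm_zero]
    exact tendsto_const_nhds
  · intro l g k hgk
    obtain ⟨hw, e⟩ := NTB_mul (hf l g) (hf l k)
    rw [eF, eF, ← map_mul, ← e, ← q0, q_csOf_eq]
    exact ho l g k hgk
  · intro l s hs g k hk
    obtain ⟨hw, e⟩ := RE_act α s (hf l g)
    obtain ⟨hw2, e2⟩ := NTB_mul hw (hf l k)
    rw [eF, eF, fAct_q, ← map_mul, ← e, ← e2, ← q0, q_csOf_eq]
    exact ho2 l s hs g k hk
  · intro l s hs g
    obtain ⟨hw, e⟩ := RE_act α s (hf l g)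
    obtain ⟨hw2, e2⟩ := RE_sub hw (hf l (s * g))
    rw [eF, eF, fAct_q, ← map_sub, ← e, ← e2]
    exact RE_norm M hw2 hε.le (hn l s hs g)
  · simp only [eF]
    have hsum : ∀ l, ∃ hw : CenS A ω (fun n => ∑ g ∈ T, star (c l g n) * c l g n),
        csOf _ hw = ∑ g ∈ T, csOf _ (hf l g) := fun l => RE_sum T _ (hf l)
    choose hg eg using hsum
    obtain ⟨hw, e⟩ := RE_sum Finset.univ _ hg
    simp only [eg] at e
    simp only [← map_sum]
    rw [← e, q_csOf_one]
    exact h1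

end Vale.Agent.P095
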