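import Vale.Agent.P095.RDefs

open scoped ENNReal Topology
open Filter

namespace Vale.Agent.P095

open Vale.Agent.P101K

universe u v w

/-- the six homogeneous relations -/
def rs2R {D : Type u} [Ring D] (j : Fin 6) (y : Fin 7 → D) : D :=
  ![y 2 * y 2, y 2 * y 3 - (y 0 + y 1) * y 0, y 3 * y 2 - (y 0 + y 1) * y 1,
    y 0 * y 0 - (y 0 + y 1) * y 0, y 5 * y 4 - y 6 * (y 6 - (y 0 + y 1)),
    y 0 * y 4 - y 6 * y 4] j

theorem rs2_rel {D : Type u} [Ring D] (y : Fin 7 → D) : HRel y ↔ ∀ j, rs2R j y = 0 := by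
  unfold HRel
  constructor
  · rintro ⟨h0, h1, h2, h3, h4, h5⟩ j
    fin_cases j
    · exact h0
    · exact sub_eq_zero.2 h1
    · exact sub_eq_zero.2 h2
    · exact sub_eq_zero.2 h3
    · exact sub_eq_zero.2 h4
    · exact sub_eq_zero.2 h5
  · intro h
    exact ⟨h 0, sub_eq_zero.1 (h 1), sub_eq_zero.1 (h 2), sub_eq_zero.1 (h 3),
      sub_eq_zero.1 (h 4), sub_eq_zero.1 (h 5)⟩

theorem rs2_map {D E : Type u} [Ring D] [StarRing D] [Algebra ℂ D] [Ring E] [StarRing E]
    [Algebra ℂ E] (f : D →⋆ₐ[ℂ] E) (j : Fin 6) (y : Fin 7 → D) :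
    f (rs2R j y) = rs2R j (fun i => f (y i)) := by
  fin_cases j
  · exact map_mul f _ _
  · show f (y 2 * y 3 - (y 0 + y 1) * y 0) = f (y 2) * f (y 3) - (f (y 0) + f (y 1)) * f (y 0)
    simp only [map_sub, map_mul, map_add]
  · show f (y 3 * y 2 - (y 0 + y 1) * y 1) = f (y 3) * f (y 2) - (f (y 0) + f (y 1)) * f (y 1)
    simp only [map_sub, map_mul, map_add]
  · show f (y 0 * y 0 - (y 0 + y 1) * y 0) = f (y 0) * f (y 0) - (f (y 0) + f (y 1)) * f (y 0)
    simp only [map_sub, map_mul, map_add]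
  · show f (y 5 * y 4 - y 6 * (y 6 - (y 0 + y 1))) =
      f (y 5) * f (y 4) - f (y 6) * (f (y 6) - (f (y 0) + f (y 1)))
    simp only [map_sub, map_mul, map_add]
  · show f (y 0 * y 4 - y 6 * y 4) = f (y 0) * f (y 4) - f (y 6) * f (y 4)
    simp only [map_sub, map_mul]

section

variable {A : Type u} [NonUnitalCStarAlgebra A] {ω : Ultrafilter ℕ}

theorem rs2_apply (j : Fin 6) (x : Fin 7 → CS A ω) (n : ℕ) :
    ((rs2R j x : CS A ω) : Bdd (UA A)) n = rs2R j (fun i => (x i : Bdd (UA A)) n) := by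
  fin_cases j <;> rfl

theorem rs2_sum_apply {ι : Type} (s : Finset ι) (x : ι → CS A ω) (n : ℕ) :
    ((∑ l ∈ s, x l : CS A ω) : Bdd (UA A)) n = ∑ l ∈ s, (x l : Bdd (UA A)) n := by
  classical
  induction s using Finset.induction_on with
  | empty => rfl
  | insert a s ha ih =>
    rw [Finset.sum_insert ha, Finset.sum_insert ha, ← ih]
    rfl

/-- the countable index set of the conditions -/
abbrev RIx (d : ℕ) : Type :=
  (Fin (d + 1) × Fin 6 × ℕ) ⊕ ℕ ⊕ (Fin ((d + 1) * 7) × ℕ) ⊕ (Fin ((d + 1) * 7) × ℕ × ℕ)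

noncomputable def rs2F {G : Type v} [Group G] (α : G →* (A ≃⋆ₐ[ℂ] A))
    (a : ℕ → A) (γ : ℕ → G) (d : ℕ) : RIx d → (Fin ((d + 1) * 7) → UA A) → ℝ
  | Sum.inl (l, j, r), z => ‖rs2R j (fun i => z (finProdFinEquiv (l, i))) * (a r : UA A)‖
  | Sum.inr (Sum.inl r), z => ‖(∑ l, z (finProdFinEquiv (l, 6)) - 1) * (a r : UA A)‖
  | Sum.inr (Sum.inr (Sum.inl (i, r))), z => ‖z i * (a r : UA A) - (a r : UA A) * z i‖
  | Sum.inr (Sum.inr (Sum.inr (i, k, r))), z => ‖(extA α (γ k) (z i) - z i) * (a r : UA A)‖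

noncomputable def rs2K (a : ℕ → A) (d : ℕ) : RIx d → ℝ
  | Sum.inr (Sum.inr (Sum.inr (_, _, r))) => 2 * ‖(a r : UA A)‖ + 1
  | _ => 1

theorem rs2_coe {D : Type u} [Ring D] [StarRing D] [Algebra ℂ D] [StarModule ℂ D]
    (S : StarSubalgebra ℂ D) (z : Fin 7 → S) : HRel z ↔ HRel (fun i => (z i : D)) := by
  unfold HRel
  simp only [← Subtype.coe_inj]
  rfl

theorem rs2_ev {f : ℕ → ℝ} {c : ℝ} (hf : Tendsto f ω (𝓝 0)) (hc : 0 < c) :
    ∀ᶠ n in (ω : Filter ℕ), |f n| ≤ c := by
  filter_upwards [Metric.tendsto_nhds.1 hf c hc] with n hn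
  rw [Real.dist_eq, sub_zero] at hn
  exact hn.le

end

/-- RS2.  As `satN` with `sat_seq'` and `hrel_no_char` (index `Fin (d+1) × Fin 7 ≃ Fin m`). -/
theorem satT_proved {A : Type u} [NonUnitalCStarAlgebra A] [TopologicalSpace.SeparableSpace A]
    {ω : Ultrafilter ℕ} (hω : (ω : Filter ℕ) ≤ atTop) {F : Type u} [CStarAlgebra F] [Nontrivial F]
    (M : FMod A ω F) {G : Type v} [Group G] [Countable G]
    (α : G →* (A ≃⋆ₐ[ℂ] A)) {d : ℕ}
    (h : ∀ (S : Finset G) (ε : ℝ), 0 < ε → ∃ y : Fin (d + 1) → Fin 7 → F, (∀ l i, ‖y l i‖ ≤ 1) ∧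
      (∀ l, HRel (y l)) ∧ ∑ l, y l 6 = 1 ∧ ∀ s ∈ S, ∀ l i, ‖fAct M α s (y l i) - y l i‖ ≤ ε) :
    IsEmpty (fixAlg (fAct M α) Set.univ →⋆ₐ[ℂ] ℂ) := by
  classical
  set a : ℕ → A := TopologicalSpace.denseSeq A with ha
  have had : DenseRange a := TopologicalSpace.denseRange_denseSeq A
  obtain ⟨γ, hγ⟩ := exists_surjective_nat G
  set f : ℕ → (Fin ((d + 1) * 7) → UA A) → ℝ := fun j z =>
    (Encodable.decode (α := RIx d) j).elim 0 (fun i => rs2F α a γ d i z) with hf
  set K : ℕ → ℝ := fun j => (Encodable.decode (α := RIx d) j).elim 1 (rs2K a d) with hK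
  have hfe : ∀ i z, f (Encodable.encode i) z = rs2F α a γ d i z := by
    intro i z
    rw [hf]
    simp only [Encodable.encodek, Option.elim]
  have key : ∀ N : ℕ, ∃ z : ℕ → Fin ((d + 1) * 7) → UA A, (∀ n i, ‖z n i‖ ≤ 2) ∧
      ∀ j ≤ N, ∀ᶠ n in (ω : Filter ℕ), |f j (z n)| ≤ K j / ((N : ℝ) + 1) := by
    intro N
    set S : Finset G := (Finset.range (N + 1)).image (fun j =>
      (Encodable.decode (α := RIx d) j).elim 1
        (fun i => match i with
          | Sum.inr (Sum.inr (Sum.inr (_, k, _))) => γ k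
          | _ => 1)) with hS
    have hN : (0 : ℝ) < (N : ℝ) + 1 := by positivity
    have hN1 : (0 : ℝ) < 1 / ((N : ℝ) + 1) := by positivity
    obtain ⟨y, hy1, hyr, hys, hyi⟩ := h S (1 / ((N : ℝ) + 1)) hN1
    have hl : ∀ l i, ∃ Y : CS A ω, M.q Y = y l i ∧ ‖(Y : Bdd (UA A))‖ ≤ 2 :=
      fun l i => M.lift _ 2 (lt_of_le_of_lt (hy1 l i) one_lt_two)
    choose Y hY hY2 using hl
    refine ⟨fun n i => (Y (finProdFinEquiv.symm i).1 (finProdFinEquiv.symm i).2 : Bdd (UA A)) n,
      fun n i => (aom_apply_le _ n).trans (hY2 _ _), fun j hj => ?_⟩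
    simp only [hf, hK]
    cases hd : (Encodable.decode (α := RIx d) j) with
    | none =>
      refine Eventually.of_forall fun n => ?_
      simp only [Option.elim, abs_zero]
      exact hN1.le
    | some i =>
      simp only [Option.elim]
      rcases i with ⟨l, i, r⟩ | r | ⟨i, r⟩ | ⟨i, k, r⟩
      · have h1 := (rs2_rel _).1 (hyr l) i
        have h2 : M.q (rs2R i (Y l)) = 0 := by
          rw [rs2_map M.q]
          simp only [hY]
          exact h1
        rw [M.ker] at h2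
        have h3 := rs2_ev (h2 (a r)) hN1
        filter_upwards [h3] with n hn
        rw [rs2_apply] at hn
        simp only [rs2F, rs2K, Equiv.symm_apply_apply]
        exact hn
      · have h2 : M.q (∑ l, Y l 6 - 1) = 0 := by
          rw [map_sub, map_sum, map_one, sub_eq_zero]
          simp only [hY]
          exact hys
        rw [M.ker] at h2
        have h3 := rs2_ev (h2 (a r)) hN1
        filter_upwards [h3] with n hn
        have h4 : ((∑ l, Y l 6 - 1 : CS A ω) : Bdd (UA A)) n =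
            ∑ l, (Y l 6 : Bdd (UA A)) n - 1 := by
          rw [← rs2_sum_apply]
          rfl
        rw [h4] at hn
        simp only [rs2F, rs2K, Equiv.symm_apply_apply]
        exact hn
      · have h3 := rs2_ev ((Y (finProdFinEquiv.symm i).1 (finProdFinEquiv.symm i).2).2 (a r)) hN1
        exact h3
      · have hk : γ k ∈ S := by
          rw [hS, Finset.mem_image]
          refine ⟨j, Finset.mem_range.2 (Nat.lt_succ_of_le hj), ?_⟩
          simp only [hd, Option.elim]
        obtain ⟨W, hW⟩ : ∃ W, W = Y (finProdFinEquiv.symm i).1 (finProdFinEquiv.symm i).2 :=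
          ⟨_, rfl⟩
        have h1 := hyi (γ k) hk (finProdFinEquiv.symm i).1 (finProdFinEquiv.symm i).2
        rw [← hY, ← hW, fAct_q, ← map_sub] at h1
        obtain ⟨X, hX, hX2⟩ := M.lift _ (2 / ((N : ℝ) + 1)) (lt_of_le_of_lt h1
          (div_lt_div_of_pos_right one_lt_two hN))
        have h2 : M.q (csMap ω α (γ k) W - W - X) = 0 := by
          rw [map_sub, hX, sub_self]
        rw [M.ker] at h2
        have h3 := rs2_ev (h2 (a r)) hN1
        filter_upwards [h3] with n hn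
        simp only [rs2F, rs2K]
        rw [← hW]
        rw [abs_of_nonneg (norm_nonneg _)] at hn ⊢
        have e : (extA α (γ k) ((W : Bdd (UA A)) n) - (W : Bdd (UA A)) n) * (a r : UA A) =
            ((csMap ω α (γ k) W - W - X : CS A ω) : Bdd (UA A)) n * (a r : UA A) +
              (X : Bdd (UA A)) n * (a r : UA A) := by
          have e1 : ((csMap ω α (γ k) W - W - X : CS A ω) : Bdd (UA A)) n =
              extA α (γ k) ((W : Bdd (UA A)) n) - (W : Bdd (UA A)) n - (X : Bdd (UA A)) n := rfl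
          rw [e1]
          noncomm_ring
        rw [e]
        refine (norm_add_le _ _).trans ?_
        have h5 : ‖(X : Bdd (UA A)) n * (a r : UA A)‖ ≤ 2 / ((N : ℝ) + 1) * ‖(a r : UA A)‖ :=
          (norm_mul_le _ _).trans
            (mul_le_mul_of_nonneg_right ((aom_apply_le X.1 n).trans hX2) (norm_nonneg _))
        have h6 : (2 * ‖(a r : UA A)‖ + 1) / ((N : ℝ) + 1) =
            2 / ((N : ℝ) + 1) * ‖(a r : UA A)‖ + 1 / ((N : ℝ) + 1) := by ring
        rw [h6]
        linarith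
  obtain ⟨z, hz, hzf⟩ := sat_seq' ω hω f 2 K key
  have hb : ∀ i, Memℓp (fun n => z n i) ∞ := fun i =>
    memℓp_infty ⟨2, by rintro _ ⟨n, rfl⟩; exact hz n i⟩
  set x0 : Fin ((d + 1) * 7) → Bdd (UA A) := fun i => ⟨fun n => z n i, hb i⟩ with hx0
  have hcs : ∀ i, x0 i ∈ CS A ω := by
    intro i
    refine nsat_dense' a had (x0 i) fun l => ?_
    have := hzf (Encodable.encode (Sum.inr (Sum.inr (Sum.inl (i, l))) : RIx d))
    simp only [hfe] at this
    exact this
  set x : Fin ((d + 1) * 7) → CS A ω := fun i => ⟨x0 i, hcs i⟩ with hx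
  have hrel : ∀ l, HRel (fun i => M.q (x (finProdFinEquiv (l, i)))) := by
    intro l
    rw [rs2_rel]
    intro j
    rw [← rs2_map M.q, M.ker]
    refine nsat_dense a had _ fun r => ?_
    have := hzf (Encodable.encode (Sum.inl (l, j, r) : RIx d))
    simp only [hfe] at this
    refine this.congr fun n => ?_
    rw [rs2_apply]
    rfl
  have hsum : ∑ l, M.q (x (finProdFinEquiv (l, 6))) = 1 := by
    rw [← sub_eq_zero, ← map_sum, ← map_one M.q, ← map_sub, M.ker]
    refine nsat_dense a had _ fun r => ?_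
    have := hzf (Encodable.encode (Sum.inr (Sum.inl r) : RIx d))
    simp only [hfe] at this
    refine this.congr fun n => ?_
    have h4 : ((∑ l, x (finProdFinEquiv (l, 6)) - 1 : CS A ω) : Bdd (UA A)) n =
        ∑ l, (x (finProdFinEquiv (l, 6)) : Bdd (UA A)) n - 1 := by
      rw [← rs2_sum_apply]
      rfl
    rw [h4]
    rfl
  have hfix : ∀ i, M.q (x i) ∈ fixAlg (fAct M α) Set.univ := by
    intro i g _
    obtain ⟨k, rfl⟩ := hγ g
    rw [fAct_q, ← sub_eq_zero, ← map_sub, M.ker]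
    refine nsat_dense a had _ fun l => ?_
    have := hzf (Encodable.encode (Sum.inr (Sum.inr (Sum.inr (i, k, l))) : RIx d))
    simp only [hfe] at this
    exact this
  refine hrel_no_char (fun l i =>
    (⟨M.q (x (finProdFinEquiv (l, i))), hfix _⟩ : fixAlg (fAct M α) Set.univ))
    (fun l => (rs2_coe _ _).2 (hrel l)) ?_
  apply Subtype.ext
  rw [AddSubmonoidClass.coe_finsetSum]
  exact hsum

end Vale.Agent.P095
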