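import Vale.Agent.P095.NFinal
import Vale.Agent.P095.RTr
import Vale.Agent.P095.R_RS2

open scoped ENNReal Topology
open Filter

namespace Vale.Agent.P095

open Vale.Agent.P101K

universe u v w

theorem fixAlg_bot_act {D : Type u} [CStarAlgebra D] {G : Type v} [Group G]
    {α : G → (D →⋆ₐ[ℂ] D)} (hα : IsAct α) (x : D) : x ∈ fixAlg α ((⊥ : Subgroup G) : Set G) := by
  intro g hg
  have : g = 1 := by simpa using hg
  rw [this, hα.one]

theorem main_tower {A : Type u} [NonUnitalCStarAlgebra A] [Nontrivial A]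
    [TopologicalSpace.SeparableSpace A] {ω : Ultrafilter ℕ} (hω : (ω : Filter ℕ) ≤ atTop)
    {F : Type u} [CStarAlgebra F] (M : FMod A ω F) {G : Type v} [Group G] [Countable G]
    (α : G →* (A ≃⋆ₐ[ℂ] A)) (h : EqZ A ω α ⊥) {d : ℕ} (hT : TowerDim A ω α d) :
    EqZ A ω α ⊤ := by
  have := fmod_nontrivial M
  have hE := f_eqCopies hω M α
  obtain ⟨w, hw, hw1⟩ := exists_rel (hasCopies_fix _ hE ((⊥ : Subgroup G) : Set G))
    ((eqZN_iff hω M α ⊥).1 h)
  have h2 := satT_proved hω M α (tower_data (fAct_isAct M α) hE (fun i => (w i : F))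
    ((nsat_coe _ _).1 hw) hw1 (towers_of M α hT))
  rw [eqZN_iff hω M]
  simpa using h2

end Vale.Agent.P095
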